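import Vale.Agent.P076N.SL.Asm1

/-! # P076N / SL : the main assembly `SL2` -/

set_option linter.all false

open MeasureTheory Finset

namespace Vale.Agent.P076N.SL

open Vale.Agent.P076 Vale.Agent.P076N

variable {d : ℕ}

theorem rhs_lb {l N a δ : ℝ} (hl : 1 ≤ l) (hN : 1 ≤ N) (hNl : N ≤ l) (ha : 1 ≤ a) (hδ : 0 ≤ δ) :
    l ^ (-(δ * (3 * d + 2))) ≤ rhs d δ l N a := by
  unfold rhs
  have h1 : 1 ≤ N ^ (((d : ℝ) + 1) / (d + 2)) := Real.one_le_rpow hN (by positivity)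
  have h2 : 1 ≤ l ^ ((d : ℝ) / (d + 2)) := Real.one_le_rpow hl (by positivity)
  have h3 := lam_lb (d := d) hl hN hNl ha hδ
  have h4 : 1 ≤ N ^ (((d : ℝ) + 1) / (d + 2)) * l ^ ((d : ℝ) / (d + 2)) := one_le_mul_of_one_le_of_one_le h1 h2
  exact h3.trans (le_mul_of_one_le_left (by positivity) h4)

theorem rhs_nonneg {l N a δ : ℝ} (hl : 0 ≤ l) (hN : 0 ≤ N) (ha : 0 ≤ a) : 0 ≤ rhs d δ l N a := by
  unfold rhs; positivity

/-- small amplitudes -/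
theorem small_case {l N a δ α C e e2 : ℝ} (hl : 1 ≤ l) (hN : 1 ≤ N) (hNl : N ≤ l) (ha : 1 ≤ a) (hδ : 0 ≤ δ) (hδ1 : δ ≤ 1)
    (hC : 0 ≤ C) (he : 0 ≤ e2) (ha2 : a ≤ l ^ (4 * (d + 1))) (h : α ^ 2 ≤ C * (l ^ (8 * (d + 1)))⁻¹ * e2) :
    α ^ 2 * a ≤ C * rhs d δ l N a * e2 := by
  have hl0 : 0 < l := by linarith
  have h1 : (l ^ (8 * (d + 1)))⁻¹ * l ^ (4 * (d + 1)) ≤ rhs d δ l N a := by
    refine le_trans ?_ (rhs_lb hl hN hNl ha hδ)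
    rw [← Real.rpow_natCast, ← Real.rpow_natCast, ← Real.rpow_neg hl0.le, ← Real.rpow_add hl0]
    refine Real.rpow_le_rpow_of_exponent_le hl ?_
    push_cast
    have : (0 : ℝ) ≤ d := by positivity
    nlinarith
  calc α ^ 2 * a ≤ (C * (l ^ (8 * (d + 1)))⁻¹ * e2) * l ^ (4 * (d + 1)) := by gcongr
    _ = C * ((l ^ (8 * (d + 1)))⁻¹ * l ^ (4 * (d + 1))) * e2 := by ring
    _ ≤ _ := by gcongr

/-- from the normalised bound to the final one -/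
theorem fin_case {l N a δ δ1 κ α C C' e2 : ℝ} (hl : 1 ≤ l) (hN : 1 ≤ N) (hNl : N ≤ l) (hNk : N ≤ l ^ (κ / 2)) (ha : 1 ≤ a)
    (hδ : 0 < δ) (hδ1 : δ ≤ δ1) (hδk : δ * (3 * d + 2) ≤ κ / 2) (hC : 0 ≤ C) (hC' : 0 ≤ C') (he : 0 ≤ e2) (hα : 0 < α)
    (h : a / l ^ (2 * d + 1) ≤ C * ((min 1 (a / l ^ (2 * d + 1) / N ^ (d + 1))) ^ δ1 * N ^ (((d : ℝ) + 1) / (d + 2)) +
      l ^ (-κ) * N) * (C' / l * e2 / E0 d l α)) :
    α ^ 2 * a ≤ 2 * C * C' * rhs d δ l N a * e2 := by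
  have hl0 : 0 < l := by linarith
  have hE := E0_pos (d := d) hl0 hα
  rw [div_div] at h
  set lam := a / (l ^ (2 * d + 1) * N ^ (d + 1)) with hlam
  have hlam0 : 0 < lam := by positivity
  have h1 : (min 1 lam) ^ δ1 ≤ lam ^ δ :=
    (Real.rpow_le_rpow_of_exponent_ge (lt_min one_pos hlam0) (min_le_left _ _) hδ1).trans
      (Real.rpow_le_rpow (lt_min one_pos hlam0).le (min_le_right _ _) hδ.le)
  have hq : 1 ≤ N ^ (((d : ℝ) + 1) / (d + 2)) := Real.one_le_rpow hN (by positivity)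
  have h2 : l ^ (-κ) * N ≤ lam ^ δ * N ^ (((d : ℝ) + 1) / (d + 2)) := by
    have h3 := lam_lb (d := d) hl hN hNl ha hδ.le
    calc l ^ (-κ) * N ≤ l ^ (-κ) * l ^ (κ / 2) := by gcongr
      _ = l ^ (-(κ / 2)) := by rw [← Real.rpow_add hl0]; congr 1; ring
      _ ≤ l ^ (-(δ * (3 * d + 2))) := Real.rpow_le_rpow_of_exponent_le hl (by linarith)
      _ ≤ lam ^ δ := h3
      _ ≤ _ := le_mul_of_one_le_right (by positivity) hq
  have h4 : a / l ^ (2 * d + 1) ≤ C * (2 * (lam ^ δ * N ^ (((d : ℝ) + 1) / (d + 2)))) * (C' / l * e2 / E0 d l α) := by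
    refine h.trans ?_
    gcongr
    have : (min 1 lam) ^ δ1 * N ^ (((d : ℝ) + 1) / (d + 2)) ≤ lam ^ δ * N ^ (((d : ℝ) + 1) / (d + 2)) := by gcongr
    linarith
  rw [div_le_iff₀ (by positivity)] at h4
  refine (mul_le_mul_of_nonneg_left h4 (sq_nonneg α)).trans (le_of_eq ?_)
  unfold rhs E0
  rw [← hlam]
  have hq2 : 0 < l ^ ((d : ℝ) / (d + 2)) := by positivity
  field_simp
  ring

section
variable {ι : Type}

/-- the block of a point -/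
noncomputable def bl (l : ℝ) (x : ι → E d) (t : ι → ℝ) (Y : ι → ℤ) (i : ι) : Bk d :=
  (cb (l ^ 2) (x i), ⌊t i / l ^ 2⌋, ⌊(Y i : ℝ) / l⌋)

/-- the slices met in a block -/
noncomputable def Yb (l : ℝ) (A : Finset ι) (x : ι → E d) (t : ι → ℝ) (Y : ι → ℤ) (b : Bk d) : Finset ℤ :=
  (A.filter fun i => bl l x t Y i = b).image Y

/-- the normalised number of points in a slice of a block -/
noncomputable def mm (l : ℝ) (A : Finset ι) (x : ι → E d) (t : ι → ℝ) (Y : ι → ℤ) (b : Bk d) (y : ℤ) : ℝ :=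
  (#((A.filter fun i => bl l x t Y i = b).filter fun i => Y i = y) : ℝ) / l ^ (2 * d + 1)

variable {l : ℝ} {A : Finset ι} {x : ι → E d} {t : ι → ℝ} {Y : ι → ℤ}

theorem bl_beta {N : ℕ} (hl : 1 ≤ l) (ht : ∀ i ∈ A, 0 ≤ t i ∧ t i < N * l ^ 2) :
    ∀ b ∈ A.image (bl l x t Y), 0 ≤ b.2.1 ∧ b.2.1 < N := by
  intro b hb
  obtain ⟨i, hi, rfl⟩ := Finset.mem_image.1 hb
  obtain ⟨h1, h2⟩ := ht i hi
  refine ⟨Int.floor_nonneg.2 (by positivity), Int.floor_lt.2 ?_⟩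
  rw [div_lt_iff₀ (by positivity)]
  exact_mod_cast h2

theorem Yb_floor (b : Bk d) : ∀ y ∈ Yb l A x t Y b, ⌊(y : ℝ) / l⌋ = b.2.2 := by
  intro y hy
  obtain ⟨i, hi, rfl⟩ := Finset.mem_image.1 hy
  rw [← (Finset.mem_filter.1 hi).2]
  rfl

theorem Yb_ne : ∀ b ∈ A.image (bl l x t Y), (Yb l A x t Y b).Nonempty := by
  intro b hb
  obtain ⟨i, hi, rfl⟩ := Finset.mem_image.1 hb
  exact ⟨Y i, Finset.mem_image_of_mem _ (Finset.mem_filter.2 ⟨hi, rfl⟩)⟩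

theorem sum_mm (b : Bk d) :
    ∑ y ∈ Yb l A x t Y b, mm l A x t Y b y = (#(A.filter fun i => bl l x t Y i = b) : ℝ) / l ^ (2 * d + 1) := by
  unfold mm Yb
  rw [← Finset.sum_div, Finset.card_eq_sum_card_image Y (A.filter fun i => bl l x t Y i = b)]
  push_cast
  rfl

theorem sum_sum_mm : ∑ b ∈ A.image (bl l x t Y), ∑ y ∈ Yb l A x t Y b, mm l A x t Y b y = (#A : ℝ) / l ^ (2 * d + 1) := by
  simp only [sum_mm]
  rw [← Finset.sum_div, Finset.card_eq_sum_card_image (bl l x t Y) A]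
  push_cast
  rfl

/-- normalisation of the block count -/
theorem norm_kb (hd : 1 ≤ d) {C B κ δ α a φ1 φ2 Y1 Y2 : ℝ} (hl : 1 ≤ l) (hα : 0 < α) (hCB : C ≤ B) (h1 : 0 ≤ φ1) (h2 : 0 ≤ φ2)
    (hY1 : 0 ≤ Y1) (hY2 : 0 ≤ Y2) (h : a ≤ C * kb d κ δ l α φ1 Y1 + C * kb d κ δ l α φ2 Y2) :
    a / l ^ (2 * d + 1) ≤ B * (φ1 ^ δ * (Y1 / E0 d l α) ^ (((d : ℝ) + 2) / d) + l ^ (-κ) * (Y1 / E0 d l α)) +
      B * (φ2 ^ δ * (Y2 / E0 d l α) ^ (((d : ℝ) + 2) / d) + l ^ (-κ) * (Y2 / E0 d l α)) := by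
  have hl0 : 0 < l := by linarith
  have hE := E0_pos (d := d) hl0 hα
  rw [kb_eq hd _ _ _ hl0 hα hY1, kb_eq hd _ _ _ hl0 hα hY2] at h
  rw [div_le_iff₀ (by positivity)]
  refine h.trans ?_
  generalize hu : φ1 ^ δ * (Y1 / E0 d l α) ^ (((d : ℝ) + 2) / d) + l ^ (-κ) * (Y1 / E0 d l α) = u
  generalize hv : φ2 ^ δ * (Y2 / E0 d l α) ^ (((d : ℝ) + 2) / d) + l ^ (-κ) * (Y2 / E0 d l α) = v
  have hu0 : 0 ≤ u := by rw [← hu]; positivity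
  have hv0 : 0 ≤ v := by rw [← hv]; positivity
  have hp : 0 ≤ l ^ (2 * d + 1) := by positivity
  nlinarith [mul_nonneg (sub_nonneg.2 hCB) (mul_nonneg hp hu0), mul_nonneg (sub_nonneg.2 hCB) (mul_nonneg hp hv0)]

/-- the conclusion of `KL` at a fixed scale -/
def KL1 (d : ℕ) (η κ δ C s l : ℝ) (ω : (Fin d → ℤ) → E d → ℝ) : Prop :=
  ∀ (h : E d → ℂ) (Θ : Finset (Fin d → ℤ)) (Q : Fin d → ℤ) (β : ℤ) (ι : Type) (A : Finset ι) (x : ι → E d)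
      (t : ι → ℝ) (α : ℝ), Bd 2 h → Θ ⊆ TT d (l ^ η) → 0 ≤ β → (β : ℝ) ≤ l ^ (η / 2) → 0 < α →
      C * s * en h ≤ α ^ 2 →
      (∀ i ∈ A, cb (l ^ 2) (x i) = Q ∧ ⌊t i / l ^ 2⌋ = β) →
      (∀ i ∈ A, ∀ j ∈ A, i ≠ j → (∃ k, 1 ≤ |x i k - x j k|) ∨ l ≤ |t i - t j|) →
      (∀ i ∈ A, α ≤ ‖evo h (x i) (t i) 0‖) →
      (#A : ℝ) ≤ C * kb d κ δ l α (#Θ / (l ^ η) ^ d) (eb (l ^ η) ω h Q β Θ) +
        C * kb d κ δ l α (#(TT d (l ^ η) \ Θ) / (l ^ η) ^ d) (eb (l ^ η) ω h Q β (TT d (l ^ η) \ Θ))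

theorem mm_le (hd : 1 ≤ d) (hB : BAS d) {η κ δ C s B W α : ℝ} {ω : (Fin d → ℤ) → E d → ℝ} {G : E d × ℝ → ℂ}
    (hKL : KL1 d η κ δ C s l ω) (hω : Wt W ω) (hl : 1 ≤ l) (hG : Str l G) (hα : 0 < α) (hC : 0 ≤ C) (hs : 0 ≤ s) (hCB : C ≤ B)
    (hsm : C * s * en2 G ≤ α ^ 2)
    (hsep : ∀ i ∈ A, ∀ j ∈ A, i ≠ j → (∃ k, 1 ≤ |x i k - x j k|) ∨ l ≤ |t i - t j| ∨ Y i ≠ Y j)
    (hamp : ∀ i ∈ A, α ≤ ‖evo (slc G (l * Y i) (l ^ 2 * ⌊t i / l ^ 2⌋)) (x i) (t i) 0‖)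
    (b : Bk d) (hb0 : 0 ≤ b.2.1) (hb1 : (b.2.1 : ℝ) ≤ l ^ (η / 2)) (y : ℤ) (Θ : Finset (Fin d → ℤ)) (hΘ : Θ ⊆ TT d (l ^ η)) :
    mm l A x t Y b y ≤
      B * ((#Θ / (l ^ η) ^ d) ^ δ * (∑ τ ∈ Θ, ey l (l ^ η) ω G b y τ / E0 d l α) ^ (((d : ℝ) + 2) / d) +
        l ^ (-κ) * ∑ τ ∈ Θ, ey l (l ^ η) ω G b y τ / E0 d l α) +
      B * ((#(TT d (l ^ η) \ Θ) / (l ^ η) ^ d) ^ δ * (∑ τ ∈ TT d (l ^ η) \ Θ, ey l (l ^ η) ω G b y τ / E0 d l α) ^ (((d : ℝ) + 2) / d) +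
        l ^ (-κ) * ∑ τ ∈ TT d (l ^ η) \ Θ, ey l (l ^ η) ω G b y τ / E0 d l α) := by
  have hl0 : 0 < l := by linarith
  have hey : ∀ τ, 0 ≤ ey l (l ^ η) ω G b y τ := fun τ => ee_nonneg (hω.nn _) _
  obtain ⟨b1, b2⟩ := hB.1 l G (l * y) (l ^ 2 * b.2.1) hl hG
  have hk := hKL (slc G (l * y) (l ^ 2 * b.2.1)) Θ b.1 b.2.1 ι ((A.filter fun i => bl l x t Y i = b).filter fun i => Y i = y) x t α
    b1 hΘ hb0 hb1 hα (le_trans (mul_le_mul_of_nonneg_left b2 (mul_nonneg hC hs)) hsm)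
    (fun i hi => by
      rw [Finset.mem_filter, Finset.mem_filter] at hi
      rw [← hi.1.2]
      exact ⟨rfl, rfl⟩)
    (fun i hi j hj hij => by
      rw [Finset.mem_filter, Finset.mem_filter] at hi hj
      rcases hsep i hi.1.1 j hj.1.1 hij with h | h | h
      · exact Or.inl h
      · exact Or.inr h
      · exact absurd (hi.2.trans hj.2.symm) h)
    (fun i hi => by
      rw [Finset.mem_filter, Finset.mem_filter] at hi
      rw [← hi.1.2, ← hi.2]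
      exact hamp i hi.1.1)
  rw [← Finset.sum_div, ← Finset.sum_div]
  exact norm_kb hd hl hα hCB (by positivity) (by positivity) (Finset.sum_nonneg fun τ _ => hey τ)
    (Finset.sum_nonneg fun τ _ => hey τ) hk

end

theorem asm (d : ℕ) (hd : 1 ≤ d) : ASM d := by
  intro hB hKL hEN hXR hNUM
  obtain ⟨η, κ, δ0, hη, hη1, hκ, hδ0, hKL⟩ := hKL
  obtain ⟨δ1, hδ1, hNUM⟩ := hNUM δ0 hδ0
  obtain ⟨C1, hC1, hKL⟩ := hKL (8 * (d + 1))
  obtain ⟨C3, hC3, hEN⟩ := hEN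
  obtain ⟨B, hBa, hBb, hBc⟩ : ∃ B : ℝ, C1 ≤ B ∧ (4 : ℝ) ^ (d + 1) ≤ B ∧ (4 : ℝ) * 13 ^ d ≤ B :=
    ⟨max (max C1 (4 ^ (d + 1))) (4 * 13 ^ d), (le_max_left _ _).trans (le_max_left _ _),
      (le_max_right _ _).trans (le_max_left _ _), le_max_right _ _⟩
  have hB1 : 1 ≤ B := (one_le_pow₀ (by norm_num)).trans hBb
  have hBd : (13 : ℝ) ^ d ≤ B := by nlinarith [pow_pos (show (0:ℝ) < 13 by norm_num) d]
  obtain ⟨C4, hC4, hNUM⟩ := hNUM B hB1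
  have h32 : (0 : ℝ) < 3 * d + 2 := by positivity
  obtain ⟨δ, hδ, hδa, hδb, hδc⟩ : ∃ δ : ℝ, 0 < δ ∧ δ ≤ δ1 ∧ δ ≤ 1 ∧ δ * (3 * d + 2) ≤ κ / 2 :=
    ⟨min δ1 (min 1 (κ / 2 / (3 * d + 2))), lt_min hδ1 (lt_min one_pos (by positivity)), min_le_left _ _,
      (min_le_right _ _).trans (min_le_left _ _), (le_div_iff₀ h32).1 ((min_le_right _ _).trans (min_le_right _ _))⟩
  refine ⟨min (η / 2) (κ / 2), δ, lt_min (by positivity) (by positivity), hδ, hδb, C1 + 2 * C4 * (C3 * 19 ^ d), by positivity, ?_⟩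
  intro l N G ι A x t Y α hl hN hNl hG hα hsep hcap ht hcard hamp
  have hl0 : 0 < l := by linarith
  have hN1 : (1 : ℝ) ≤ N := by exact_mod_cast hN
  have hNa : (N : ℝ) ≤ l ^ (η / 2) := hNl.trans (Real.rpow_le_rpow_of_exponent_le hl (min_le_left _ _))
  have hNb : (N : ℝ) ≤ l ^ (κ / 2) := hNl.trans (Real.rpow_le_rpow_of_exponent_le hl (min_le_right _ _))
  have hNL : (N : ℝ) ≤ l ^ η := hNa.trans (Real.rpow_le_rpow_of_exponent_le hl (by linarith))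
  have hNc : (N : ℝ) ≤ l := hNL.trans (by simpa using Real.rpow_le_rpow_of_exponent_le hl hη1)
  have he2 := en2_nonneg G
  have hr0 : 0 ≤ rhs d δ l N #A := rhs_nonneg hl0.le (by positivity) (by positivity)
  rcases hα.eq_or_lt with hα0 | hα0
  · rw [← hα0]; simp only [ne_eq, OfNat.ofNat_ne_zero, not_false_eq_true, zero_pow, zero_mul]; positivity
  rcases A.eq_empty_or_nonempty with hA | hA
  · rw [hA] at hr0 ⊢; simp only [Finset.card_empty, Nat.cast_zero, mul_zero] at hr0 ⊢; positivity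
  have hA1 : (1 : ℝ) ≤ #A := by exact_mod_cast hA.card_pos
  rcases le_total (α ^ 2) (C1 * (l ^ (8 * (d + 1)))⁻¹ * en2 G) with hsm | hsm
  · refine (small_case (e := 0) hl hN1 hNc hA1 hδ.le hδb hC1 he2 hcard hsm).trans ?_
    gcongr
    exact le_add_of_nonneg_right (by positivity)
  have hL1 : 1 ≤ l ^ η := Real.one_le_rpow hl hη.le
  obtain ⟨ω, hω, hKL⟩ := hKL l hl
  obtain ⟨m0, hm0, hmJ, hT⟩ := hEN (19 ^ d) l (l ^ η) ω G hl hω hG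
  have hE := E0_pos (d := d) hl0 hα0
  have hSβ := bl_beta (x := x) (Y := Y) hl ht
  have hmain := hNUM (Bk d) ℤ (Fin d → ℤ) ((Fin d → ℤ) × ℤ) (A.image (bl l x t Y)) (Yb l A x t Y) (TT d (l ^ η)) (tb (l ^ η))
    (mm l A x t Y) (fun b y τ => ey l (l ^ η) ω G b y τ / E0 d l α) N ((l ^ η) ^ d) (C3 * 19 ^ d / l * en2 G / E0 d l α)
    (l ^ (-κ)) hN1 (by positivity) (by positivity) (by positivity)
    ((hB.2.2.2.1 _ hL1).1.trans (mul_le_mul_of_nonneg_right hBd (by positivity))) Yb_ne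
    (fun b y => by unfold mm; positivity) (fun b y τ => div_nonneg (ee_nonneg (hω.nn _) _) hE.le)
    (fun b hb y _ Θ hΘ => mm_le hd hB hKL hω hl hG hα0 hC1 (by positivity) hBa hsm hsep hamp b (hSβ b hb).1
      (le_trans (by exact_mod_cast (hSβ b hb).2.le) hNa) y Θ hΘ)
    (fun b _ => by
      rw [sum_mm, div_le_iff₀ (by positivity)]
      exact (hcap b).trans (mul_le_mul_of_nonneg_right hBb (by positivity)))
    (by
      simp only [← Finset.sum_div]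
      rw [← mul_div_assoc]
      refine div_le_div_of_nonneg_right ?_ hE.le
      refine (sig_le hC3 hl hm0 hmJ hT _ _ _ hSβ (fun b _ => Yb_floor b)).trans (le_of_eq ?_)
      ring)
    (fun D hD Θ y K _ hy hK => by
      simp only [← Finset.sum_div]
      rw [← mul_div_assoc]
      refine div_le_div_of_nonneg_right ?_ hE.le
      refine (low_le hC3 hl hNc hmJ hT D Θ y (fun b hb => hSβ b (hD hb)) (fun b hb => Yb_floor b _ (hy b hb)) hK).trans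
        (le_of_eq ?_)
      ring)
    (fun D hD b hb => by
      obtain ⟨h1, h2⟩ := hXR _ N D hL1 hNL (fun b hb => hSβ b (hD hb)) b hb
      exact ⟨h1, h2.trans (by gcongr)⟩)
  rw [sum_sum_mm] at hmain
  refine (fin_case hl hN1 hNc hNb hA1 hδ hδa hδc hC4 (by positivity) he2 hα0 hmain).trans ?_
  gcongr
  exact le_add_of_nonneg_left hC1

end Vale.Agent.P076N.SL
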