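import Vale.Agent.P076N.SL.Spec

/-! # P076N / SL : tools for the main assembly (normalisation, grouping along tubes) -/

set_option linter.all false

open MeasureTheory Finset

namespace Vale.Agent.P076N.SL

open Vale.Agent.P076 Vale.Agent.P076N

variable {d : ℕ}

/-- the unit of energy -/
noncomputable def E0 (d : ℕ) (l α : ℝ) : ℝ := α ^ 2 * l ^ (2 * d) / l ^ ((d : ℝ) / (d + 2))

theorem E0_pos {l α : ℝ} (hl : 0 < l) (hα : 0 < α) : 0 < E0 d l α := by unfold E0; positivity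

theorem kb_eq (hd : 1 ≤ d) (κ δ φ : ℝ) {l α Y : ℝ} (hl : 0 < l) (hα : 0 < α) (hY : 0 ≤ Y) :
    kb d κ δ l α φ Y = l ^ (2 * d + 1) * (φ ^ δ * (Y / E0 d l α) ^ (((d : ℝ) + 2) / d) + l ^ (-κ) * (Y / E0 d l α)) := by
  have hd0 : (0 : ℝ) < d := by exact_mod_cast hd
  have hq : 0 < l ^ ((d : ℝ) / (d + 2)) := by positivity
  have e1 : Y / E0 d l α = Y / (l ^ (2 * d) * α ^ 2) * l ^ ((d : ℝ) / (d + 2)) := by
    unfold E0; field_simp
  have e2 : (l ^ ((d : ℝ) / (d + 2))) ^ (((d : ℝ) + 2) / d) = l := by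
    rw [← Real.rpow_mul hl.le]
    have : (d : ℝ) / (d + 2) * ((d + 2) / d) = 1 := by field_simp
    rw [this, Real.rpow_one]
  have e3 : l ^ (2 * ((d : ℝ) + 1) / (d + 2) - κ) = l * l ^ (-κ) * l ^ ((d : ℝ) / (d + 2)) := by
    have : 2 * ((d : ℝ) + 1) / (d + 2) - κ = 1 + -κ + d / (d + 2) := by field_simp; ring
    rw [this, Real.rpow_add hl, Real.rpow_add hl, Real.rpow_one]
  unfold kb
  rw [e3, e1, Real.mul_rpow (by positivity) hq.le, e2]
  field_simp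
  ring

theorem lam_lb {l N a δ : ℝ} (hl : 1 ≤ l) (hN : 1 ≤ N) (hNl : N ≤ l) (ha : 1 ≤ a) (hδ : 0 ≤ δ) :
    l ^ (-(δ * (3 * d + 2))) ≤ (a / (l ^ (2 * d + 1) * N ^ (d + 1))) ^ δ := by
  have hl0 : 0 < l := by linarith
  have e : l ^ (-(δ * (3 * d + 2))) = (1 / l ^ (3 * d + 2)) ^ δ := by
    rw [one_div, ← Real.rpow_natCast, ← Real.rpow_neg hl0.le, ← Real.rpow_mul hl0.le]
    congr 1; push_cast; ring
  rw [e]
  refine Real.rpow_le_rpow (by positivity) ?_ hδ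
  have h1 : l ^ (2 * d + 1) * N ^ (d + 1) ≤ l ^ (3 * d + 2) := by
    have : l ^ (3 * d + 2) = l ^ (2 * d + 1) * l ^ (d + 1) := by rw [← pow_add]; congr 1; ring
    rw [this]; gcongr
  exact div_le_div₀ (by linarith) ha (by positivity) h1

theorem ee_nonneg {w : E d → ℝ} (hw : ∀ x, 0 ≤ w x) (h : E d → ℂ) : 0 ≤ ee w h :=
  integral_nonneg fun x => mul_nonneg (hw x) (sq_nonneg _)

theorem en2_nonneg (G : E d × ℝ → ℂ) : 0 ≤ en2 G := integral_nonneg fun _ => sq_nonneg _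

theorem sum_key {ι κ : Type} [DecidableEq κ] (I : Finset ι) (key : ι → κ) (f : ι → ℝ) (g : κ → ℝ)
    (h : ∀ k, ∑ i ∈ I.filter (fun i => key i = k), f i ≤ g k) : ∑ i ∈ I, f i ≤ ∑ k ∈ I.image key, g k := by
  rw [← Finset.sum_fiberwise_of_maps_to (g := key) (t := I.image key) (fun i hi => Finset.mem_image_of_mem _ hi)]
  exact Finset.sum_le_sum fun k _ => h k

/-- the property of the tube masses delivered by `EN` -/
def TM (d : ℕ) (C l L : ℝ) (ω : (Fin d → ℤ) → E d → ℝ) (G : E d × ℝ → ℂ) (m : (Fin d → ℤ) × (Fin d → ℤ) → ℝ) : Prop :=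
  ∀ (τ Q : Fin d → ℤ) (σ K : ℝ) (ι : Type) (I : Finset ι) (P β : ι → ℤ) (y : ι → ℝ), 0 < σ →
      (∀ i ∈ I, ∀ j ∈ I, P i = P j → β i = β j → i = j) → (∀ i ∈ I, |y i - P i * σ| ≤ σ) →
      (∀ i ∈ I, ∀ j ∈ I, l ^ 2 * (1 + ((β i : ℝ) - β j) ^ 2) ≤ 2 * σ ^ 2) →
      (∀ i ∈ I, (#(I.filter fun j => P j = P i) : ℝ) ≤ K) →
      ∑ i ∈ I, ee (ω Q) (cut L {τ} (slc G (y i) (l ^ 2 * β i))) ≤ C * √K / l * m (τ, Q)

/-- the energy of the slice `y` of the block `b` in the direction `τ` -/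
noncomputable def ey (l L : ℝ) (ω : (Fin d → ℤ) → E d → ℝ) (G : E d × ℝ → ℂ) (b : Bk d) (y : ℤ) (τ : Fin d → ℤ) : ℝ :=
  ee (ω (b.1 - sh L b.2.1 τ)) (cut L {τ} (slc G (l * y) (l ^ 2 * b.2.1)))

theorem bk_ext {L : ℝ} {b c : Bk d} {τ : Fin d → ℤ} (h1 : b.1 - sh L b.2.1 τ = c.1 - sh L c.2.1 τ) (h2 : b.2.1 = c.2.1)
    (h3 : b.2.2 = c.2.2) : b = c := by
  rw [h2] at h1
  exact Prod.ext (sub_left_injective h1) (Prod.ext h2 h3)

/-- the total energy -/
theorem sig_le {C l L W : ℝ} {N : ℕ} {ω : (Fin d → ℤ) → E d → ℝ} {G : E d × ℝ → ℂ} {m : (Fin d → ℤ) × (Fin d → ℤ) → ℝ}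
    (hC : 0 ≤ C) (hl : 1 ≤ l) (hm0 : ∀ u, 0 ≤ m u) (hm : ∀ J : Finset ((Fin d → ℤ) × (Fin d → ℤ)), ∑ u ∈ J, m u ≤ W)
    (hT : TM d C l L ω G m) (S : Finset (Bk d)) (Y : Bk d → Finset ℤ) (T : Finset (Fin d → ℤ))
    (hS : ∀ b ∈ S, 0 ≤ b.2.1 ∧ b.2.1 < N) (hY : ∀ b ∈ S, ∀ y ∈ Y b, ⌊(y : ℝ) / l⌋ = b.2.2) :
    ∑ b ∈ S, ∑ y ∈ Y b, ∑ τ ∈ T, ey l L ω G b y τ ≤ N * (C / l * W) := by
  have hl0 : 0 < l := by linarith
  set I : Finset ((Σ _ : Bk d, ℤ) × (Fin d → ℤ)) := (S.sigma Y) ×ˢ T with hI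
  have e1 : ∑ b ∈ S, ∑ y ∈ Y b, ∑ τ ∈ T, ey l L ω G b y τ = ∑ i ∈ I, ey l L ω G i.1.1 i.1.2 i.2 := by
    rw [hI, Finset.sum_product, Finset.sum_sigma]
  set key : ((Σ _ : Bk d, ℤ) × (Fin d → ℤ)) → ℤ × ((Fin d → ℤ) × (Fin d → ℤ)) :=
    fun i => (i.1.1.2.1, (i.2, i.1.1.1 - sh L i.1.1.2.1 i.2)) with hkey
  have hmem : ∀ i ∈ I, i.1.1 ∈ S ∧ i.1.2 ∈ Y i.1.1 := fun i hi => by
    rw [hI, Finset.mem_product, Finset.mem_sigma] at hi
    exact hi.1
  have h2 := sum_key I key (fun i => ey l L ω G i.1.1 i.1.2 i.2) (fun k => C / l * m k.2) (fun k => by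
    have hinj : ∀ i ∈ I.filter (fun i => key i = k), ∀ j ∈ I.filter (fun i => key i = k), i.1.2 = j.1.2 → i = j := by
      intro i hi j hj hy
      rw [Finset.mem_filter] at hi hj
      have hk : key i = key j := hi.2.trans hj.2.symm
      simp only [hkey, Prod.mk.injEq] at hk
      obtain ⟨k1, k2, k3⟩ := hk
      have hb : i.1.1 = j.1.1 := by
        refine bk_ext (L := L) (τ := i.2) (by rw [k3, k2]) k1 ?_
        rw [← hY _ (hmem i hi.1).1 _ (hmem i hi.1).2, ← hY _ (hmem j hj.1).1 _ (hmem j hj.1).2, hy]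
      exact Prod.ext (Sigma.ext hb (heq_of_eq hy)) k2
    have h := hT k.2.1 k.2.2 l 1 _ (I.filter (fun i => key i = k)) (fun i => i.1.2) (fun i => i.1.1.2.1)
      (fun i => l * i.1.2) hl0 (fun i hi j hj h1 _ => hinj i hi j hj h1)
      (fun i _ => by rw [mul_comm l, sub_self, abs_zero]; exact hl0.le)
      (fun i hi j hj => by
        rw [Finset.mem_filter] at hi hj
        have hk : key i = key j := hi.2.trans hj.2.symm
        simp only [hkey, Prod.mk.injEq] at hk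
        simp only [hk.1, sub_self]
        nlinarith)
      (fun i hi => by
        have : #((I.filter (fun i => key i = k)).filter fun j => j.1.2 = i.1.2) ≤ 1 := by
          rw [Finset.card_le_one]
          intro a ha b hb
          rw [Finset.mem_filter] at ha hb
          exact hinj a ha.1 b hb.1 (ha.2.trans hb.2.symm)
        exact_mod_cast this)
    rw [Real.sqrt_one, mul_one] at h
    refine le_trans (le_of_eq (Finset.sum_congr rfl fun i hi => ?_)) h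
    rw [Finset.mem_filter] at hi
    rw [← hi.2]
    rfl)
  rw [e1]
  refine h2.trans ?_
  have hsub : I.image key ⊆ Finset.Ico (0 : ℤ) N ×ˢ (I.image fun i => (key i).2) := by
    intro k hk
    obtain ⟨i, hi, rfl⟩ := Finset.mem_image.1 hk
    rw [Finset.mem_product, Finset.mem_Ico]
    exact ⟨hS _ (hmem i hi).1, Finset.mem_image_of_mem _ hi⟩
  refine (Finset.sum_le_sum_of_subset_of_nonneg hsub fun k _ _ => mul_nonneg (by positivity) (hm0 _)).trans ?_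
  rw [Finset.sum_product]
  simp only [Finset.sum_const, Int.card_Ico, sub_zero, Int.toNat_natCast, nsmul_eq_mul]
  rw [← Finset.mul_sum]
  gcongr
  exact hm _

/-- one slice per block, few visits per tube -/
theorem low_le {C l L W K : ℝ} {N : ℕ} {ω : (Fin d → ℤ) → E d → ℝ} {G : E d × ℝ → ℂ} {m : (Fin d → ℤ) × (Fin d → ℤ) → ℝ}
    (hC : 0 ≤ C) (hl : 1 ≤ l) (hN : (N : ℝ) ≤ l) (hm : ∀ J : Finset ((Fin d → ℤ) × (Fin d → ℤ)), ∑ u ∈ J, m u ≤ W)
    (hT : TM d C l L ω G m) (D : Finset (Bk d)) (Θ : Bk d → Finset (Fin d → ℤ)) (y : Bk d → ℤ)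
    (hS : ∀ b ∈ D, 0 ≤ b.2.1 ∧ b.2.1 < N) (hY : ∀ b ∈ D, ⌊(y b : ℝ) / l⌋ = b.2.2)
    (hK : ∀ b ∈ D, ∀ τ ∈ Θ b, (#(D.filter fun b' => tb L b' τ = tb L b τ) : ℝ) ≤ K) :
    ∑ b ∈ D, ∑ τ ∈ Θ b, ey l L ω G b (y b) τ ≤ √K * (C / l * W) := by
  have hl0 : 0 < l := by linarith
  set I : Finset (Σ _ : Bk d, (Fin d → ℤ)) := D.sigma Θ with hI
  have e1 : ∑ b ∈ D, ∑ τ ∈ Θ b, ey l L ω G b (y b) τ = ∑ i ∈ I, ey l L ω G i.1 (y i.1) i.2 := by
    rw [hI, Finset.sum_sigma]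
  set key : (Σ _ : Bk d, (Fin d → ℤ)) → (Fin d → ℤ) × (Fin d → ℤ) := fun i => (i.2, i.1.1 - sh L i.1.2.1 i.2) with hkey
  have hmem : ∀ i ∈ I, i.1 ∈ D ∧ i.2 ∈ Θ i.1 := fun i hi => by
    rw [hI, Finset.mem_sigma] at hi
    exact hi
  have h2 := sum_key I key (fun i => ey l L ω G i.1 (y i.1) i.2) (fun k => C * √K / l * m k) (fun k => by
    have hk2 : ∀ i ∈ I.filter (fun i => key i = k), ∀ j ∈ I.filter (fun i => key i = k),
        i.2 = j.2 ∧ i.1.1 - sh L i.1.2.1 i.2 = j.1.1 - sh L j.1.2.1 j.2 := by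
      intro i hi j hj
      rw [Finset.mem_filter] at hi hj
      have hk : key i = key j := hi.2.trans hj.2.symm
      simpa only [hkey, Prod.mk.injEq] using hk
    have h := hT k.1 k.2 (l ^ 2) K _ (I.filter (fun i => key i = k)) (fun i => i.1.2.2) (fun i => i.1.2.1)
      (fun i => l * y i.1) (by positivity)
      (fun i hi j hj h1 h2 => by
        obtain ⟨k1, k2⟩ := hk2 i hi j hj
        exact Sigma.ext (bk_ext (L := L) (τ := i.2) (by rw [k2, k1]) h2 h1) (heq_of_eq k1))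
      (fun i hi => by
        have hD := (hmem i (Finset.mem_filter.1 hi).1).1
        have a1 := Int.floor_le ((y i.1 : ℝ) / l)
        have a2 := Int.lt_floor_add_one ((y i.1 : ℝ) / l)
        rw [hY _ hD] at a1 a2
        rw [le_div_iff₀ hl0] at a1
        rw [div_lt_iff₀ hl0] at a2
        rw [abs_le]
        constructor <;> nlinarith)
      (fun i hi j hj => by
        obtain ⟨a1, a2⟩ := hS _ (hmem i (Finset.mem_filter.1 hi).1).1
        obtain ⟨b1, b2⟩ := hS _ (hmem j (Finset.mem_filter.1 hj).1).1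
        have a1' : (0 : ℝ) ≤ i.1.2.1 := by exact_mod_cast a1
        have b1' : (0 : ℝ) ≤ j.1.2.1 := by exact_mod_cast b1
        have a2' : (i.1.2.1 : ℝ) < N := by exact_mod_cast a2
        have b2' : (j.1.2.1 : ℝ) < N := by exact_mod_cast b2
        have c1 : ((i.1.2.1 : ℝ) - j.1.2.1) ^ 2 ≤ l ^ 2 := sq_le_sq' (by linarith) (by linarith)
        have c2 : 1 ≤ l ^ 2 := one_le_pow₀ hl
        nlinarith)
      (fun i hi => by
        obtain ⟨hD, hΘ⟩ := hmem i (Finset.mem_filter.1 hi).1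
        refine le_trans ?_ (hK _ hD _ hΘ)
        have : #((I.filter (fun i => key i = k)).filter fun j => j.1.2.2 = i.1.2.2) ≤
            #(D.filter fun b' => tb L b' i.2 = tb L i.1 i.2) := by
          refine Finset.card_le_card_of_injOn (fun j => j.1) ?_ ?_
          · intro j hj
            rw [Finset.coe_filter] at hj
            obtain ⟨hj1, hj2⟩ := hj
            obtain ⟨k1, k2⟩ := hk2 j hj1 i hi
            rw [Finset.coe_filter]
            refine ⟨(hmem j (Finset.mem_filter.1 hj1).1).1, ?_⟩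
            unfold tb
            rw [k1] at k2
            rw [k2, hj2]
          · intro a ha b hb hab
            rw [Finset.coe_filter] at ha hb
            exact Sigma.ext hab (heq_of_eq (hk2 a ha.1 b hb.1).1)
        exact_mod_cast this)
    refine le_trans (le_of_eq (Finset.sum_congr rfl fun i hi => ?_)) h
    rw [Finset.mem_filter] at hi
    rw [← hi.2]
    rfl)
  rw [e1]
  refine h2.trans ?_
  rw [← Finset.mul_sum]
  calc C * √K / l * ∑ k ∈ I.image key, m k ≤ C * √K / l * W := by gcongr; exact hm _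
    _ = _ := by ring

end Vale.Agent.P076N.SL
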