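import Vale.Agent.P076N.SL.Asm2c

/-! # P076N / SL : the main assembly `SL3` -/

set_option linter.all false

open MeasureTheory Finset

namespace Vale.Agent.P076N.SL

open Vale.Agent.P076 Vale.Agent.P076N

variable {d : ℕ}

/-- `NUM2` for fixed constants -/
def NUM3 (d : ℕ) (δ0 δ B C : ℝ) : Prop :=
  ∀ (β γ : Type) (S : Finset β) (Y : β → Finset γ) (m e : β → γ → ℝ) (N J Z X : ℝ), 1 ≤ N → 0 ≤ J → 0 ≤ Z → 0 ≤ X →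
    (∀ b ∈ S, (Y b).Nonempty) → (∀ b y, 0 ≤ m b y) → (∀ b y, 0 ≤ e b y) →
    (∀ b ∈ S, ∑ y ∈ Y b, m b y ≤ B) →
    ∑ b ∈ S, ∑ y ∈ Y b, e b y ≤ N * Z →
    (∀ y : β → γ, (∀ b ∈ S, y b ∈ Y b) → ∑ b ∈ S, e b (y b) ≤ √(J * N) * Z) →
    (∀ D ⊆ S, ∀ K : ℝ, 0 < K → ∃ m' e' : β → γ → ℝ, (∀ b y, 0 ≤ m' b y ∧ m' b y ≤ m b y) ∧
      (∀ b y, 0 ≤ e' b y ∧ e' b y ≤ e b y) ∧
      ∑ b ∈ D, ∑ y ∈ Y b, m b y ≤ ∑ b ∈ D, ∑ y ∈ Y b, m' b y + X ∧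
      (∀ b ∈ D, ∀ y ∈ Y b, m' b y ≤
        B * (((#D : ℝ) ^ (1 / ((d : ℝ) + 1)) / K) ^ δ0 * e b y ^ (((d : ℝ) + 2) / d) + e' b y ^ (((d : ℝ) + 2) / d))) ∧
      ∀ y : β → γ, (∀ b ∈ D, y b ∈ Y b) → ∑ b ∈ D, e' b (y b) ≤ √(J * K) * Z) →
    ∑ b ∈ S, ∑ y ∈ Y b, m b y ≤ C * (min 1 ((∑ b ∈ S, ∑ y ∈ Y b, m b y) / N ^ (d + 1))) ^ δ *
      (J ^ (1 / ((d : ℝ) + 2)) * N ^ (((d : ℝ) + 1) / (d + 2))) * Z + 2 * X

theorem Str.mono {l l' : ℝ} {G : E d × ℝ → ℂ} (h : Str l G) (hl : l' ≤ l) : Str l' G :=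
  ⟨h.meas, h.bdd, fun p hp => ⟨(h.supp p hp).1, le_trans (by gcongr) (h.supp p hp).2⟩⟩

theorem core (hd : 1 ≤ d) (hB : BAS d) (hXR : XR2 d) {η κ δ0 δ1 C1 C3 C4 B l l' T L S α : ℝ} {J N0 N1 : ℕ}
    {ω ω' : (Fin d → ℤ) → E d → ℝ} {G : E d × ℝ → ℂ} {m0 m1 : (Fin d → ℤ) × (Fin d → ℤ) → ℝ} {W : ℝ}
    (hNUM : NUM3 d δ0 δ1 B C4) (hK3 : KL3 d η κ δ0 C1 l T L S ω ω') (hω : Wt C1 ω) (hC1 : 0 ≤ C1) (hC3 : 0 ≤ C3) (hδ0 : 0 ≤ δ0)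
    (hBa : C1 * cX d ^ δ0 ≤ B) (hBb : (4 : ℝ) ^ (d + 1) ≤ B) (hW : 0 ≤ W)
    (hm0 : ∀ u, 0 ≤ m0 u) (hm0J : ∀ J : Finset ((Fin d → ℤ) × (Fin d → ℤ)), ∑ u ∈ J, m0 u ≤ W) (hT0 : TM2 d C3 l' L ω G m0)
    (hm1 : ∀ u, 0 ≤ m1 u) (hm1J : ∀ J : Finset ((Fin d → ℤ) × (Fin d → ℤ)), ∑ u ∈ J, m1 u ≤ W) (hT1 : TM2 d C3 l' L ω' G m1)
    (hl : 1 ≤ l) (hL : 1 ≤ L) (hJ : 1 ≤ J) (hS : S = J * T) (hS' : l' ^ 2 = S) (hl' : 0 < l') (hl'l : l' ≤ l) (hlT : l ≤ T)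
    (hN1 : 1 ≤ N1) (hN1L : (N1 : ℝ) ≤ L) (hN0 : l * N0 ≤ T) (hG : Str l G) (hα : 0 < α)
    {ι : Type} {A : Finset ι} {x : ι → E d} {t : ι → ℝ} {Y : ι → ℤ} (hen : en2 G ≤ l ^ (8 * (d + 1)) * α ^ 2)
    (ht : ∀ i ∈ A, 0 ≤ t i ∧ t i ≤ l ^ (2 + η / 2)) (ht1 : ∀ i ∈ A, t i < N1 * T) (ht0 : ∀ i ∈ A, t i < N0 * S)
    (hsep : ∀ i ∈ A, ∀ j ∈ A, i ≠ j → (∃ k, 1 ≤ |x i k - x j k|) ∨ l ≤ |t i - t j| ∨ Y i ≠ Y j)
    (hcap : ∀ b : Bk d, (#(A.filter fun i => bl2 l T x t Y i = b) : ℝ) ≤ 4 ^ (d + 1) * (T ^ (d + 1) / l))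
    (hamp : ∀ i ∈ A, α ≤ ‖evo (slc G (l * Y i) (S * ⌊t i / S⌋)) (x i) (t i) 0‖) :
    (#A : ℝ) / (T ^ (d + 1) / l) ≤ C4 * (min 1 ((#A : ℝ) / (T ^ (d + 1) / l) / (N1 : ℝ) ^ (d + 1))) ^ δ1 *
      ((J : ℝ) ^ (1 / ((d : ℝ) + 2)) * (N1 : ℝ) ^ (((d : ℝ) + 1) / (d + 2))) * (C3 / l' * W / E1 d l T α) +
      2 * (C1 * l ^ (2 * ((d : ℝ) + 1) / (d + 2) - κ) / α ^ 2 * (N0 * (C3 / l' * W)) / (T ^ (d + 1) / l)) := by
  have hl0 : 0 < l := by linarith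
  have hT : 0 < T := by linarith
  have hS0 : 0 < S := by rw [← hS']; positivity
  have hE := E1_pos (d := d) hl0 hT hα
  have hcp : 0 < T ^ (d + 1) / l := by positivity
  have hβ1 : ∀ b ∈ A.image (bl2 l T x t Y), 0 ≤ b.2.1 ∧ b.2.1 < N1 := by
    intro b hb
    obtain ⟨i, hi, rfl⟩ := Finset.mem_image.1 hb
    have := (ht i hi).1
    refine ⟨Int.floor_nonneg.2 (by positivity), Int.floor_lt.2 ?_⟩
    rw [div_lt_iff₀ hT]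
    exact_mod_cast ht1 i hi
  have hβ0 : ∀ i ∈ A, 0 ≤ ⌊t i / S⌋ ∧ ⌊t i / S⌋ < N0 := by
    intro i hi
    have := (ht i hi).1
    refine ⟨Int.floor_nonneg.2 (by positivity), Int.floor_lt.2 ?_⟩
    rw [div_lt_iff₀ hS0]
    exact_mod_cast ht0 i hi
  have hβ2 : ∀ b ∈ A.image (bl2 l T x t Y), 0 ≤ b.2.1 / (J : ℤ) ∧ b.2.1 / (J : ℤ) < N0 := by
    intro b hb
    obtain ⟨i, hi, rfl⟩ := Finset.mem_image.1 hb
    have := hβ0 i hi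
    rwa [hS, floor_nest] at this
  have hlow : ∀ D ⊆ A.image (bl2 l T x t Y), ∀ (Θ : Bk d → Finset (Fin d → ℤ)) (y : Bk d → ℤ) (K : ℝ),
      (∀ b ∈ D, y b ∈ Yb2 l T A x t Y b) → (∀ b ∈ D, ∀ τ ∈ Θ b, (#(D.filter fun b' => tb L b' τ = tb L b τ) : ℝ) ≤ K) →
      ∑ b ∈ D, eb L ω (slc G (l * y b) (l' ^ 2 * ((b.2.1 / (J : ℤ) : ℤ) : ℝ))) b.1 b.2.1 (Θ b) / E1 d l T α ≤
        √(J * K) * (C3 / l' * W / E1 d l T α) := by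
    intro D hD Θ y K hy hK
    rw [← Finset.sum_div, ← mul_div_assoc]
    exact div_le_div_of_nonneg_right (low2 hC3 hl' hJ (hl'l.trans hlT) (le_trans (by gcongr) hN0) hm0J hT0 D Θ y
      (fun b hb => hβ2 b (hD hb)) (fun b hb => Yb2_floor b _ (hy b hb)) hK) hE.le
  have hmain := hNUM (Bk d) ℤ (A.image (bl2 l T x t Y)) (Yb2 l T A x t Y) (fun b y => ct l T A x t Y b y / (T ^ (d + 1) / l))
    (fun b y => eb L ω (slc G (l * y) (l' ^ 2 * ((b.2.1 / (J : ℤ) : ℤ) : ℝ))) b.1 b.2.1 (TT d L) / E1 d l T α) N1 J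
    (C3 / l' * W / E1 d l T α)
    (C1 * l ^ (2 * ((d : ℝ) + 1) / (d + 2) - κ) / α ^ 2 * (N0 * (C3 / l' * W)) / (T ^ (d + 1) / l))
    (by exact_mod_cast hN1) (by positivity) (by positivity) (by positivity) Yb2_ne
    (fun b y => div_nonneg (Nat.cast_nonneg _) hcp.le) (fun b y => div_nonneg (eb_nonneg hω _ _ _ _) hE.le)
    (fun b _ => by
      rw [← Finset.sum_div, sum_ct subset_rfl, div_le_iff₀ hcp]
      exact (hcap b).trans (mul_le_mul_of_nonneg_right hBb hcp.le))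
    (by
      simp only [← Finset.sum_div]
      rw [← mul_div_assoc, Finset.sum_sigma']
      refine div_le_div_of_nonneg_right (sig2 hC3 hl' hl'l hm0 hm0J hT0 _ (fun i : (Σ _ : Bk d, ℤ) => i.1.1) (fun i => i.1.2.1)
        (fun i => i.2) (fun β => β / (J : ℤ)) _ ?_ ?_) hE.le
      · intro i hi j hj h1 h2 h3
        rw [Finset.mem_sigma] at hi hj
        refine Sigma.ext (Prod.ext h1 (Prod.ext h2 ?_)) (heq_of_eq h3)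
        rw [← Yb2_floor _ _ hi.2, ← Yb2_floor _ _ hj.2, h3]
      · exact fun i hi => hβ1 _ (Finset.mem_sigma.1 hi).1)
    (fun y hy => hlow _ subset_rfl (fun _ => TT d L) y N1 hy fun b hb τ _ => (hXR L N1 0 _ hL hN1L hβ1 b hb).1 τ)
    (fun D hD K hK => by
      obtain ⟨A', a1, a2, a3⟩ := good_set (J := J) hB hXR hK3 hl hL hN1L hS hS' hG hα hK hen ht hsep hamp
        (fun b hb => hβ1 b (hD hb))
      have a0 : A' ⊆ A := a1.trans (Finset.filter_subset _ _)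
      refine ⟨fun b y => ct l T A' x t Y b y / (T ^ (d + 1) / l),
        fun b y => eb L ω (slc G (l * y) (l' ^ 2 * ((b.2.1 / (J : ℤ) : ℤ) : ℝ))) b.1 b.2.1 (Tg L K D b) / E1 d l T α,
        fun b y => ⟨div_nonneg (Nat.cast_nonneg _) hcp.le, div_le_div_of_nonneg_right (ct_mono a0 b y) hcp.le⟩,
        fun b y => ⟨div_nonneg (eb_nonneg hω _ _ _ _) hE.le,
          div_le_div_of_nonneg_right (eb_mono hω _ _ _ (Finset.filter_subset _ _)) hE.le⟩, ?_,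
        fun b _ y hy => norm_ct hd hl0 hT hα (eb_nonneg hω _ _ _ _) (eb_nonneg hω _ _ _ _) hC1 cX_one (by positivity) hδ0 hBa
          (a3 b y hy),
        fun y hy => hlow D hD (Tg L K D) y K hy fun b _ τ hτ => (Finset.mem_filter.1 hτ).2⟩
      simp only [← Finset.sum_div]
      rw [← add_div, sum_sum_ct subset_rfl, sum_sum_ct a0, Finset.filter_true_of_mem fun i hi => (Finset.mem_filter.1 (a1 hi)).2]
      refine div_le_div_of_nonneg_right (a2.trans (add_le_add le_rfl (mul_le_mul_of_nonneg_left ?_ (by positivity)))) hcp.le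
      refine sig2 hC3 hl' hl'l hm1 hm1J hT1 _ (fun g : Bk d => g.1) (fun g => g.2.1) (fun g => g.2.2) (fun β => β) _
        (fun i _ j _ h1 h2 h3 => Prod.ext h1 (Prod.ext h2 h3)) fun g hg => ?_
      obtain ⟨i, hi, rfl⟩ := Finset.mem_image.1 hg
      exact hβ0 i (Finset.mem_filter.1 hi).1)
  simp only [← Finset.sum_div] at hmain
  rwa [sum_sum_ct subset_rfl, Finset.filter_true_of_mem fun i hi => Finset.mem_image_of_mem _ hi] at hmain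

/-- `EN2` for a fixed constant -/
def EN3 (d : ℕ) (C : ℝ) : Prop := ∀ (B l L : ℝ) (ω : (Fin d → ℤ) → E d → ℝ) (G : E d × ℝ → ℂ),
  1 ≤ l → Wt B ω → Str l G → ∃ m : (Fin d → ℤ) × (Fin d → ℤ) → ℝ, (∀ u, 0 ≤ m u) ∧
    (∀ J : Finset ((Fin d → ℤ) × (Fin d → ℤ)), ∑ u ∈ J, m u ≤ B * en2 G) ∧ TM2 d C l L ω G m

theorem big (hd : 1 ≤ d) (hB : BAS d) (hXR : XR2 d) {η κ δ δ0 δ1 C1 C3 C4 B l l' T L k α : ℝ} {J N : ℕ}
    {ω ω' : (Fin d → ℤ) → E d → ℝ} {G : E d × ℝ → ℂ} (hEN : EN3 d C3)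
    (hNUM : NUM3 d δ0 δ1 B C4) (hK3 : KL3 d η κ δ0 C1 l T L (J * T) ω ω') (hω : Wt C1 ω) (hω' : Wt C1 ω') (hC1 : 0 ≤ C1)
    (hC3 : 0 ≤ C3) (hC4 : 0 ≤ C4) (hδ0 : 0 ≤ δ0) (hδ : 0 < δ) (hδa : δ ≤ δ1) (hδc : δ * (3 * d + 2) ≤ κ / 2)
    (hBa : C1 * cX d ^ δ0 ≤ B) (hBb : (4 : ℝ) ^ (d + 1) ≤ B)
    (hl : 1 ≤ l) (hL : 1 ≤ L) (hJ : 1 ≤ J) (hJk : (J : ℝ) ≤ k) (hS : l' ^ 2 = J * T) (hl'1 : 1 ≤ l') (hl'l : l' ≤ l) (hlT : l ≤ T)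
    (hS2 : l ^ 2 ≤ 2 * (d + 1) * (J * T)) (hTk : T * k = l ^ 2) (hw : l ≤ 2 * (d + 1) * l') (hN : 1 ≤ N)
    (s0 : (N : ℝ) ≤ l ^ (κ / 2)) (s1 : 2 * (N * k) ≤ L) (s2 : l * (2 * (d + 1) * N) ≤ T) (s3 : N * l ^ 2 ≤ l ^ (2 + η / 2))
    (s4 : (N : ℝ) ≤ l) (hG : Str l G) (hα : 0 < α)
    {ι : Type} {A : Finset ι} {x : ι → E d} {t : ι → ℝ} {Y : ι → ℤ} (hA : A.Nonempty) (hen : en2 G ≤ l ^ (8 * (d + 1)) * α ^ 2)
    (ht : ∀ i ∈ A, 0 ≤ t i ∧ t i < N * l ^ 2)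
    (hsep : ∀ i ∈ A, ∀ j ∈ A, i ≠ j → (∃ k, 1 ≤ |x i k - x j k|) ∨ l ≤ |t i - t j| ∨ Y i ≠ Y j)
    (hcap : ∀ b : Bk d, (#(A.filter fun i => bl2 l T x t Y i = b) : ℝ) ≤ 4 ^ (d + 1) * (T ^ (d + 1) / l))
    (hamp : ∀ i ∈ A, α ≤ ‖evo (slc G (l * Y i) (J * T * ⌊t i / (J * T)⌋)) (x i) (t i) 0‖) :
    α ^ 2 * #A ≤ 2 * (C4 + C1 * (2 * (d + 1))) * (C3 * C1) * (2 * (d + 1)) * rhs d δ l N #A * en2 G := by
  have he2 := en2_nonneg G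
  have hN1 : (1 : ℝ) ≤ N := by exact_mod_cast hN
  have hJ1 : (1 : ℝ) ≤ J := by exact_mod_cast hJ
  have hk1 : 1 ≤ k := hJ1.trans hJk
  have hT0 : 0 < T := by linarith
  obtain ⟨m0, hm0, hm0J, hTm0⟩ := hEN C1 l' L ω G hl'1 hω (hG.mono hl'l)
  obtain ⟨m1, hm1, hm1J, hTm1⟩ := hEN C1 l' L ω' G hl'1 hω' (hG.mono hl'l)
  have n1 : (N : ℝ) * k ≤ ⌈(N : ℝ) * k⌉₊ := Nat.le_ceil _
  have n0 : 1 ≤ (N : ℝ) * k := one_le_mul_of_one_le_of_one_le hN1 hk1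
  have n2 : (⌈(N : ℝ) * k⌉₊ : ℝ) ≤ 2 * (N * k) := by
    have := Nat.ceil_lt_add_one (show 0 ≤ (N : ℝ) * k by positivity)
    linarith
  have n3 : (N : ℝ) * l ^ 2 ≤ ⌈(N : ℝ) * k⌉₊ * T := by
    rw [← hTk, mul_comm T, ← mul_assoc]
    gcongr
  have n4 : (N : ℝ) * l ^ 2 ≤ ((2 * (d + 1) * N : ℕ) : ℝ) * (J * T) := by
    push_cast
    calc (N : ℝ) * l ^ 2 ≤ N * (2 * (d + 1) * (J * T)) := by gcongr
      _ = _ := by ring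
  have hc := core (N0 := 2 * (d + 1) * N) (N1 := ⌈(N : ℝ) * k⌉₊) hd hB hXR hNUM hK3 hω hC1 hC3 hδ0 hBa hBb
    (by positivity) hm0 hm0J hTm0 hm1 hm1J hTm1 hl hL hJ rfl hS (by linarith) hl'l hlT
    (by exact_mod_cast n0.trans n1) (n2.trans s1) (by push_cast; exact s2) hG hα hen
    (fun i hi => ⟨(ht i hi).1, (ht i hi).2.le.trans s3⟩)
    (fun i hi => (ht i hi).2.trans_le n3) (fun i hi => (ht i hi).2.trans_le n4) hsep hcap hamp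
  refine fin2 (C'' := C1 * (2 * (d + 1))) (C' := C3 * C1) hl hN1 s4 s0 (by exact_mod_cast hA.card_pos) hδ hδa hδc hC4
    (by positivity) (by positivity) he2 hα (by linarith) hTk n1 n2 (Nat.cast_nonneg J) hJk (by linarith) hw (hc.trans (le_of_eq ?_))
  push_cast
  ring

theorem asm2 (d : ℕ) (hd : 1 ≤ d) : ASM2 d := by
  intro hB hKL hEN hXR hNUM
  obtain ⟨η, κ, δ0, C1, l0, hη, hη1, hκ, hδ0, hC1, hKL⟩ := hKL
  obtain ⟨δ1, hδ1, hNUM⟩ := hNUM δ0 hδ0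
  obtain ⟨C3, hC3, hEN⟩ := hEN
  obtain ⟨Ct, hCt, htr⟩ := evo_tr d
  obtain ⟨B, hBa, hBb⟩ : ∃ B : ℝ, C1 * cX d ^ δ0 ≤ B ∧ (4 : ℝ) ^ (d + 1) ≤ B := ⟨max _ _, le_max_left _ _, le_max_right _ _⟩
  obtain ⟨C4, hC4, hNUM⟩ := hNUM B ((one_le_pow₀ (by norm_num)).trans hBb)
  have h32 : (0 : ℝ) < 3 * d + 2 := by positivity
  obtain ⟨δ, hδ, hδa, hδb, hδc⟩ : ∃ δ : ℝ, 0 < δ ∧ δ ≤ δ1 ∧ δ ≤ 1 ∧ δ * (3 * d + 2) ≤ κ / 2 :=
    ⟨min δ1 (min 1 (κ / 2 / (3 * d + 2))), lt_min hδ1 (lt_min one_pos (by positivity)), min_le_left _ _,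
      (min_le_right _ _).trans (min_le_left _ _), (le_div_iff₀ h32).1 ((min_le_right _ _).trans (min_le_right _ _))⟩
  obtain ⟨l1, hl1, hl1a, hl1b⟩ : ∃ l1 : ℝ, 0 ≤ l1 ∧ l0 ≤ l1 ∧ 2 * ((d : ℝ) + 1) ≤ l1 ^ (η / 2) := by
    refine ⟨max l0 ((2 * ((d : ℝ) + 1)) ^ (η / 2)⁻¹), le_max_of_le_right (by positivity), le_max_left _ _, ?_⟩
    refine le_trans (le_of_eq ?_) (Real.rpow_le_rpow (by positivity) (le_max_right _ _) (by positivity))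
    rw [Real.rpow_inv_rpow (by positivity) (by positivity)]
  obtain ⟨C, hCa, hCb, hCc⟩ : ∃ C : ℝ, Ct * l1 ^ (8 * (d + 1)) ≤ C ∧ 1 ≤ C ∧
      2 * (C4 + C1 * (2 * (d + 1))) * (C3 * C1) * (2 * (d + 1)) ≤ C :=
    ⟨max (max _ _) _, (le_max_left _ _).trans (le_max_left _ _), (le_max_right _ _).trans (le_max_left _ _), le_max_right _ _⟩
  refine ⟨min (η / 2) (κ / 2), δ, lt_min (by positivity) (by positivity), hδ, hδb, C, by linarith, fun l hl => ?_⟩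
  have hl0 : 0 < l := by linarith
  have hsmall : ∀ (N : ℕ) (G : E d × ℝ → ℂ) (a : ℕ) (α : ℝ), 1 ≤ N → (N : ℝ) ≤ l ^ min (η / 2) (κ / 2) →
      (a : ℝ) ≤ l ^ (4 * (d + 1)) → (a = 0 ∨ α ^ 2 ≤ C * (l ^ (8 * (d + 1)))⁻¹ * en2 G) →
      α ^ 2 * a ≤ C * rhs d δ l N a * en2 G := by
    intro N G a α hN hNl ha h
    have he2 := en2_nonneg G
    rcases Nat.eq_zero_or_pos a with h0 | h0
    · have hr0 : 0 ≤ rhs d δ l N a := rhs_nonneg hl0.le (by positivity) (by positivity)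
      have : α ^ 2 * a = 0 := by rw [h0]; simp
      rw [this]; positivity
    refine small_case (e := 0) hl (by exact_mod_cast hN) ?_ (by exact_mod_cast h0) hδ.le hδb (by linarith) he2 ha
      (h.resolve_left h0.ne')
    simpa using hNl.trans (Real.rpow_le_rpow_of_exponent_le hl (z := 1) ((min_le_left _ _).trans (by linarith)))
  rcases le_total l l1 with hsl | hsl
  · refine ⟨l, l, le_rfl, hl0, by nlinarith, fun N G ι A x t Y α hN hNl hG hα _ _ _ hcard hamp => hsmall N G _ α hN hNl hcard ?_⟩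
    rcases A.eq_empty_or_nonempty with hA | ⟨i, hi⟩
    · exact Or.inl (by rw [hA]; rfl)
    right
    obtain ⟨b1, b2⟩ := hB.1 l G (l * Y i) (l * ⌊t i / l⌋) hl hG
    have he2 := en2_nonneg G
    calc α ^ 2 ≤ _ := pow_le_pow_left₀ hα (hamp i hi) 2
      _ ≤ Ct * en2 G := (htr _ _ _ b1).trans (by gcongr)
      _ = Ct * l ^ (8 * (d + 1)) * (l ^ (8 * (d + 1)))⁻¹ * en2 G := by field_simp
      _ ≤ _ := by
        gcongr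
        exact le_trans (by gcongr) hCa
  obtain ⟨J, l', hJ, hJk, hS, hl'1, hl'l, hlT, hS1, hS2, hTk, hw, hsc⟩ :=
    scales (d := d) hl hη hη1 (hl1b.trans (Real.rpow_le_rpow hl1 hsl (by positivity)))
  obtain ⟨ω, ω', hω, hω', hK3⟩ := hKL l _ _ _ J hl (hl1a.trans hsl) rfl rfl hJ rfl hS1
  have hd0 : (0 : ℝ) ≤ d := Nat.cast_nonneg d
  have hT0 : 0 < l ^ (2 - η) := by positivity
  have hS0 : 0 < (J : ℝ) * l ^ (2 - η) := by positivity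
  refine ⟨l ^ (2 - η), J * l ^ (2 - η), hlT, hS0, by nlinarith, fun N G ι A x t Y α hN hNl hG hα hsep hcap ht hcard hamp => ?_⟩
  rcases le_total (α ^ 2) (C * (l ^ (8 * (d + 1)))⁻¹ * en2 G) with hsm | hsm
  · exact hsmall N G _ α hN hNl hcard (Or.inr hsm)
  rcases A.eq_empty_or_nonempty with hA | hA
  · exact hsmall N G _ α hN hNl hcard (Or.inl (by rw [hA]; rfl))
  rcases hα.eq_or_lt with hα0 | hα0
  · refine hsmall N G _ α hN hNl hcard (Or.inr ?_)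
    have he2 := en2_nonneg G
    rw [← hα0]; simp only [ne_eq, OfNat.ofNat_ne_zero, not_false_eq_true, zero_pow]; positivity
  have hN1 : (1 : ℝ) ≤ N := by exact_mod_cast hN
  obtain ⟨s1, s2, s3, s4⟩ := hsc N hN1 (hNl.trans (Real.rpow_le_rpow_of_exponent_le hl (min_le_left _ _)))
  have hen : en2 G ≤ l ^ (8 * (d + 1)) * α ^ 2 := by
    have he2 := en2_nonneg G
    calc en2 G = l ^ (8 * (d + 1)) * (1 * (l ^ (8 * (d + 1)))⁻¹ * en2 G) := by field_simp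
      _ ≤ _ := by
        gcongr
        exact le_trans (by gcongr) hsm
  have he2 := en2_nonneg G
  have hr0 : 0 ≤ rhs d δ l N #A := rhs_nonneg hl0.le (by positivity) (by positivity)
  exact (big hd hB hXR hEN hNUM hK3 hω hω' hC1 hC3 hC4 hδ0.le hδ hδa hδc hBa hBb hl (Real.one_le_rpow hl (by positivity)) hJ hJk
    hS hl'1 hl'l hlT hS2 hTk hw hN (hNl.trans (Real.rpow_le_rpow_of_exponent_le hl (min_le_right _ _))) s1 s2 s3 s4 hG hα0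
    hA hen ht hsep hcap hamp).trans (mul_le_mul_of_nonneg_right (mul_le_mul_of_nonneg_right hCc hr0) he2)

end Vale.Agent.P076N.SL
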