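import Vale.Agent.P076N.SL.Spec2
import Vale.Agent.P076N.SL.Asm

/-! # P076N / SL : energy sums along tubes, with multiplicity; gluing of exceptional sets -/

set_option linter.all false

open MeasureTheory Finset

namespace Vale.Agent.P076N.SL

open Vale.Agent.P076 Vale.Agent.P076N

variable {d : ℕ}

/-- the property of the tube masses delivered by `EN2` -/
def TM2 (d : ℕ) (C l L : ℝ) (ω : (Fin d → ℤ) → E d → ℝ) (G : E d × ℝ → ℂ) (m : (Fin d → ℤ) × (Fin d → ℤ) → ℝ) : Prop :=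
  ∀ (τ Q : Fin d → ℤ) (σ μ K : ℝ) (ι : Type) (I : Finset ι) (P β : ι → ℤ) (y : ι → ℝ), 0 < σ →
      (∀ i ∈ I, (#(I.filter fun j => P j = P i ∧ β j = β i) : ℝ) ≤ μ) → (∀ i ∈ I, |y i - P i * σ| ≤ σ) →
      (∀ i ∈ I, ∀ j ∈ I, l ^ 2 * (1 + ((β i : ℝ) - β j) ^ 2) ≤ 2 * σ ^ 2) →
      (∀ i ∈ I, (#(I.filter fun j => P j = P i) : ℝ) ≤ K) →
      ∑ i ∈ I, ee (ω Q) (cut L {τ} (slc G (y i) (l ^ 2 * β i))) ≤ C * √(μ * K) / l * m (τ, Q)

theorem eb_nonneg {L W : ℝ} {ω : (Fin d → ℤ) → E d → ℝ} (hω : Wt W ω) (h : E d → ℂ) (Q : Fin d → ℤ) (β : ℤ)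
    (Θ : Finset (Fin d → ℤ)) : 0 ≤ eb L ω h Q β Θ := Finset.sum_nonneg fun _ _ => ee_nonneg (hω.nn _) _

theorem eb_mono {L W : ℝ} {ω : (Fin d → ℤ) → E d → ℝ} (hω : Wt W ω) (h : E d → ℂ) (Q : Fin d → ℤ) (β : ℤ)
    {Θ Θ' : Finset (Fin d → ℤ)} (hΘ : Θ ⊆ Θ') : eb L ω h Q β Θ ≤ eb L ω h Q β Θ' :=
  Finset.sum_le_sum_of_subset_of_nonneg hΘ fun _ _ _ => ee_nonneg (hω.nn _) _

/-- the total energy -/
theorem sig2 {C l l' L W : ℝ} {N : ℕ} {ω : (Fin d → ℤ) → E d → ℝ} {G : E d × ℝ → ℂ} {m : (Fin d → ℤ) × (Fin d → ℤ) → ℝ}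
    (hC : 0 ≤ C) (hl' : 0 < l') (hl : l' ≤ l) (hm0 : ∀ u, 0 ≤ m u)
    (hm : ∀ J : Finset ((Fin d → ℤ) × (Fin d → ℤ)), ∑ u ∈ J, m u ≤ W) (hT : TM2 d C l' L ω G m)
    {ι : Type} (S : Finset ι) (Q : ι → Fin d → ℤ) (β Y : ι → ℤ) (γ : ℤ → ℤ) (T : Finset (Fin d → ℤ))
    (hinj : ∀ i ∈ S, ∀ j ∈ S, Q i = Q j → β i = β j → Y i = Y j → i = j) (hS : ∀ i ∈ S, 0 ≤ β i ∧ β i < N) :
    ∑ i ∈ S, eb L ω (slc G (l * Y i) (l' ^ 2 * γ (β i))) (Q i) (β i) T ≤ N * (C / l' * W) := by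
  have hl0 : 0 < l := by linarith
  unfold eb
  rw [← Finset.sum_product']
  set I : Finset (ι × (Fin d → ℤ)) := S ×ˢ T with hI
  set key : ι × (Fin d → ℤ) → ℤ × ((Fin d → ℤ) × (Fin d → ℤ)) := fun i => (β i.1, (i.2, Q i.1 - sh L (β i.1) i.2)) with hkey
  have hmem : ∀ i ∈ I, i.1 ∈ S := fun i hi => (Finset.mem_product.1 hi).1
  have h2 := sum_key I key (fun i => ee (ω (Q i.1 - sh L (β i.1) i.2)) (cut L {i.2} (slc G (l * Y i.1) (l' ^ 2 * γ (β i.1)))))
    (fun k => C / l' * m k.2) (fun k => by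
    have hk3 : ∀ i ∈ I.filter (fun i => key i = k), ∀ j ∈ I.filter (fun i => key i = k),
        β i.1 = β j.1 ∧ i.2 = j.2 ∧ Q i.1 - sh L (β i.1) i.2 = Q j.1 - sh L (β j.1) j.2 := by
      intro i hi j hj
      rw [Finset.mem_filter] at hi hj
      have hk : key i = key j := hi.2.trans hj.2.symm
      simpa only [hkey, Prod.mk.injEq] using hk
    have hin : ∀ i ∈ I.filter (fun i => key i = k), ∀ j ∈ I.filter (fun i => key i = k), Y i.1 = Y j.1 → i = j := by
      intro i hi j hj hy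
      obtain ⟨k1, k2, k3⟩ := hk3 i hi j hj
      rw [k1, k2] at k3
      exact Prod.ext (hinj _ (hmem i (Finset.mem_filter.1 hi).1) _ (hmem j (Finset.mem_filter.1 hj).1)
        (sub_left_injective k3) k1 hy) k2
    have hc : ∀ (p : ι × (Fin d → ℤ) → Prop) [DecidablePred p] (y : ℤ), (∀ j, p j → Y j.1 = y) →
        (#((I.filter (fun i => key i = k)).filter p) : ℝ) ≤ 1 := by
      intro p _ y hp
      have : #((I.filter (fun i => key i = k)).filter p) ≤ 1 := by
        rw [Finset.card_le_one]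
        intro a ha b hb
        rw [Finset.mem_filter] at ha hb
        exact hin a ha.1 b hb.1 ((hp a ha.2).trans (hp b hb.2).symm)
      exact_mod_cast this
    have h := hT k.2.1 k.2.2 l 1 1 _ (I.filter (fun i => key i = k)) (fun i => Y i.1) (fun i => γ (β i.1))
      (fun i => l * Y i.1) hl0 (fun i _ => hc _ (Y i.1) fun j hj => hj.1)
      (fun i _ => by rw [mul_comm l, sub_self, abs_zero]; exact hl0.le)
      (fun i hi j hj => by
        simp only [(hk3 i hi j hj).1, sub_self]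
        nlinarith)
      (fun i _ => hc _ (Y i.1) fun j hj => hj)
    rw [mul_one, Real.sqrt_one, mul_one] at h
    refine le_trans (le_of_eq (Finset.sum_congr rfl fun i hi => ?_)) h
    rw [Finset.mem_filter] at hi
    rw [← hi.2])
  refine h2.trans ?_
  have hsub : I.image key ⊆ Finset.Ico (0 : ℤ) N ×ˢ (I.image fun i => (key i).2) := by
    intro k hk
    obtain ⟨i, hi, rfl⟩ := Finset.mem_image.1 hk
    rw [Finset.mem_product, Finset.mem_Ico]
    exact ⟨hS _ (hmem i hi), Finset.mem_image_of_mem _ hi⟩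
  refine (Finset.sum_le_sum_of_subset_of_nonneg hsub fun k _ _ => mul_nonneg (by positivity) (hm0 _)).trans ?_
  rw [Finset.sum_product]
  simp only [Finset.sum_const, Int.card_Ico, sub_zero, Int.toNat_natCast, nsmul_eq_mul]
  rw [← Finset.mul_sum]
  gcongr
  exact hm _

/-- one slice per block, few visits per tube -/
theorem low2 {C l l' L T W K : ℝ} {N J : ℕ} {ω : (Fin d → ℤ) → E d → ℝ} {G : E d × ℝ → ℂ}
    {m : (Fin d → ℤ) × (Fin d → ℤ) → ℝ} (hC : 0 ≤ C) (hl' : 0 < l') (hJ : 1 ≤ J) (h1 : l' ≤ T) (h2 : l' * N ≤ T)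
    (hm : ∀ J : Finset ((Fin d → ℤ) × (Fin d → ℤ)), ∑ u ∈ J, m u ≤ W)
    (hT : TM2 d C l' L ω G m) (D : Finset (Bk d)) (Θ : Bk d → Finset (Fin d → ℤ)) (y : Bk d → ℤ)
    (hS : ∀ b ∈ D, 0 ≤ b.2.1 / (J : ℤ) ∧ b.2.1 / (J : ℤ) < N) (hY : ∀ b ∈ D, ⌊l * (y b : ℝ) / T⌋ = b.2.2)
    (hK : ∀ b ∈ D, ∀ τ ∈ Θ b, (#(D.filter fun b' => tb L b' τ = tb L b τ) : ℝ) ≤ K) :
    ∑ b ∈ D, eb L ω (slc G (l * y b) (l' ^ 2 * ((b.2.1 / (J : ℤ) : ℤ) : ℝ))) b.1 b.2.1 (Θ b) ≤ √(J * K) * (C / l' * W) := by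
  have hT0 : 0 < T := by linarith
  unfold eb
  rw [Finset.sum_sigma']
  set I : Finset (Σ _ : Bk d, (Fin d → ℤ)) := D.sigma Θ with hI
  set key : (Σ _ : Bk d, (Fin d → ℤ)) → (Fin d → ℤ) × (Fin d → ℤ) := fun i => (i.2, i.1.1 - sh L i.1.2.1 i.2) with hkey
  have hmem : ∀ i ∈ I, i.1 ∈ D ∧ i.2 ∈ Θ i.1 := fun i hi => by
    rw [hI, Finset.mem_sigma] at hi
    exact hi
  have h3 := sum_key I key
    (fun i => ee (ω (i.1.1 - sh L i.1.2.1 i.2)) (cut L {i.2} (slc G (l * y i.1) (l' ^ 2 * ((i.1.2.1 / (J : ℤ) : ℤ) : ℝ)))))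
    (fun k => C * √(J * K) / l' * m k) (fun k => by
    have hk2 : ∀ i ∈ I.filter (fun i => key i = k), ∀ j ∈ I.filter (fun i => key i = k),
        i.2 = j.2 ∧ i.1.1 - sh L i.1.2.1 i.2 = j.1.1 - sh L j.1.2.1 j.2 := by
      intro i hi j hj
      rw [Finset.mem_filter] at hi hj
      have hk : key i = key j := hi.2.trans hj.2.symm
      simpa only [hkey, Prod.mk.injEq] using hk
    have h := hT k.1 k.2 T J K _ (I.filter (fun i => key i = k)) (fun i => i.1.2.2) (fun i => i.1.2.1 / (J : ℤ))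
      (fun i => l * y i.1) hT0
      (fun i hi => by
        have hJ0 : (0 : ℤ) < J := by exact_mod_cast hJ
        have : #((I.filter (fun i => key i = k)).filter fun j => j.1.2.2 = i.1.2.2 ∧ j.1.2.1 / (J : ℤ) = i.1.2.1 / (J : ℤ)) ≤
            #(Finset.Ico (0 : ℤ) J) := by
          refine Finset.card_le_card_of_injOn (fun j => j.1.2.1 % (J : ℤ)) ?_ ?_
          · intro j _
            rw [Finset.coe_Ico]
            exact ⟨Int.emod_nonneg _ hJ0.ne', Int.emod_lt_of_pos _ hJ0⟩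
          · intro a ha b hb hab
            rw [Finset.coe_filter] at ha hb
            obtain ⟨k1, k2⟩ := hk2 a ha.1 b hb.1
            have hβ : a.1.2.1 = b.1.2.1 := by
              rw [← Int.emod_add_mul_ediv a.1.2.1 J, ← Int.emod_add_mul_ediv b.1.2.1 J, ha.2.2, hb.2.2]
              simp only at hab
              rw [hab]
            exact Sigma.ext (bk_ext (L := L) (τ := a.2) (by rw [k2, k1]) hβ (ha.2.1.trans hb.2.1.symm)) (heq_of_eq k1)
        rw [Int.card_Ico, sub_zero, Int.toNat_natCast] at this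
        exact_mod_cast this)
      (fun i hi => by
        have hD := (hmem i (Finset.mem_filter.1 hi).1).1
        have a1 := Int.floor_le (l * (y i.1 : ℝ) / T)
        have a2 := Int.lt_floor_add_one (l * (y i.1 : ℝ) / T)
        rw [hY _ hD] at a1 a2
        rw [le_div_iff₀ hT0] at a1
        rw [div_lt_iff₀ hT0] at a2
        rw [abs_le]
        constructor <;> nlinarith)
      (fun i hi j hj => by
        obtain ⟨a1, a2⟩ := hS _ (hmem i (Finset.mem_filter.1 hi).1).1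
        obtain ⟨b1, b2⟩ := hS _ (hmem j (Finset.mem_filter.1 hj).1).1
        generalize i.1.2.1 / (J : ℤ) = u at a1 a2 ⊢
        generalize j.1.2.1 / (J : ℤ) = v at b1 b2 ⊢
        have a1' : (0 : ℝ) ≤ u := by exact_mod_cast a1
        have b1' : (0 : ℝ) ≤ v := by exact_mod_cast b1
        have a2' : (u : ℝ) < N := by exact_mod_cast a2
        have b2' : (v : ℝ) < N := by exact_mod_cast b2
        have c1 : ((u : ℝ) - v) ^ 2 ≤ (N : ℝ) ^ 2 := sq_le_sq' (by linarith) (by linarith)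
        have c2 : l' ^ 2 ≤ T ^ 2 := by gcongr
        have c3 : (l' * N) ^ 2 ≤ T ^ 2 := by gcongr
        have c4 : l' ^ 2 * ((u : ℝ) - v) ^ 2 ≤ l' ^ 2 * (N : ℝ) ^ 2 := by gcongr
        rw [mul_pow] at c3
        linarith)
      (fun i hi => by
        obtain ⟨hD, hΘ⟩ := hmem i (Finset.mem_filter.1 hi).1
        refine le_trans ?_ (hK _ hD _ hΘ)
        have : #((I.filter (fun i => key i = k)).filter fun j => j.1.2.2 = i.1.2.2) ≤
            #(D.filter fun b' => tb L b' i.2 = tb L i.1 i.2) := by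
          refine Finset.card_le_card_of_injOn (fun j => j.1) ?_ ?_
          · intro j hj
            rw [Finset.coe_filter] at hj
            obtain ⟨hj1, hj2⟩ := hj
            obtain ⟨k1, k2⟩ := hk2 j hj1 i hi
            rw [Finset.coe_filter]
            refine ⟨(hmem j (Finset.mem_filter.1 hj1).1).1, ?_⟩
            unfold tb
            rw [k1] at k2
            rw [k2, hj2]
          · intro a ha b hb hab
            rw [Finset.coe_filter] at ha hb
            exact Sigma.ext hab (heq_of_eq (hk2 a ha.1 b hb.1).1)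
        exact_mod_cast this)
    refine le_trans (le_of_eq (Finset.sum_congr rfl fun i hi => ?_)) h
    rw [Finset.mem_filter] at hi
    rw [← hi.2])
  refine h3.trans ?_
  rw [← Finset.mul_sum]
  calc C * √(J * K) / l' * ∑ k ∈ I.image key, m k ≤ C * √(J * K) / l' * W := by gcongr; exact hm _
    _ = _ := by ring

/-- gluing of the good sets of the groups -/
theorem glue {ι κ : Type} [DecidableEq κ] (A : Finset ι) (key : ι → κ) (Pr : κ → Finset ι → Prop) (X : κ → ℝ)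
    (h : ∀ g, ∃ A' ⊆ A.filter (fun i => key i = g), (#(A.filter fun i => key i = g) : ℝ) ≤ #A' + X g ∧ Pr g A') :
    ∃ A' ⊆ A, (#A : ℝ) ≤ #A' + ∑ g ∈ A.image key, X g ∧ ∀ g, Pr g (A'.filter fun i => key i = g) := by
  classical
  choose F hF1 hF2 hF3 using h
  have e : ∀ g, (A.filter fun i => i ∈ F (key i)).filter (fun i => key i = g) = F g := by
    intro g
    ext i
    simp only [Finset.mem_filter]
    constructor
    · rintro ⟨⟨_, h2⟩, h3⟩
      rwa [h3] at h2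
    · intro hi
      have := Finset.mem_filter.1 (hF1 g hi)
      exact ⟨⟨this.1, by rwa [this.2]⟩, this.2⟩
  refine ⟨A.filter fun i => i ∈ F (key i), Finset.filter_subset _ _, ?_, fun g => by rw [e]; exact hF3 g⟩
  rw [Finset.card_eq_sum_card_image key A,
    Finset.card_eq_sum_card_fiberwise (f := key) (s := A.filter fun i => i ∈ F (key i)) (t := A.image key)
      (fun i hi => Finset.mem_image_of_mem _ (Finset.mem_filter.1 hi).1)]
  push_cast
  rw [← Finset.sum_add_distrib]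
  refine Finset.sum_le_sum fun g _ => ?_
  rw [e]
  exact hF2 g

end Vale.Agent.P076N.SL
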