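import Vale.Agent.P076N.SL.Asm2a

/-! # P076N / SL : good and bad tubes for a set of blocks -/

set_option linter.all false

open MeasureTheory Finset

namespace Vale.Agent.P076N.SL

open Vale.Agent.P076 Vale.Agent.P076N

variable {d : ℕ} {ι : Type}

/-- the block of a point -/
noncomputable def bl2 (l T : ℝ) (x : ι → E d) (t : ι → ℝ) (Y : ι → ℤ) (i : ι) : Bk d :=
  (cb T (x i), ⌊t i / T⌋, ⌊l * Y i / T⌋)

/-- the slices met in a block -/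
noncomputable def Yb2 (l T : ℝ) (A : Finset ι) (x : ι → E d) (t : ι → ℝ) (Y : ι → ℤ) (b : Bk d) : Finset ℤ :=
  (A.filter fun i => bl2 l T x t Y i = b).image Y

/-- the number of points in a slice of a block -/
noncomputable def ct (l T : ℝ) (A : Finset ι) (x : ι → E d) (t : ι → ℝ) (Y : ι → ℤ) (b : Bk d) (y : ℤ) : ℝ :=
  (#((A.filter fun i => bl2 l T x t Y i = b).filter fun i => Y i = y) : ℝ)

variable {l T : ℝ} {A : Finset ι} {x : ι → E d} {t : ι → ℝ} {Y : ι → ℤ}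

theorem Yb2_floor (b : Bk d) : ∀ y ∈ Yb2 l T A x t Y b, ⌊l * (y : ℝ) / T⌋ = b.2.2 := by
  intro y hy
  obtain ⟨i, hi, rfl⟩ := Finset.mem_image.1 hy
  rw [← (Finset.mem_filter.1 hi).2]
  rfl

theorem Yb2_ne : ∀ b ∈ A.image (bl2 l T x t Y), (Yb2 l T A x t Y b).Nonempty := by
  intro b hb
  obtain ⟨i, hi, rfl⟩ := Finset.mem_image.1 hb
  exact ⟨Y i, Finset.mem_image_of_mem _ (Finset.mem_filter.2 ⟨hi, rfl⟩)⟩

theorem ct_mono {A' : Finset ι} (h : A' ⊆ A) (b : Bk d) (y : ℤ) : ct l T A' x t Y b y ≤ ct l T A x t Y b y := by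
  unfold ct
  exact_mod_cast Finset.card_le_card (Finset.filter_subset_filter _ (Finset.filter_subset_filter _ h))

theorem sum_ct {A' : Finset ι} (h : A' ⊆ A) (b : Bk d) :
    ∑ y ∈ Yb2 l T A x t Y b, ct l T A' x t Y b y = (#(A'.filter fun i => bl2 l T x t Y i = b) : ℝ) := by
  unfold ct
  rw [Finset.card_eq_sum_card_fiberwise (f := Y) (s := A'.filter fun i => bl2 l T x t Y i = b) (t := Yb2 l T A x t Y b)
    (fun i hi => Finset.mem_image_of_mem _ (Finset.filter_subset_filter _ h hi))]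
  push_cast
  rfl

theorem sum_sum_ct {A' : Finset ι} (h : A' ⊆ A) (D : Finset (Bk d)) :
    ∑ b ∈ D, ∑ y ∈ Yb2 l T A x t Y b, ct l T A' x t Y b y = (#(A'.filter fun i => bl2 l T x t Y i ∈ D) : ℝ) := by
  simp only [sum_ct h]
  rw [Finset.card_eq_sum_card_fiberwise (f := bl2 l T x t Y) (s := A'.filter fun i => bl2 l T x t Y i ∈ D) (t := D)
    (fun i hi => (Finset.mem_filter.1 hi).2)]
  push_cast
  refine Finset.sum_congr rfl fun b hb => ?_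
  congr 2
  ext i
  simp only [Finset.mem_filter]
  exact ⟨fun h => ⟨⟨h.1, h.2 ▸ hb⟩, h.2⟩, fun h => ⟨h.1.1, h.2⟩⟩

theorem floor_nest (a T : ℝ) (J : ℕ) : ⌊a / (J * T)⌋ = ⌊a / T⌋ / (J : ℤ) := by
  rw [← Int.floor_div_natCast, div_div, mul_comm]

/-- directions in which the dilated tube through `b` meets many blocks of `D` -/
noncomputable def Tb (L K : ℝ) (D : Finset (Bk d)) (b : Bk d) : Finset (Fin d → ℤ) :=
  (TT d L).filter fun τ => K < (#(D.filter fun b' =>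
    (∀ k, |(tb L b' τ).1 k - (tb L b τ).1 k| ≤ ((200 * d + 6 : ℕ) : ℤ)) ∧ b'.2.2 = b.2.2) : ℝ)

/-- directions in which the tube through `b` meets few blocks of `D` -/
noncomputable def Tg (L K : ℝ) (D : Finset (Bk d)) (b : Bk d) : Finset (Fin d → ℤ) :=
  (TT d L).filter fun τ => (#(D.filter fun b' => tb L b' τ = tb L b τ) : ℝ) ≤ K

/-- bad tubes in the layer `P` -/
def sb (L K : ℝ) (D : Finset (Bk d)) (P : ℤ) (u : (Fin d → ℤ) × (Fin d → ℤ)) : Prop :=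
  K < (#(D.filter fun b' => (∀ k, |u.2 k - (tb L b' u.1).1 k| ≤ 100 * d + 3) ∧ b'.2.2 = P) : ℝ)

theorem sb_split {L K : ℝ} (D : Finset (Bk d)) (q : (Fin d → ℤ) × ℤ) (P : ℤ) {τ : Fin d → ℤ} (hτ : τ ∈ TT d L)
    (Q0 : Fin d → ℤ) (h : nr L q τ Q0) :
    (sb L K D P (τ, Q0) → τ ∈ Tb L K D (q.1, q.2, P)) ∧ (¬ sb L K D P (τ, Q0) → τ ∈ Tg L K D (q.1, q.2, P)) := by
  constructor
  · intro hs
    refine Finset.mem_filter.2 ⟨hτ, lt_of_lt_of_le hs ?_⟩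
    refine Nat.cast_le.2 (Finset.card_le_card fun b' hb' => ?_)
    rw [Finset.mem_filter] at hb' ⊢
    refine ⟨hb'.1, fun k => ?_, hb'.2.2⟩
    have h1 : |Q0 k - (tb L b' τ).1 k| ≤ 100 * d + 3 := hb'.2.1 k
    have h2 : |Q0 k - (tb L (q.1, q.2, P) τ).1 k| ≤ 100 * d + 3 := h k
    rw [abs_le] at h1 h2 ⊢
    push_cast
    constructor <;> linarith [h1.1, h1.2, h2.1, h2.2]
  · intro hs
    refine Finset.mem_filter.2 ⟨hτ, le_trans ?_ (not_lt.1 hs)⟩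
    refine Nat.cast_le.2 (Finset.card_le_card fun b' hb' => ?_)
    rw [Finset.mem_filter] at hb' ⊢
    refine ⟨hb'.1, fun k => ?_, congrArg Prod.snd hb'.2⟩
    show |Q0 k - (tb L b' τ).1 k| ≤ 100 * d + 3
    rw [hb'.2]
    exact h k

/-- the constant of the X-ray count -/
noncomputable def cX (d : ℕ) : ℝ := 4 * (13 * (2 * ((200 * d + 6 : ℕ) : ℝ) + 3)) ^ d

theorem cX_one : 1 ≤ cX d := by
  unfold cX
  have : (1 : ℝ) ≤ (13 * (2 * ((200 * d + 6 : ℕ) : ℝ) + 3)) ^ d :=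
    one_le_pow₀ (by have : (0 : ℝ) ≤ ((200 * d + 6 : ℕ) : ℝ) := Nat.cast_nonneg _; linarith)
  linarith

theorem Tb_card (hB : BAS d) (hXR : XR2 d) {L K : ℝ} {N : ℕ} {D : Finset (Bk d)} (hL : 1 ≤ L) (hN : (N : ℝ) ≤ L) (hK : 0 < K)
    (hD : ∀ b ∈ D, 0 ≤ b.2.1 ∧ b.2.1 < N) {b : Bk d} (hb : b ∈ D) :
    (#(Tb L K D b) : ℝ) ≤ min (13 ^ d) (cX d * ((#D : ℝ) ^ (1 / ((d : ℝ) + 1)) / K)) * L ^ d := by
  rw [min_mul_of_nonneg _ _ (by positivity)]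
  refine le_min (le_trans (Nat.cast_le.2 (Finset.card_filter_le _ _)) (hB.2.2.2.1 L hL).1) ?_
  have h := (hXR L N (200 * d + 6) D hL hN hD b hb).2
  have h2 : (#(Tb L K D b) : ℝ) * K ≤ ∑ τ ∈ TT d L, (#(D.filter fun b' =>
      (∀ k, |(tb L b' τ).1 k - (tb L b τ).1 k| ≤ ((200 * d + 6 : ℕ) : ℤ)) ∧ b'.2.2 = b.2.2) : ℝ) := by
    refine le_trans ?_ (Finset.sum_le_sum_of_subset_of_nonneg (s := Tb L K D b) (Finset.filter_subset _ _) fun _ _ _ => by positivity)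
    rw [← nsmul_eq_mul]
    exact Finset.card_nsmul_le_sum _ _ _ fun τ hτ => (Finset.mem_filter.1 hτ).2.le
  rw [← le_div_iff₀ hK] at h2
  refine h2.trans ((div_le_div_of_nonneg_right h hK.le).trans (le_of_eq ?_))
  unfold cX
  ring

/-- the conclusion of `KL2` at a fixed scale -/
def KL3 (d : ℕ) (η κ δ C l T L S : ℝ) (ω ω' : (Fin d → ℤ) → E d → ℝ) : Prop :=
  ∀ (h : E d → ℂ) (Q' : Fin d → ℤ) (β' : ℤ) (s : (Fin d → ℤ) × (Fin d → ℤ) → Prop)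
      (Θb Θg : (Fin d → ℤ) × ℤ → Finset (Fin d → ℤ)) (ι : Type) (A : Finset ι) (x : ι → E d) (t : ι → ℝ) (α φ : ℝ),
      Bd 2 h → 0 < α → 0 ≤ φ → φ ≤ 13 ^ d → en h ≤ l ^ (8 * (d + 1)) * α ^ 2 →
      (∀ i ∈ A, cb S (x i) = Q' ∧ ⌊t i / S⌋ = β' ∧ 0 ≤ t i ∧ t i ≤ l ^ (2 + η / 2)) →
      (∀ i ∈ A, ∀ j ∈ A, i ≠ j → (∃ k, 1 ≤ |x i k - x j k|) ∨ l ≤ |t i - t j|) →
      (∀ i ∈ A, α ≤ ‖evo h (x i) (t i) 0‖) →
      (∀ i ∈ A, ∀ q, cub T (x i, t i) = q → Θb q ⊆ TT d L ∧ Θg q ⊆ TT d L ∧ (#(Θb q) : ℝ) ≤ φ * L ^ d ∧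
        ∀ τ ∈ TT d L, ∀ Q0, nr L q τ Q0 → (s (τ, Q0) → τ ∈ Θb q) ∧ (¬ s (τ, Q0) → τ ∈ Θg q)) →
      ∃ A' ⊆ A, (#A : ℝ) ≤ #A' + C * l ^ (2 * ((d : ℝ) + 1) / (d + 2) - κ) * (eb L ω' h Q' β' (TT d L) / α ^ 2) ∧
        ∀ q, (#(A'.filter fun i => cub T (x i, t i) = q) : ℝ) ≤ C * T ^ (d + 1) *
          (φ ^ δ * (eb L ω h q.1 q.2 (TT d L) / (T ^ d * α ^ 2)) ^ (((d : ℝ) + 2) / d) +
            (eb L ω h q.1 q.2 (Θg q) / (T ^ d * α ^ 2)) ^ (((d : ℝ) + 2) / d))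

/-- the group (big block and slice) of a point -/
noncomputable def gp (S : ℝ) (x : ι → E d) (t : ι → ℝ) (Y : ι → ℤ) (i : ι) : Bk d := (cb S (x i), ⌊t i / S⌋, Y i)

/-- the good set for a family `D` of blocks -/
theorem good_set (hB : BAS d) (hXR : XR2 d) {η κ δ C L S l' K α : ℝ} {N J : ℕ} {ω ω' : (Fin d → ℤ) → E d → ℝ}
    {G : E d × ℝ → ℂ} (hKL : KL3 d η κ δ C l T L S ω ω') (hl : 1 ≤ l) (hL : 1 ≤ L) (hN : (N : ℝ) ≤ L) (hS : S = J * T)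
    (hS' : l' ^ 2 = S) (hG : Str l G) (hα : 0 < α) (hK : 0 < K) (hen : en2 G ≤ l ^ (8 * (d + 1)) * α ^ 2)
    (ht : ∀ i ∈ A, 0 ≤ t i ∧ t i ≤ l ^ (2 + η / 2))
    (hsep : ∀ i ∈ A, ∀ j ∈ A, i ≠ j → (∃ k, 1 ≤ |x i k - x j k|) ∨ l ≤ |t i - t j| ∨ Y i ≠ Y j)
    (hamp : ∀ i ∈ A, α ≤ ‖evo (slc G (l * Y i) (S * ⌊t i / S⌋)) (x i) (t i) 0‖)
    {D : Finset (Bk d)} (hD : ∀ b ∈ D, 0 ≤ b.2.1 ∧ b.2.1 < N) :
    ∃ A' ⊆ A.filter (fun i => bl2 l T x t Y i ∈ D), (#(A.filter fun i => bl2 l T x t Y i ∈ D) : ℝ) ≤ #A' +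
      C * l ^ (2 * ((d : ℝ) + 1) / (d + 2) - κ) / α ^ 2 *
        ∑ g ∈ (A.filter fun i => bl2 l T x t Y i ∈ D).image (gp S x t Y),
          eb L ω' (slc G (l * g.2.2) (l' ^ 2 * g.2.1)) g.1 g.2.1 (TT d L) ∧
      ∀ b : Bk d, ∀ y ∈ Yb2 l T A x t Y b, ct l T A' x t Y b y ≤ C * T ^ (d + 1) *
        ((min (13 ^ d) (cX d * ((#D : ℝ) ^ (1 / ((d : ℝ) + 1)) / K))) ^ δ *
          (eb L ω (slc G (l * y) (l' ^ 2 * ((b.2.1 / (J : ℤ) : ℤ) : ℝ))) b.1 b.2.1 (TT d L) / (T ^ d * α ^ 2)) ^ (((d : ℝ) + 2) / d) +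
          (eb L ω (slc G (l * y) (l' ^ 2 * ((b.2.1 / (J : ℤ) : ℤ) : ℝ))) b.1 b.2.1 (Tg L K D b) / (T ^ d * α ^ 2)) ^
            (((d : ℝ) + 2) / d)) := by
  have hc := cX_one (d := d)
  generalize hφ : min ((13 : ℝ) ^ d) (cX d * ((#D : ℝ) ^ (1 / ((d : ℝ) + 1)) / K)) = φ
  have hφ0 : 0 ≤ φ := by rw [← hφ]; exact le_min (by positivity) (by positivity)
  have hφ1 : φ ≤ 13 ^ d := by rw [← hφ]; exact min_le_left _ _
  obtain ⟨A', h1, h2, h3⟩ := glue (A.filter fun i => bl2 l T x t Y i ∈ D) (gp S x t Y)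
    (fun g A' => ∀ q, (#(A'.filter fun i => cub T (x i, t i) = q) : ℝ) ≤ C * T ^ (d + 1) *
      (φ ^ δ * (eb L ω (slc G (l * g.2.2) (l' ^ 2 * g.2.1)) q.1 q.2 (TT d L) / (T ^ d * α ^ 2)) ^ (((d : ℝ) + 2) / d) +
        (eb L ω (slc G (l * g.2.2) (l' ^ 2 * g.2.1)) q.1 q.2 (Tg L K D (q.1, q.2, ⌊l * (g.2.2 : ℝ) / T⌋)) / (T ^ d * α ^ 2)) ^
          (((d : ℝ) + 2) / d)))
    (fun g => C * l ^ (2 * ((d : ℝ) + 1) / (d + 2) - κ) *
      (eb L ω' (slc G (l * g.2.2) (l' ^ 2 * g.2.1)) g.1 g.2.1 (TT d L) / α ^ 2))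
    (fun g => by
      obtain ⟨b1, b2⟩ := hB.1 l G (l * g.2.2) (l' ^ 2 * g.2.1) hl hG
      refine hKL _ g.1 g.2.1 (sb L K D ⌊l * (g.2.2 : ℝ) / T⌋) (fun q => Tb L K D (q.1, q.2, ⌊l * (g.2.2 : ℝ) / T⌋))
        (fun q => Tg L K D (q.1, q.2, ⌊l * (g.2.2 : ℝ) / T⌋)) ι _ x t α φ b1 hα hφ0 hφ1 (b2.trans hen) ?_ ?_ ?_ ?_
      · intro i hi
        rw [Finset.mem_filter, Finset.mem_filter] at hi
        rw [← hi.2]
        exact ⟨rfl, rfl, ht i hi.1.1⟩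
      · intro i hi j hj hij
        rw [Finset.mem_filter, Finset.mem_filter] at hi hj
        rcases hsep i hi.1.1 j hj.1.1 hij with h | h | h
        · exact Or.inl h
        · exact Or.inr h
        · exact absurd (congrArg (fun g : Bk d => g.2.2) (hi.2.trans hj.2.symm)) h
      · intro i hi
        rw [Finset.mem_filter, Finset.mem_filter] at hi
        rw [← hi.2, hS']
        exact hamp i hi.1.1
      · intro i hi q hq
        rw [Finset.mem_filter, Finset.mem_filter] at hi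
        refine ⟨Finset.filter_subset _ _, Finset.filter_subset _ _, ?_, fun τ hτ Q0 h => sb_split D q _ hτ Q0 h⟩
        rw [← hφ]
        refine Tb_card hB hXR hL hN hK hD ?_
        rw [← hq, ← hi.2]
        exact hi.1.2)
  refine ⟨A', h1, h2.trans (le_of_eq ?_), fun b y hy => ?_⟩
  · rw [Finset.mul_sum]
    congr 1
    exact Finset.sum_congr rfl fun g _ => by ring
  · have h4 := h3 (fun k => b.1 k / (J : ℤ), b.2.1 / (J : ℤ), y) (b.1, b.2.1)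
    simp only at h4
    rw [Yb2_floor b y hy] at h4
    refine le_trans (Nat.cast_le.2 (Finset.card_le_card fun i hi => ?_)) h4
    simp only [Finset.mem_filter] at hi ⊢
    obtain ⟨⟨i1, i2⟩, i3⟩ := hi
    refine ⟨⟨i1, ?_⟩, ?_⟩
    · rw [← i2, ← i3, hS]
      unfold gp bl2 cb
      simp only [floor_nest]
    · rw [← i2]
      rfl

end Vale.Agent.P076N.SL
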