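import Vale.Agent.P076N.SL.Asm2b
import Vale.Agent.P076T.Triv

/-! # P076N / SL : numerical lemmas for the main assembly -/

set_option linter.all false

open MeasureTheory Finset

namespace Vale.Agent.P076N.SL

open Vale.Agent.P076 Vale.Agent.P076N

variable {d : ℕ}

theorem evo_tr (d : ℕ) : ∃ C : ℝ, 0 ≤ C ∧ ∀ (h : E d → ℂ) (x : E d) (t : ℝ), Bd 2 h → ‖evo h x t 0‖ ^ 2 ≤ C * en h := by
  obtain ⟨C, hC, H⟩ := P076T.one_slab d 2
  refine ⟨C, hC, fun h x t hh => ?_⟩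
  have := H h hh.meas hh.bdd (fun η hη i => (P076T.abs_apply_le η i).trans (hh.supp η hη)) ({()} : Finset Unit)
    (fun _ => x) (fun _ => t) t (fun _ _ => by simp) (fun _ _ _ _ _ => rfl)
  simpa [en] using this

/-- the unit of energy -/
noncomputable def E1 (d : ℕ) (l T α : ℝ) : ℝ := T ^ d * α ^ 2 / l ^ ((d : ℝ) / (d + 2))

theorem E1_pos {l T α : ℝ} (hl : 0 < l) (hT : 0 < T) (hα : 0 < α) : 0 < E1 d l T α := by unfold E1; positivity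

theorem pw_eq (hd : 1 ≤ d) {l T α Y : ℝ} (hl : 0 < l) (hT : 0 < T) (hα : 0 < α) (hY : 0 ≤ Y) :
    (Y / (T ^ d * α ^ 2)) ^ (((d : ℝ) + 2) / d) = (Y / E1 d l T α) ^ (((d : ℝ) + 2) / d) / l := by
  have hd0 : (0 : ℝ) < d := by exact_mod_cast hd
  have hq : 0 < l ^ ((d : ℝ) / (d + 2)) := by positivity
  have e1 : Y / E1 d l T α = Y / (T ^ d * α ^ 2) * l ^ ((d : ℝ) / (d + 2)) := by
    unfold E1; field_simp
  have e2 : (l ^ ((d : ℝ) / (d + 2))) ^ (((d : ℝ) + 2) / d) = l := by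
    rw [← Real.rpow_mul hl.le]
    have : (d : ℝ) / (d + 2) * ((d + 2) / d) = 1 := by field_simp
    rw [this, Real.rpow_one]
  rw [e1, Real.mul_rpow (by positivity) hq.le, e2]
  field_simp

theorem norm_ct (hd : 1 ≤ d) {l T α C B c r δ a Y1 Y2 : ℝ} (hl : 0 < l) (hT : 0 < T) (hα : 0 < α) (hY1 : 0 ≤ Y1) (hY2 : 0 ≤ Y2)
    (hC : 0 ≤ C) (hc : 1 ≤ c) (hr : 0 ≤ r) (hδ : 0 ≤ δ) (hB : C * c ^ δ ≤ B)
    (h : a ≤ C * T ^ (d + 1) * ((min (13 ^ d) (c * r)) ^ δ * (Y1 / (T ^ d * α ^ 2)) ^ (((d : ℝ) + 2) / d) +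
      (Y2 / (T ^ d * α ^ 2)) ^ (((d : ℝ) + 2) / d))) :
    a / (T ^ (d + 1) / l) ≤ B * (r ^ δ * (Y1 / E1 d l T α) ^ (((d : ℝ) + 2) / d) + (Y2 / E1 d l T α) ^ (((d : ℝ) + 2) / d)) := by
  have hE := E1_pos (d := d) hl hT hα
  rw [pw_eq hd hl hT hα hY1, pw_eq hd hl hT hα hY2] at h
  have h1 : (min (13 ^ d) (c * r)) ^ δ ≤ c ^ δ * r ^ δ := by
    rw [← Real.mul_rpow (by linarith) hr]
    exact Real.rpow_le_rpow (le_min (by positivity) (by positivity)) (min_le_right _ _) hδ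
  have h2 : 1 ≤ c ^ δ := Real.one_le_rpow hc hδ
  have hu0 : 0 ≤ (Y1 / E1 d l T α) ^ (((d : ℝ) + 2) / d) := by positivity
  have hv0 : 0 ≤ (Y2 / E1 d l T α) ^ (((d : ℝ) + 2) / d) := by positivity
  have hr0 : 0 ≤ r ^ δ := by positivity
  generalize (Y1 / E1 d l T α) ^ (((d : ℝ) + 2) / d) = u at *
  generalize (Y2 / E1 d l T α) ^ (((d : ℝ) + 2) / d) = v at *
  rw [div_le_iff₀ (by positivity)]
  calc a ≤ C * T ^ (d + 1) * (c ^ δ * r ^ δ * (u / l) + c ^ δ * (v / l)) := by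
        refine h.trans ?_
        gcongr
        exact le_mul_of_one_le_left (by positivity) h2
    _ = C * c ^ δ * (r ^ δ * u + v) * (T ^ (d + 1) / l) := by ring
    _ ≤ _ := by gcongr

/-- from the normalised bound to the final one -/
theorem fin2 {l l' T k N N1 J a δ δ1 κ α C C' C'' w e2 : ℝ} (hl : 1 ≤ l) (hN : 1 ≤ N) (hNl : N ≤ l) (hNk : N ≤ l ^ (κ / 2))
    (ha : 1 ≤ a) (hδ : 0 < δ) (hδ1 : δ ≤ δ1) (hδk : δ * (3 * d + 2) ≤ κ / 2) (hC : 0 ≤ C) (hC' : 0 ≤ C') (hC'' : 0 ≤ C'')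
    (he : 0 ≤ e2) (hα : 0 < α) (hk : 0 < k) (hT : T * k = l ^ 2) (h1 : N * k ≤ N1) (h2 : N1 ≤ 2 * (N * k)) (hJ0 : 0 ≤ J) (hJ : J ≤ k)
    (hl' : 0 < l') (hw : l ≤ w * l')
    (h : a / (T ^ (d + 1) / l) ≤ C * (min 1 (a / (T ^ (d + 1) / l) / N1 ^ (d + 1))) ^ δ1 *
      (J ^ (1 / ((d : ℝ) + 2)) * N1 ^ (((d : ℝ) + 1) / (d + 2))) * (C' / l' * e2 / E1 d l T α) +
      2 * (C'' * l ^ (2 * ((d : ℝ) + 1) / (d + 2) - κ) / α ^ 2 * (N * (C' / l' * e2)) / (T ^ (d + 1) / l))) :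
    α ^ 2 * a ≤ 2 * (C + C'') * C' * w * rhs d δ l N a * e2 := by
  have hl0 : 0 < l := by linarith
  have hT0 : 0 < T := by
    have : 0 < T * k := by rw [hT]; positivity
    exact (pos_iff_pos_of_mul_pos this).2 hk
  have hN1 : 0 < N1 := lt_of_lt_of_le (by positivity) h1
  have hw0 : 0 ≤ w := by
    by_contra hn
    nlinarith
  have hE := E1_pos (d := d) hl0 hT0 hα
  set lam := a / (l ^ (2 * d + 1) * N ^ (d + 1)) with hlam
  have hlam0 : 0 < lam := by positivity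
  have g1 : a / (T ^ (d + 1) / l) / N1 ^ (d + 1) ≤ lam := by
    rw [div_div, hlam]
    refine div_le_div_of_nonneg_left (by linarith) (by positivity) ?_
    have : l ^ (2 * d + 1) * N ^ (d + 1) = T ^ (d + 1) / l * (N * k) ^ (d + 1) := by
      rw [mul_pow, div_mul_eq_mul_div, eq_div_iff hl0.ne']
      calc l ^ (2 * d + 1) * N ^ (d + 1) * l = (l ^ 2) ^ (d + 1) * N ^ (d + 1) := by ring
        _ = _ := by rw [← hT]; ring
    rw [this]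
    gcongr
  have g0 : 0 < min 1 (a / (T ^ (d + 1) / l) / N1 ^ (d + 1)) := lt_min one_pos (by positivity)
  have g2 : (min 1 (a / (T ^ (d + 1) / l) / N1 ^ (d + 1))) ^ δ1 ≤ lam ^ δ :=
    (Real.rpow_le_rpow_of_exponent_ge g0 (min_le_left _ _) hδ1).trans
      (Real.rpow_le_rpow g0.le ((min_le_right _ _).trans g1) hδ.le)
  have hq : 1 ≤ N ^ (((d : ℝ) + 1) / (d + 2)) := Real.one_le_rpow hN (by positivity)
  have g3 : J ^ (1 / ((d : ℝ) + 2)) * N1 ^ (((d : ℝ) + 1) / (d + 2)) ≤ 2 * k * N ^ (((d : ℝ) + 1) / (d + 2)) := by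
    have a1 : (2 : ℝ) ^ (((d : ℝ) + 1) / (d + 2)) ≤ 2 := by
      refine (Real.rpow_le_rpow_of_exponent_le one_le_two (z := 1) ?_).trans_eq (Real.rpow_one _)
      rw [div_le_one (by positivity)]; linarith
    have a2 : k ^ (1 / ((d : ℝ) + 2)) * k ^ (((d : ℝ) + 1) / (d + 2)) = k := by
      rw [← Real.rpow_add hk]
      have : 1 / ((d : ℝ) + 2) + (d + 1) / (d + 2) = 1 := by field_simp; ring
      rw [this, Real.rpow_one]
    calc J ^ (1 / ((d : ℝ) + 2)) * N1 ^ (((d : ℝ) + 1) / (d + 2))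
        ≤ k ^ (1 / ((d : ℝ) + 2)) * (2 * (N * k)) ^ (((d : ℝ) + 1) / (d + 2)) := by gcongr
      _ = 2 ^ (((d : ℝ) + 1) / (d + 2)) * (k ^ (1 / ((d : ℝ) + 2)) * k ^ (((d : ℝ) + 1) / (d + 2))) *
          N ^ (((d : ℝ) + 1) / (d + 2)) := by
        rw [Real.mul_rpow (by norm_num) (by positivity), Real.mul_rpow (by positivity) hk.le]; ring
      _ ≤ _ := by rw [a2]; gcongr
  have g4 : l ^ (-κ) * N ≤ lam ^ δ * N ^ (((d : ℝ) + 1) / (d + 2)) := by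
    have h3 := lam_lb (d := d) hl hN hNl ha hδ.le
    calc l ^ (-κ) * N ≤ l ^ (-κ) * l ^ (κ / 2) := by gcongr
      _ = l ^ (-(κ / 2)) := by rw [← Real.rpow_add hl0]; congr 1; ring
      _ ≤ l ^ (-(δ * (3 * d + 2))) := Real.rpow_le_rpow_of_exponent_le hl (by linarith)
      _ ≤ lam ^ δ := h3
      _ ≤ _ := le_mul_of_one_le_right (by positivity) hq
  have e3 : l ^ (2 * ((d : ℝ) + 1) / (d + 2) - κ) = l * l ^ (-κ) * l ^ ((d : ℝ) / (d + 2)) := by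
    have : 2 * ((d : ℝ) + 1) / (d + 2) - κ = 1 + -κ + d / (d + 2) := by field_simp; ring
    rw [this, Real.rpow_add hl0, Real.rpow_add hl0, Real.rpow_one]
  have g5 : l / l' ≤ w := by rw [div_le_iff₀ hl']; exact hw
  have hq2 : 0 < l ^ ((d : ℝ) / (d + 2)) := by positivity
  have hTk : T = l ^ 2 / k := by rw [eq_div_iff hk.ne', hT]
  have h4 : a / (T ^ (d + 1) / l) ≤ C * lam ^ δ * (2 * k * N ^ (((d : ℝ) + 1) / (d + 2))) * (C' / l' * e2 / E1 d l T α) +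
      2 * (C'' * l ^ (2 * ((d : ℝ) + 1) / (d + 2) - κ) / α ^ 2 * (N * (C' / l' * e2)) / (T ^ (d + 1) / l)) := by
    refine h.trans ?_
    gcongr
  rw [div_le_iff₀ (by positivity), e3] at h4
  have h5 : α ^ 2 * a ≤ (2 * C * (lam ^ δ * N ^ (((d : ℝ) + 1) / (d + 2))) + 2 * C'' * (l ^ (-κ) * N)) *
      (C' * (l / l') * l ^ ((d : ℝ) / (d + 2)) * e2) := by
    refine (mul_le_mul_of_nonneg_left h4 (sq_nonneg α)).trans (le_of_eq ?_)
    unfold E1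
    have : T ^ (d + 1) = T ^ d * (l ^ 2 / k) := by rw [pow_succ, ← hTk]
    rw [this]
    field_simp
  refine h5.trans ?_
  unfold rhs
  rw [← hlam]
  calc _ ≤ (2 * C * (lam ^ δ * N ^ (((d : ℝ) + 1) / (d + 2))) + 2 * C'' * (lam ^ δ * N ^ (((d : ℝ) + 1) / (d + 2)))) *
      (C' * w * l ^ ((d : ℝ) / (d + 2)) * e2) := by gcongr
    _ = _ := by ring

/-- the choice of the scales -/
theorem scales {l η : ℝ} (hl : 1 ≤ l) (hη : 0 < η) (hη1 : η ≤ 1 / 2) (hu : 2 * ((d : ℝ) + 1) ≤ l ^ (η / 2)) :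
    ∃ (J : ℕ) (l' : ℝ), 1 ≤ J ∧ (J : ℝ) ≤ l ^ η ∧ l' ^ 2 = J * l ^ (2 - η) ∧ 1 ≤ l' ∧ l' ≤ l ∧ l ≤ l ^ (2 - η) ∧
      ((d : ℝ) + 1) * (J * l ^ (2 - η)) ≤ l ^ 2 ∧ l ^ 2 ≤ 2 * (d + 1) * (J * l ^ (2 - η)) ∧ l ^ (2 - η) * l ^ η = l ^ 2 ∧
      l ≤ 2 * (d + 1) * l' ∧ ∀ N : ℝ, 1 ≤ N → N ≤ l ^ (η / 2) →
        2 * (N * l ^ η) ≤ l ^ (2 * η) ∧ l * (2 * (d + 1) * N) ≤ l ^ (2 - η) ∧ N * l ^ 2 ≤ l ^ (2 + η / 2) ∧ N ≤ l := by
  have hl0 : 0 < l := by linarith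
  have hd : (1 : ℝ) ≤ d + 1 := by have : (0 : ℝ) ≤ d := Nat.cast_nonneg d; linarith
  have e1 : l ^ η = (l ^ (η / 2)) ^ 2 := by rw [← Real.rpow_natCast, ← Real.rpow_mul hl0.le]; congr 1; push_cast; ring
  have e2 : l ^ (2 * η) = (l ^ (η / 2)) ^ 4 := by rw [← Real.rpow_natCast, ← Real.rpow_mul hl0.le]; congr 1; push_cast; ring
  have e3 : l ^ (2 - η) * l ^ η = l ^ 2 := by rw [← Real.rpow_add hl0, ← Real.rpow_natCast]; congr 1; push_cast; ring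
  have e4 : l ^ (2 + η / 2) = l ^ (η / 2) * l ^ 2 := by
    rw [← Real.rpow_natCast, ← Real.rpow_add hl0]; congr 1; push_cast; ring
  have e5 : l ^ (2 * η) ≤ l := by simpa using Real.rpow_le_rpow_of_exponent_le hl (show 2 * η ≤ 1 by linarith)
  have e6 : l ≤ l ^ (2 - η) := by simpa using Real.rpow_le_rpow_of_exponent_le hl (show 1 ≤ 2 - η by linarith)
  rw [e2] at e5
  rw [e1] at e3
  rw [e1, e2, e4]
  generalize l ^ (η / 2) = u at *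
  generalize l ^ (2 - η) = T at *
  have hu2 : 2 ≤ u := by linarith
  have hT0 : 0 < T := by linarith
  have hk : 1 ≤ u ^ 2 / (d + 1) := by rw [le_div_iff₀ (by positivity)]; nlinarith
  have j1 : (⌊u ^ 2 / (d + 1)⌋₊ : ℝ) ≤ u ^ 2 / (d + 1) := Nat.floor_le (by positivity)
  have j2 : u ^ 2 / (d + 1) < ⌊u ^ 2 / (d + 1)⌋₊ + 1 := Nat.lt_floor_add_one _
  have j3 : 1 ≤ ⌊u ^ 2 / (d + 1)⌋₊ := Nat.le_floor (by exact_mod_cast hk)
  generalize ⌊u ^ 2 / ((d : ℝ) + 1)⌋₊ = J at *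
  have j4 : (1 : ℝ) ≤ J := by exact_mod_cast j3
  rw [le_div_iff₀ (by positivity)] at j1
  rw [div_lt_iff₀ (by positivity)] at j2
  have s1 : ((d : ℝ) + 1) * (J * T) ≤ l ^ 2 := by rw [← e3]; nlinarith
  have s2 : l ^ 2 ≤ 2 * (d + 1) * (J * T) := by
    rw [← e3]
    have : u ^ 2 ≤ 2 * (d + 1) * J := by nlinarith
    nlinarith
  have s0 : 0 ≤ (J : ℝ) * T := by positivity
  have hs := Real.sq_sqrt s0
  have hs0 := Real.sqrt_nonneg ((J : ℝ) * T)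
  refine ⟨J, √(J * T), j3, by nlinarith, hs, ?_, ?_, e6, s1, s2, e3, ?_, fun N h1 h2 => ⟨?_, ?_, by gcongr, ?_⟩⟩
  · rw [Real.one_le_sqrt]; nlinarith
  · rw [Real.sqrt_le_left hl0.le]; nlinarith
  · refine (pow_le_pow_iff_left₀ hl0.le (by positivity) two_ne_zero).1 ?_
    rw [mul_pow, hs]
    nlinarith
  · have : 2 * N ≤ u ^ 2 := by nlinarith
    nlinarith
  · have a1 : 2 * (d + 1) * N ≤ u ^ 2 := by nlinarith
    have a2 : l * u ^ 2 * u ^ 2 ≤ T * u ^ 2 := by rw [e3]; nlinarith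
    have a3 : l * u ^ 2 ≤ T := le_of_mul_le_mul_right a2 (by positivity)
    nlinarith
  · have : u ≤ u ^ 4 := le_self_pow₀ (by linarith) (by norm_num)
    linarith

end Vale.Agent.P076N.SL
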