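import Vale.Agent.P076N.SL.Tay

/-! # P076N / SL : the row BAS (basic facts) -/

set_option linter.all false

open MeasureTheory Finset

namespace Vale.Agent.P076N.SL

open Vale.Agent.P076 Vale.Agent.P076N Vale.Agent.P076T
open Vale.Agent.P076.X (ex)

variable {d : ℕ}

namespace Bas

open Ena Tay

theorem bd_memLp {r : ℝ} {h : E d → ℂ} (hh : Bd r h) (q : ENNReal) : MemLp h q :=
  memLp_of_bdd hh.meas hh.bdd (η0 := 0) (r := r) (fun η hη => by simpa using hh.supp η hη) q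

theorem bd_int {r : ℝ} {h : E d → ℂ} (hh : Bd r h) : Integrable h := memLp_one_iff_integrable.mp (bd_memLp hh 1)

theorem bd_int_sq {r : ℝ} {h : E d → ℂ} (hh : Bd r h) : Integrable (fun ξ => ‖h ξ‖ ^ 2) :=
  (memLp_two_iff_integrable_sq_norm hh.meas.aestronglyMeasurable).mp (bd_memLp hh 2)

/-- Cauchy-Schwarz on a short interval -/
theorem sol_sq_le {g : ℝ → ℂ} (hm : Measurable g) {b : ℝ} (hb : ∀ ζ, ‖g ζ‖ ≤ b) (hs : ∀ ζ, g ζ ≠ 0 → |ζ| ≤ 1 / 2)
    (y s : ℝ) : ‖X.sol g y s‖ ≤ b ∧ ‖X.sol g y s‖ ^ 2 ≤ ∫ ζ, ‖g ζ‖ ^ 2 := by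
  have hb0 : 0 ≤ b := (norm_nonneg _).trans (hb 0)
  set I : Set ℝ := Set.Icc (-(1 / 2)) (1 / 2) with hI
  have hout : ∀ ζ, ζ ∉ I → g ζ = 0 := fun ζ hζ => by
    by_contra h
    exact hζ (abs_le.mp (hs ζ h))
  have hind : ∀ c : ℝ, Integrable (I.indicator fun _ => c) := fun c =>
    memLp_one_iff_integrable.mp (memLp_indicator_const 1 measurableSet_Icc c (Or.inr (by simp)))
  have hvol : ∀ c : ℝ, ∫ ζ, I.indicator (fun _ => c) ζ = c := fun c => by
    rw [integral_indicator_const _ measurableSet_Icc, Real.volume_real_Icc_of_le (by norm_num)]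
    norm_num
  have h1 : ∀ ζ, ‖g ζ‖ ≤ I.indicator (fun _ => b) ζ := by
    intro ζ
    by_cases h : ζ ∈ I
    · rw [Set.indicator_of_mem h]; exact hb ζ
    · rw [Set.indicator_of_notMem h, hout ζ h, norm_zero]
  have i1 : Integrable (fun ζ => ‖g ζ‖) :=
    (hind b).mono' hm.norm.aestronglyMeasurable (Filter.Eventually.of_forall fun ζ => by rw [norm_norm]; exact h1 ζ)
  have i2 : Integrable (fun ζ => ‖g ζ‖ ^ 2) := by
    refine (hind (b ^ 2)).mono' (hm.norm.pow_const 2).aestronglyMeasurable (Filter.Eventually.of_forall fun ζ => ?_)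
    rw [norm_pow, norm_norm]
    by_cases h : ζ ∈ I
    · rw [Set.indicator_of_mem h]; exact pow_le_pow_left₀ (norm_nonneg _) (hb ζ) 2
    · rw [Set.indicator_of_notMem h, hout ζ h]; simp
  have h2 : ‖X.sol g y s‖ ≤ ∫ ζ, ‖g ζ‖ := by
    unfold X.sol
    refine (norm_integral_le_integral_norm _).trans (le_of_eq ?_)
    simp_rw [norm_mul, norm_ex, mul_one]
  refine ⟨h2.trans ((integral_mono i1 (hind b) h1).trans (hvol b).le), ?_⟩
  set a := ∫ ζ, ‖g ζ‖ with ha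
  have h3 : 2 * a * a ≤ (∫ ζ, ‖g ζ‖ ^ 2) + a ^ 2 := by
    rw [← hvol (a ^ 2), ← integral_add i2 (hind _)]
    nth_rewrite 2 [ha]
    rw [← integral_const_mul]
    refine integral_mono (i1.const_mul _) (i2.add (hind _)) fun ζ => ?_
    by_cases h : ζ ∈ I
    · simp only [Set.indicator_of_mem h]
      nlinarith [sq_nonneg (‖g ζ‖ - a)]
    · simp [Set.indicator_of_notMem h, hout ζ h]
  have h4 := pow_le_pow_left₀ (norm_nonneg _) h2 2
  nlinarith

theorem cut_meas (L : ℝ) (Θ : Finset (Fin d → ℤ)) : MeasurableSet {ξ : E d | cel L ξ ∈ Θ} := by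
  have h : Measurable (cel L : E d → Fin d → ℤ) := by
    refine measurable_pi_lambda _ fun k => ?_
    unfold cel
    exact Measurable.floor (by fun_prop)
  exact h (Finset.measurableSet Θ)

theorem cut_bd {r : ℝ} (L : ℝ) (Θ : Finset (Fin d → ℤ)) {h : E d → ℂ} (hh : Bd r h) : Bd r (cut L Θ h) := by
  obtain ⟨b, hb⟩ := hh.bdd
  refine ⟨hh.meas.indicator (cut_meas L Θ), ⟨b, fun ξ => (norm_indicator_le_norm_self _ _).trans (hb ξ)⟩,
    fun ξ hξ => hh.supp ξ fun h0 => hξ ?_⟩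
  unfold cut
  by_cases h1 : ξ ∈ {ξ | cel L ξ ∈ Θ} <;> simp [h1, h0]

theorem cut_apply (L : ℝ) (Θ : Finset (Fin d → ℤ)) (h : E d → ℂ) (ξ : E d) :
    cut L Θ h ξ = if cel L ξ ∈ Θ then h ξ else 0 := by
  unfold cut
  by_cases h1 : cel L ξ ∈ Θ <;> simp [h1]

theorem mem_TT {L : ℝ} (hL : 1 ≤ L) {ξ : E d} (h : ‖ξ‖ ≤ 2) : cel L ξ ∈ TT d L := by
  unfold TT cel
  rw [Fintype.mem_piFinset]
  intro k
  have h1 := abs_le.mp ((abs_apply_le ξ k).trans h)
  rw [Finset.mem_Icc]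
  have h4 : 2 * L * ξ k ≤ 4 * L := by nlinarith
  have h5 : -(4 * L) ≤ 2 * L * ξ k := by nlinarith
  constructor
  · rw [Int.le_floor]
    push_cast
    have := Int.le_ceil (4 * L)
    linarith
  · have h6 : ⌊2 * L * ξ k⌋ ≤ ⌊4 * L⌋ := Int.floor_le_floor h4
    have h7 : ⌊4 * L⌋ ≤ ⌈4 * L⌉ := Int.floor_le_ceil _
    linarith

end Bas

open Bas Ena Tay in
/-- **[SL.BAS]** -/
theorem bas (d : ℕ) : BAS d := by
  refine ⟨fun l G y s hl hG => ?_, fun l G j hl hG => ⟨tw_str hl hG j, ?_⟩, fun L r Θ h hh => ⟨cut_bd L Θ hh, ?_⟩,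
    fun L hL => ⟨?_, ?_, fun ξ hξ => mem_TT hL hξ⟩, fun L Θ h x t hL hh hΘ => ?_, fun L r Θ h x t hh => ?_⟩
  · obtain ⟨b, hb⟩ := hG.bdd
    have key : ∀ ξ : E d, ‖slc G y s ξ‖ ≤ b ∧ ‖slc G y s ξ‖ ^ 2 ≤ ∫ ζ, ‖G (ξ, ζ)‖ ^ 2 := fun ξ =>
      sol_sq_le (hG.meas.comp (by fun_prop : Measurable fun ζ : ℝ => (ξ, ζ))) (fun ζ => hb _) (fun ζ hζ => by
        have := (hG.supp _ hζ).2
        simp only at this
        nlinarith [abs_nonneg ζ]) y s
    have hc : Continuous fun p : E d × ℝ => ex (y * p.2 - s * p.2 ^ 2) := by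
      unfold ex
      fun_prop
    have hs : StronglyMeasurable fun p : E d × ℝ => G p * ex (y * p.2 - s * p.2 ^ 2) :=
      (hG.meas.mul hc.measurable).stronglyMeasurable
    have hbd : Bd 2 (slc G y s) := by
      refine ⟨hs.integral_prod_right'.measurable, ⟨b, fun ξ => (key ξ).1⟩, fun ξ hξ => ?_⟩
      by_contra hc
      apply hξ
      have : (fun ζ => G (ξ, ζ)) = fun _ => 0 := by
        funext ζ
        by_contra h0
        exact hc (hG.supp _ h0).1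
      unfold slc X.sol
      rw [this]
      simp
    refine ⟨hbd, ?_⟩
    have h2 := str_int_sq hl hG
    rw [Measure.volume_eq_prod] at h2
    unfold en en2
    rw [Measure.volume_eq_prod, integral_prod _ h2]
    exact integral_mono (bd_int_sq hbd) h2.integral_prod_left fun ξ => (key ξ).2
  · exact integral_mono (str_int_sq hl (tw_str hl hG j)) (str_int_sq hl hG) fun p =>
      pow_le_pow_left₀ (norm_nonneg _) (norm_tw_le hl hG j p) 2
  · exact integral_mono (bd_int_sq (cut_bd L Θ hh)) (bd_int_sq hh) fun ξ =>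
      pow_le_pow_left₀ (norm_nonneg _) (norm_indicator_le_norm_self _ _) 2
  · unfold TT
    rw [Fintype.card_piFinset, ← mul_pow]
    simp only [Finset.prod_const, Finset.card_univ, Fintype.card_fin, Int.card_Icc]
    push_cast
    gcongr
    have h1 := Int.ceil_lt_add_one (4 * L)
    have h2 : 0 ≤ ⌈4 * L⌉ := Int.ceil_nonneg (by positivity)
    have h3 : (((⌈4 * L⌉ + 1 + 1 - -(⌈4 * L⌉ + 1)).toNat : ℤ) : ℝ) = ((⌈4 * L⌉ + 1 + 1 - -(⌈4 * L⌉ + 1) : ℤ) : ℝ) := by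
      rw [Int.toNat_of_nonneg (by omega)]
    rw [Int.cast_natCast] at h3
    rw [h3]
    push_cast
    linarith
  · intro τ hτ k
    have h0 := Finset.mem_Icc.mp (Fintype.mem_piFinset.mp hτ k)
    have h1 := Int.ceil_lt_add_one (4 * L)
    have h2 : ((-(⌈4 * L⌉ + 1) : ℤ) : ℝ) ≤ τ k := by exact_mod_cast h0.1
    have h3 : (τ k : ℝ) ≤ ((⌈4 * L⌉ + 1 : ℤ) : ℝ) := by exact_mod_cast h0.2
    push_cast at h2 h3
    rw [abs_le]
    constructor <;> linarith
  · rw [← evo_add (bd_int (cut_bd L Θ hh)) (bd_int (cut_bd L _ hh))]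
    congr 1
    funext ξ
    rw [Pi.add_apply, cut_apply, cut_apply]
    by_cases h0 : h ξ = 0
    · simp [h0]
    · have h1 := mem_TT hL (hh.supp ξ h0)
      by_cases h2 : cel L ξ ∈ Θ <;> simp [h1, h2]
  · rw [← evo_sum Θ fun τ _ => bd_int (cut_bd L {τ} hh)]
    congr 1
    funext ξ
    simp only [cut_apply, Finset.mem_singleton, Finset.sum_ite_eq]

end Vale.Agent.P076N.SL
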