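import Vale.Agent.P076N.SL.Spec2
import Vale.Agent.P076T.MeanO

/-! # P076N / SL : the row ENA2 (Fubini and Plancherel) -/

set_option linter.all false

open MeasureTheory Finset

namespace Vale.Agent.P076N.SL

open Vale.Agent.P076 Vale.Agent.P076N Vale.Agent.P076T
open Vale.Agent.P122.H84 (ee norm_ee continuous_ee measurable_ee)

variable {d : ℕ}

namespace Ena

/-- the part of `G` over the cell `τ` -/
noncomputable def Gt (L : ℝ) (G : E d × ℝ → ℂ) (τ : Fin d → ℤ) (p : E d × ℝ) : ℂ := if cel L p.1 = τ then G p else 0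

/-- the partial inverse Fourier transform -/
noncomputable def Cx (L : ℝ) (G : E d × ℝ → ℂ) (τ : Fin d → ℤ) (x : E d) (ζ : ℝ) : ℂ :=
  evo (fun ξ => Gt L G τ (ξ, ζ)) x 0 0

theorem cel_meas (L : ℝ) (τ : Fin d → ℤ) : MeasurableSet {p : E d × ℝ | cel L p.1 = τ} := by
  have : {p : E d × ℝ | cel L p.1 = τ} = ⋂ k, {p : E d × ℝ | ⌊2 * L * p.1 k⌋ = τ k} := by
    ext p
    simp [cel, funext_iff]
  rw [this]
  refine MeasurableSet.iInter fun k => ?_
  have h : Measurable fun p : E d × ℝ => ⌊2 * L * p.1 k⌋ := Measurable.floor (by fun_prop)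
  exact h (measurableSet_singleton _)

variable {l L : ℝ} {G : E d × ℝ → ℂ}

theorem Gt_str (h : Str l G) (L : ℝ) (τ : Fin d → ℤ) : Str l (Gt L G τ) := by
  refine ⟨Measurable.ite (cel_meas L τ) h.meas measurable_const, ?_, fun p hp => h.supp p fun h0 => hp ?_⟩
  · obtain ⟨b, hb⟩ := h.bdd
    refine ⟨b, fun p => ?_⟩
    unfold Gt
    split_ifs
    · exact hb p
    · simpa using (norm_nonneg _).trans (hb p)
  · unfold Gt
    simp [h0]

theorem str_zeta (hl : 1 ≤ l) (h : Str l G) {p : E d × ℝ} (hp : G p ≠ 0) : |p.2| ≤ 1 := by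
  have := (h.supp p hp).2
  nlinarith [abs_nonneg p.2]

theorem str_memLp (hl : 1 ≤ l) (h : Str l G) (q : ENNReal) : MemLp G q := by
  obtain ⟨b, hb⟩ := h.bdd
  have hK : IsCompact (Metric.closedBall (0 : E d × ℝ) 2) := isCompact_closedBall _ _
  have h1 : MemLp ((Metric.closedBall (0 : E d × ℝ) 2).indicator fun _ => b) q :=
    memLp_indicator_const q measurableSet_closedBall b (Or.inr hK.measure_lt_top.ne)
  refine h1.mono' h.meas.aestronglyMeasurable (Filter.Eventually.of_forall fun p => ?_)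
  by_cases hp : G p = 0
  · rw [hp, norm_zero]
    exact Set.indicator_nonneg (fun _ _ => (norm_nonneg _).trans (hb 0)) _
  · rw [Set.indicator_of_mem]
    · exact hb p
    · rw [mem_closedBall_zero_iff, Prod.norm_def]
      exact max_le (h.supp p hp).1 ((str_zeta hl h hp).trans (by norm_num))

theorem str_int (hl : 1 ≤ l) (h : Str l G) : Integrable G := memLp_one_iff_integrable.mp (str_memLp hl h 1)

theorem str_int_sq (hl : 1 ≤ l) (h : Str l G) : Integrable (fun p => ‖G p‖ ^ 2) :=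
  (memLp_two_iff_integrable_sq_norm h.meas.aestronglyMeasurable).mp (str_memLp hl h 2)

theorem sect (h : Str l G) (ζ : ℝ) : Integrable (fun ξ => G (ξ, ζ)) ∧ MemLp (fun ξ => G (ξ, ζ)) 2 := by
  obtain ⟨b, hb⟩ := h.bdd
  have hm : Measurable fun ξ : E d => G (ξ, ζ) := h.meas.comp (by fun_prop)
  have hs : ∀ ξ : E d, G (ξ, ζ) ≠ 0 → ‖ξ - 0‖ ≤ 2 := fun ξ hξ => by simpa using (h.supp _ hξ).1
  exact ⟨memLp_one_iff_integrable.mp (memLp_of_bdd hm ⟨b, fun ξ => hb _⟩ hs 1), memLp_of_bdd hm ⟨b, fun ξ => hb _⟩ hs 2⟩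

theorem Cx_meas (h : Str l G) (L : ℝ) (τ : Fin d → ℤ) : Measurable (fun p : E d × ℝ => Cx L G τ p.1 p.2) := by
  unfold Cx
  simp_rw [evo_ee]
  have hm := (Gt_str h L τ).meas
  have : StronglyMeasurable (fun z : (E d × ℝ) × E d =>
      Gt L G τ (z.2, z.1.2) * P122.H84.ee (inner ℝ z.1.1 z.2 - 0 * ‖z.2‖ ^ 2)) := by
    refine Measurable.stronglyMeasurable (Measurable.mul (hm.comp (by fun_prop)) ?_)
    exact (by fun_prop : Continuous fun z : (E d × ℝ) × E d =>
      P122.H84.ee (inner ℝ z.1.1 z.2 - 0 * ‖z.2‖ ^ 2)).measurable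
  exact this.integral_prod_right'.measurable

theorem Cx_meas1 (h : Str l G) (L : ℝ) (τ : Fin d → ℤ) (x : E d) : Measurable (Cx L G τ x) := by
  have h1 : Measurable fun ζ : ℝ => (x, ζ) := by fun_prop
  have h2 := (Cx_meas h L τ).comp h1
  simpa only [Function.comp_def] using h2

theorem Cx_bdd (h : Str l G) (L : ℝ) (τ : Fin d → ℤ) (x : E d) : ∃ b : ℝ, ∀ ζ, ‖Cx L G τ x ζ‖ ≤ b := by
  obtain ⟨b, hb⟩ := (Gt_str h L τ).bdd
  have hK : IsCompact (Metric.closedBall (0 : E d) 2) := isCompact_closedBall _ _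
  have h1 : Integrable ((Metric.closedBall (0 : E d) 2).indicator fun _ => b) :=
    memLp_one_iff_integrable.mp (memLp_indicator_const 1 measurableSet_closedBall b (Or.inr hK.measure_lt_top.ne))
  refine ⟨∫ ξ, (Metric.closedBall (0 : E d) 2).indicator (fun _ => b) ξ, fun ζ => (evo_bd _ _ _).trans ?_⟩
  refine integral_mono (sect (Gt_str h L τ) ζ).1.norm h1 fun ξ => ?_
  by_cases hp : Gt L G τ (ξ, ζ) = 0
  · simp only [hp, norm_zero]
    exact Set.indicator_nonneg (fun _ _ => (norm_nonneg _).trans (hb 0)) _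
  · rw [Set.indicator_of_mem]
    · exact hb _
    · rw [mem_closedBall_zero_iff]
      exact ((Gt_str h L τ).supp _ hp).1

theorem Cx_supp (h : Str l G) (L : ℝ) (τ : Fin d → ℤ) (x : E d) (ζ : ℝ) (hζ : Cx L G τ x ζ ≠ 0) : l * |ζ| ≤ 1 := by
  by_contra hc
  apply hζ
  have : (fun ξ => Gt L G τ (ξ, ζ)) = fun _ => 0 := by
    funext ξ
    by_contra h0
    have := ((Gt_str h L τ).supp _ h0).2
    simp only at this
    linarith
  unfold Cx
  rw [this]
  simp [evo_ee]

theorem norm_ex (a : ℝ) : ‖X.ex a‖ = 1 := by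
  unfold X.ex
  exact Complex.norm_exp_ofReal_mul_I _

theorem fub (hl : 1 ≤ l) (h : Str l G) (L : ℝ) (τ : Fin d → ℤ) (x : E d) (y s : ℝ) :
    evo (cut L {τ} (slc G y s)) x 0 0 = X.sol (Cx L G τ x) y s := by
  have e1 : ∀ ξ, cut L {τ} (slc G y s) ξ = ∫ ζ, Gt L G τ (ξ, ζ) * X.ex (y * ζ - s * ζ ^ 2) := by
    intro ξ
    unfold cut slc Gt X.sol
    by_cases hξ : cel L ξ = τ
    · rw [Set.indicator_of_mem (by simpa using hξ)]
      simp [hξ]
    · rw [Set.indicator_of_notMem (by simpa using hξ)]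
      simp [hξ]
  unfold X.sol Cx
  simp_rw [evo_ee, e1, ← integral_mul_const]
  rw [integral_integral_swap]
  · congr 1
    funext ζ
    congr 1
    funext ξ
    ring
  · have hi := str_int hl (Gt_str h L τ)
    rw [Measure.volume_eq_prod] at hi
    have hc : Continuous fun p : E d × ℝ => X.ex (y * p.2 - s * p.2 ^ 2) * P122.H84.ee (inner ℝ x p.1 - 0 * ‖p.1‖ ^ 2) := by
      unfold X.ex
      fun_prop
    refine (hi.mul_bdd (c := 1) hc.aestronglyMeasurable (Filter.Eventually.of_forall fun p => ?_)).congr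
      (Filter.Eventually.of_forall fun p => ?_)
    · rw [norm_mul, norm_ex, norm_ee, one_mul]
    · simp only [Function.uncurry]
      ring

theorem ms_int (hl : 1 ≤ l) (h : Str l G) (L : ℝ) (τ : Fin d → ℤ) :
    Integrable (fun x => X.ms (Cx L G τ x)) ∧ ∫ x, X.ms (Cx L G τ x) = en2 (Gt L G τ) := by
  have hs := Gt_str h L τ
  have h2 := str_int_sq hl hs
  rw [Measure.volume_eq_prod] at h2
  have hp : ∀ ζ, Integrable (fun x => ‖Cx L G τ x ζ‖ ^ 2) ∧ ∫ x, ‖Cx L G τ x ζ‖ ^ 2 = ∫ ξ, ‖Gt L G τ (ξ, ζ)‖ ^ 2 :=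
    fun ζ => planch_evo (sect hs ζ).1 (sect hs ζ).2 0
  have hi : Integrable (fun p : E d × ℝ => ‖Cx L G τ p.1 p.2‖ ^ 2) (volume.prod volume) := by
    rw [integrable_prod_iff' ((Cx_meas h L τ).norm.pow_const 2).aestronglyMeasurable]
    refine ⟨Filter.Eventually.of_forall fun ζ => (hp ζ).1, ?_⟩
    refine h2.integral_prod_right.congr (Filter.Eventually.of_forall fun ζ => ?_)
    simp only [norm_pow, norm_norm]
    exact (hp ζ).2.symm
  refine ⟨hi.integral_prod_left, ?_⟩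
  unfold X.ms en2
  rw [integral_integral_swap hi, Measure.volume_eq_prod, integral_prod_symm _ h2]
  congr 1
  funext ζ
  exact (hp ζ).2

theorem ms_nonneg (g : ℝ → ℂ) : 0 ≤ X.ms g := integral_nonneg fun _ => by positivity

theorem sum_Gt (hl : 1 ≤ l) (h : Str l G) (L : ℝ) (J : Finset (Fin d → ℤ)) : ∑ τ ∈ J, en2 (Gt L G τ) ≤ en2 G := by
  unfold en2
  rw [← integral_finsetSum _ fun τ _ => str_int_sq hl (Gt_str h L τ)]
  refine integral_mono (integrable_finsetSum _ fun τ _ => str_int_sq hl (Gt_str h L τ)) (str_int_sq hl h) fun p => ?_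
  have : ∀ τ, ‖Gt L G τ p‖ ^ 2 = if cel L p.1 = τ then ‖G p‖ ^ 2 else 0 := by
    intro τ
    unfold Gt
    split_ifs <;> simp
  simp only [this, Finset.sum_ite_eq]
  split_ifs
  · exact le_rfl
  · positivity

end Ena

open Ena in
/-- **[SL.ENA2]** -/
theorem ena2 (d : ℕ) : ENA2 d := by
  rintro ⟨C, hC, hT⟩
  refine ⟨C, hC, fun B l L ω G hl hω hG => ?_⟩
  have hB : 0 ≤ B := by simpa using hω.sum ∅ 0
  have hwi : ∀ τ Q, Integrable (fun x => ω Q x * X.ms (Cx L G τ x)) := fun τ Q =>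
    (ms_int hl hG L τ).1.bdd_mul (c := 1) (hω.meas Q).aestronglyMeasurable
      (Filter.Eventually.of_forall fun x => by rw [Real.norm_of_nonneg (hω.nn Q x)]; exact hω.le1 Q x)
  refine ⟨fun u => ∫ x, ω u.2 x * X.ms (Cx L G u.1 x),
    fun u => integral_nonneg fun x => mul_nonneg (hω.nn _ _) (ms_nonneg _), fun J => ?_, ?_⟩
  · calc ∑ u ∈ J, ∫ x, ω u.2 x * X.ms (Cx L G u.1 x)
        ≤ ∑ u ∈ J.image Prod.fst ×ˢ J.image Prod.snd, ∫ x, ω u.2 x * X.ms (Cx L G u.1 x) :=
          Finset.sum_le_sum_of_subset_of_nonneg Finset.subset_product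
            fun u _ _ => integral_nonneg fun x => mul_nonneg (hω.nn _ _) (ms_nonneg _)
      _ = ∑ τ ∈ J.image Prod.fst, ∑ Q ∈ J.image Prod.snd, ∫ x, ω Q x * X.ms (Cx L G τ x) := Finset.sum_product _ _ _
      _ ≤ ∑ τ ∈ J.image Prod.fst, B * en2 (Gt L G τ) := by
          refine Finset.sum_le_sum fun τ _ => ?_
          rw [← integral_finsetSum _ fun Q _ => hwi τ Q, ← (ms_int hl hG L τ).2, ← integral_const_mul]
          refine integral_mono (integrable_finsetSum _ fun Q _ => hwi τ Q) ((ms_int hl hG L τ).1.const_mul _) fun x => ?_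
          simp only
          rw [← Finset.sum_mul]
          exact mul_le_mul_of_nonneg_right (hω.sum _ x) (ms_nonneg _)
      _ ≤ _ := by
          rw [← Finset.mul_sum]
          exact mul_le_mul_of_nonneg_left (sum_Gt hl hG L _) hB
  · intro τ Q σ μ K ι I P β y hσ h1 h2 h3 h4
    have hpt : ∀ x, ∑ i ∈ I, ω Q x * ‖X.sol (Cx L G τ x) (y i) (l ^ 2 * β i)‖ ^ 2 ≤
        C * √(μ * K) / l * (ω Q x * X.ms (Cx L G τ x)) := by
      intro x
      rw [← Finset.mul_sum, mul_left_comm]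
      exact mul_le_mul_of_nonneg_left (hT l σ μ K (Cx L G τ x) ι I P β y hl hσ
        (Cx_meas1 hG L τ x) (Cx_bdd hG L τ x)
        (Cx_supp hG L τ x) h1 h2 h3 h4) (hω.nn Q x)
    have hi : ∀ i ∈ I, Integrable (fun x => ω Q x * ‖X.sol (Cx L G τ x) (y i) (l ^ 2 * β i)‖ ^ 2) := by
      intro i hi
      refine ((hwi τ Q).const_mul (C * √(μ * K) / l)).mono' ?_ (Filter.Eventually.of_forall fun x => ?_)
      · have hc : Continuous fun p : E d × ℝ => X.ex (y i * p.2 - l ^ 2 * β i * p.2 ^ 2) := by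
          unfold X.ex
          fun_prop
        have hs : StronglyMeasurable fun p : E d × ℝ => Cx L G τ p.1 p.2 * X.ex (y i * p.2 - l ^ 2 * β i * p.2 ^ 2) :=
          ((Cx_meas hG L τ).mul hc.measurable).stronglyMeasurable
        have hm : Measurable fun x => X.sol (Cx L G τ x) (y i) (l ^ 2 * β i) := hs.integral_prod_right'.measurable
        exact ((hω.meas Q).mul (hm.norm.pow_const 2)).aestronglyMeasurable
      · rw [Real.norm_of_nonneg (mul_nonneg (hω.nn Q x) (by positivity))]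
        exact (Finset.single_le_sum (f := fun i => ω Q x * ‖X.sol (Cx L G τ x) (y i) (l ^ 2 * β i)‖ ^ 2)
          (fun j _ => mul_nonneg (hω.nn Q x) (by positivity)) hi).trans (hpt x)
    unfold SL.ee
    simp_rw [fub hl hG]
    rw [← integral_finsetSum _ hi, ← integral_const_mul]
    exact integral_mono (integrable_finsetSum _ hi) ((hwi τ Q).const_mul _) hpt

end Vale.Agent.P076N.SL
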