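import Vale.Agent.P076N.SL.Spec2
import Vale.Agent.P076N.A.Pck

/-!
# P076N / SL : freezing the thin variables
-/

open Finset

namespace Vale.Agent.P076N.SL

open Vale.Agent.P076 Vale.Agent.P076N

namespace Frz2x

variable {d : ℕ}

theorem fl_mem {a b x : ℝ} (h1 : a ≤ x) (h2 : x ≤ b) : ⌊x⌋ ∈ Icc ⌈a - 1⌉ ⌊b⌋ := by
  rw [mem_Icc, Int.ceil_le]
  exact ⟨by linarith [Int.lt_floor_add_one x], Int.floor_mono h2⟩

theorem fl_bd {T x : ℝ} (hT : 0 < T) : T * ⌊x / T⌋ ≤ x ∧ x ≤ T * ⌊x / T⌋ + T := by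
  have h1 := Int.floor_le (x / T)
  have h2 := Int.lt_floor_add_one (x / T)
  rw [le_div_iff₀ hT] at h1
  rw [div_lt_iff₀ hT] at h2
  constructor <;> linarith

/-- the number of points in a block -/
theorem cap {ι : Type} {A : Finset ι} {x : ι → E d} {z t : ι → ℝ} {b l T : ℝ} (hl : 1 ≤ l)
    (hT : l ≤ T) (hb : |b| ≤ 6)
    (hs : ∀ i ∈ A, ∀ j ∈ A, i ≠ j → (∃ k, 1 ≤ |x i k - x j k|) ∨ 8 * l ≤ |z i - z j|) (q : Bk d)
    (hq : ∀ i ∈ A, (cb T (x i), ⌊t i / T⌋, ⌊l * (⌊(z i - b * t i) / l⌋ : ℤ) / T⌋) = q) :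
    (#A : ℝ) ≤ 4 ^ (d + 1) * (T ^ (d + 1) / l) := by
  have hl0 : 0 < l := by linarith
  have hT0 : 0 < T := by linarith
  set m := T * q.2.2 + b * (T * q.2.1) with hm
  have h1 := card_le_card_of_injOn (s := A) (t := (Fintype.piFinset fun k =>
      Icc ⌈T * q.1 k - 1⌉ ⌊T * q.1 k + T⌋) ×ˢ Icc ⌈(m - 6 * T) / (8 * l) - 1⌉ ⌊(m + 8 * T) / (8 * l)⌋)
    (fun i => (fun k => ⌊x i k⌋, ⌊z i / (8 * l)⌋)) (fun i hi => ?_) fun i hi j hj e => ?_
  · rw [card_product, Fintype.card_piFinset] at h1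
    have a1 : ∏ k : Fin d, ((#(Icc ⌈T * q.1 k - 1⌉ ⌊T * q.1 k + T⌋) : ℕ) : ℝ) ≤
        ∏ _k : Fin d, (4 * T) := prod_le_prod (fun _ _ => by positivity)
      fun k _ => (P076N.A.card_Icc_le (by linarith)).trans (by linarith)
    have a3 : 1 ≤ T / l := (one_le_div hl0).2 hT
    have a4 : (m + 8 * T) / (8 * l) - (m - 6 * T) / (8 * l) = 7 / 4 * (T / l) := by
      field_simp; ring
    have a2 : ((#(Icc ⌈(m - 6 * T) / (8 * l) - 1⌉ ⌊(m + 8 * T) / (8 * l)⌋) : ℕ) : ℝ) ≤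
        4 * (T / l) := (P076N.A.card_Icc_le (by linarith)).trans (by linarith)
    calc (#A : ℝ) ≤ (∏ k : Fin d, ((#(Icc ⌈T * q.1 k - 1⌉ ⌊T * q.1 k + T⌋) : ℕ) : ℝ)) *
          ((#(Icc ⌈(m - 6 * T) / (8 * l) - 1⌉ ⌊(m + 8 * T) / (8 * l)⌋) : ℕ) : ℝ) := by
          exact_mod_cast h1
      _ ≤ (∏ _k : Fin d, (4 * T)) * (4 * (T / l)) := by gcongr
      _ = _ := by rw [prod_const, card_univ, Fintype.card_fin, mul_pow]; ring
  · have k := hq i hi
    have k1 : ∀ k, ⌊x i k / T⌋ = q.1 k := fun k' => by rw [← k]; rfl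
    have k2 : ⌊t i / T⌋ = q.2.1 := by rw [← k]
    have k3 : ⌊l * (⌊(z i - b * t i) / l⌋ : ℤ) / T⌋ = q.2.2 := by rw [← k]
    refine mem_coe.2 (mem_product.2 ⟨Fintype.mem_piFinset.2 fun k => ?_, ?_⟩)
    · have := fl_bd (x := x i k) hT0
      rw [k1] at this
      exact fl_mem this.1 this.2
    · have a1 := fl_bd (x := t i) hT0
      have a2 := fl_bd (x := l * (⌊(z i - b * t i) / l⌋ : ℤ)) hT0
      have a3 := fl_bd (x := z i - b * t i) hl0
      rw [k2] at a1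
      rw [k3] at a2
      have a4 : |b * (t i - T * q.2.1)| ≤ 6 * T := by
        rw [abs_mul]
        exact mul_le_mul hb (abs_le.2 ⟨by linarith [a1.1], by linarith [a1.2]⟩) (abs_nonneg _)
          (by norm_num)
      have a5 := abs_le.1 a4
      refine fl_mem ?_ ?_ <;> gcongr <;> linarith [a2.1, a2.2, a3.1, a3.2, a5.1, a5.2]
  · by_contra hne
    have e1 : ∀ k, ⌊x i k⌋ = ⌊x j k⌋ := fun k => congrFun (congrArg Prod.fst e) k
    have e2 : ⌊z i / (8 * l)⌋ = ⌊z j / (8 * l)⌋ := congrArg Prod.snd e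
    rcases hs i hi j hj hne with ⟨k, hk⟩ | hk
    · exact absurd (Int.abs_sub_lt_one_of_floor_eq_floor (e1 k)) (not_lt.2 hk)
    · have := Int.abs_sub_lt_one_of_floor_eq_floor e2
      rw [← sub_div, abs_div, abs_of_pos (by positivity : 0 < 8 * l),
        div_lt_one (by positivity)] at this
      linarith

theorem sep {l b z z' t t' : ℝ} (hl : 0 < l) (hb : |b| ≤ 6) (h : 8 * l ≤ |z - z'|) :
    l ≤ |t - t'| ∨ ⌊(z - b * t) / l⌋ ≠ ⌊(z' - b * t') / l⌋ := by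
  by_contra! k
  have a1 := Int.abs_sub_lt_one_of_floor_eq_floor k.2
  rw [← sub_div, abs_div, abs_of_pos hl, div_lt_one hl] at a1
  have a2 : |b * (t - t')| ≤ 6 * l := by
    rw [abs_mul]
    exact mul_le_mul hb k.1.le (abs_nonneg _) (by norm_num)
  have a3 : z - z' = (z - b * t - (z' - b * t')) + b * (t - t') := by ring
  rw [a3] at h
  linarith [abs_add_le (z - b * t - (z' - b * t')) (b * (t - t'))]

theorem rhs_mono {δ l N a a' : ℝ} (hδ : 0 ≤ δ) (hl : 0 ≤ l) (hN : 0 ≤ N) (ha : 0 ≤ a)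
    (h : a ≤ a') : rhs d δ l N a ≤ rhs d δ l N a' := by
  unfold rhs
  gcongr

theorem geo {α a M : ℝ} (hM : 0 ≤ M) (j : ℕ) (h : (8 ^ j * α / 8) ^ 2 * a ≤ M) :
    α ^ 2 * a ≤ 64 * M * (1 / 2) ^ j := by
  have h1 : α ^ 2 * a = 64 * ((8 ^ j * α / 8) ^ 2 * a) * (1 / 64) ^ j := by
    rw [one_div, inv_pow, show (64 : ℝ) ^ j = (8 ^ j) ^ 2 by rw [← pow_mul, mul_comm, pow_mul]; norm_num]
    field_simp
    ring
  rw [h1]
  refine (mul_le_mul_of_nonneg_right (mul_le_mul_of_nonneg_left h (by norm_num))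
    (by positivity)).trans ?_
  gcongr
  norm_num

end Frz2x

open Frz2x in
/-- **[SL.FRZ2]** -/
theorem frz2 (d : ℕ) : FRZ2 d := by
  rintro hbas htay ⟨η, δ, hη, hδ, hδ1, C, hC, h0⟩
  refine ⟨η, δ, hη, hδ, hδ1, 128 * C, by positivity, ?_⟩
  intro l N G ι A x z t b α hl hN hNl hG hb hα hs ht hA hamp
  classical
  obtain ⟨T, S, hT, hS, hSl, h1⟩ := h0 l hl
  have hl0 : 0 < l := by linarith
  have h2 : ∀ i, i ∈ A → ∃ j : ℕ, 8 ^ j * α / 8 ≤ ‖evo (slc (tw l j G)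
      (l * (⌊(z i - b * t i) / l⌋ : ℤ)) (S * ⌊t i / S⌋)) (x i) (t i) 0‖ := fun i hi => by
    have a1 := fl_bd (x := z i - b * t i) hl0
    have a2 := fl_bd (x := t i) hS
    exact htay l G (x i) (t i) _ _ _ _ α hl hG (abs_le.2 ⟨by linarith [a1.1], by linarith [a1.2]⟩)
      (abs_le.2 ⟨by linarith [a2.1], by linarith [a2.2]⟩) (hamp i hi)
  choose! J hJ using h2
  have hE : 0 ≤ en2 G := MeasureTheory.integral_nonneg fun _ => by positivity
  have hr : ∀ a : ℝ, 0 ≤ a → 0 ≤ rhs d δ l N a := fun a ha => by unfold rhs; positivity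
  have hM : 0 ≤ C * rhs d δ l N #A * en2 G := mul_nonneg (mul_nonneg hC (hr _ (by positivity))) hE
  have h3 : ∀ j, α ^ 2 * #(A.filter fun i => J i = j) ≤
      64 * (C * rhs d δ l N #A * en2 G) * (1 / 2) ^ j := fun j => by
    have hsub : A.filter (fun i => J i = j) ⊆ A := filter_subset _ _
    have hc : (#(A.filter fun i => J i = j) : ℝ) ≤ #A := by exact_mod_cast card_le_card hsub
    obtain ⟨g1, g2⟩ := hbas.2.1 l G j hl hG
    refine geo hM j ((h1 N (tw l j G) ι (A.filter fun i => J i = j) x t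
      (fun i => ⌊(z i - b * t i) / l⌋) (8 ^ j * α / 8) hN hNl g1 (by positivity)
      (fun i hi i' hi' hne => (hs i (hsub hi) i' (hsub hi') hne).imp_right (sep hl0 hb))
      (fun q => Frz2x.cap (t := t) hl hT hb (fun i hi i' hi' => hs i (hsub (filter_subset _ _ hi)) i'
        (hsub (filter_subset _ _ hi'))) q fun i hi => (mem_filter.1 hi).2)
      (fun i hi => ht i (hsub hi)) (hc.trans hA) fun i hi => by
        rw [← (mem_filter.1 hi).2]; exact hJ i (hsub hi)).trans ?_)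
    exact mul_le_mul (mul_le_mul_of_nonneg_left (rhs_mono hδ.le hl0.le (by positivity)
      (by positivity) hc) hC) g2 (MeasureTheory.integral_nonneg fun _ => by positivity)
      (mul_nonneg hC (hr _ (by positivity)))
  have h4 : (#A : ℝ) = ∑ j ∈ A.image J, (#(A.filter fun i => J i = j) : ℝ) := by
    exact_mod_cast card_eq_sum_card_image J A
  have h5 : ∑ j ∈ A.image J, (1 / 2 : ℝ) ^ j ≤ 2 := by
    exact (summable_geometric_two.sum_le_tsum _ fun _ _ => by positivity).trans_eq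
      tsum_geometric_two
  conv_lhs => rw [h4, mul_sum]
  refine (sum_le_sum fun j _ => h3 j).trans ?_
  rw [← mul_sum]
  nlinarith

end Vale.Agent.P076N.SL
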