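import Vale.Agent.P076N.SL.Spec2
import Vale.Agent.P076.H791.Basic
import Vale.Agent.P076T.Ker

/-! # P076N / SL : from `KEY` to indexed points (row SL.KB2) -/

set_option linter.all false

open MeasureTheory Finset

namespace Vale.Agent.P076N.SL

open Vale.Agent.P076 Vale.Agent.P076N Vale.Agent.P076.H791

variable {d : ℕ}

namespace Kb

/-- space-time translation -/
noncomputable def tr (c : E d × ℝ) (g : E d → ℂ) : E d → ℂ := sft c.2 (trl (-c.1) g)

theorem norm_tr (c : E d × ℝ) (g : E d → ℂ) (η : E d) : ‖tr c g η‖ = ‖g η‖ := by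
  unfold tr; rw [norm_sft, norm_trl]

theorem tr_bd {r : ℝ} (c : E d × ℝ) {g : E d → ℂ} (h : Bd r g) : Bd r (tr c g) where
  meas := by
    have := h.meas
    unfold tr sft trl
    fun_prop
  bdd := by simpa only [norm_tr] using h.bdd
  supp := fun η hη => h.supp η (by rwa [← norm_ne_zero_iff, norm_tr, norm_ne_zero_iff] at hη)

theorem en_tr (c : E d × ℝ) (g : E d → ℂ) : en (tr c g) = en g := by
  unfold en; simp only [norm_tr]

theorem tr_sub (c : E d × ℝ) (g h : E d → ℂ) : tr c g - tr c h = tr c (g - h) := by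
  ext η
  simp only [tr, sft, trl, Pi.sub_apply]
  ring

theorem Uu_tr (c : E d × ℝ) (g : E d → ℂ) (p : E d × ℝ) : Uu (tr c g) p = Uu g (p + c) := by
  unfold Uu tr
  rw [evo_sft, evo_trl, sub_neg_eq_add]
  rfl

theorem lE_tr (c : E d × ℝ) (g : E d → ℂ) (p : E d × ℝ) (ρ : ℝ) : lE (tr c g) p ρ = lE g (p + c) ρ := by
  unfold lE
  have h := (measurePreserving_add_right (volume : Measure (E d)) c.1).setIntegral_preimage_emb
    (measurableEmbedding_addRight c.1) (fun x => ‖Uu g (x, (p + c).2)‖ ^ 2) (Metric.ball (p + c).1 ρ)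
  rw [← h]
  have e : (fun x => x + c.1) ⁻¹' Metric.ball (p + c).1 ρ = Metric.ball p.1 ρ := by
    ext x
    simp [Metric.mem_ball]
  rw [e]
  simp only [Uu_tr]
  rfl

theorem cub_sub {T : ℝ} (hT : 0 < T) (p : E d × ℝ) (q0 : (Fin d → ℤ) × ℤ) : cub T (p - cor T q0) = cub T p - q0 := by
  have h : ∀ (a : ℝ) (n : ℤ), ⌊(a - T * n) / T⌋ = ⌊a / T⌋ - n := fun a n => by
    rw [sub_div, mul_div_cancel_left₀ _ hT.ne', Int.floor_sub_intCast]
  unfold cub cor
  refine Prod.ext (funext fun k => ?_) ?_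
  · simpa using h (p.1 k) (q0.1 k)
  · simpa using h p.2 q0.2

theorem cor_add (T : ℝ) (q q0 : (Fin d → ℤ) × ℤ) : cor T (q - q0) + cor T q0 = cor T q := by
  unfold cor
  refine Prod.ext ?_ ?_
  · ext k; simp; ring
  · simp; ring

theorem vol_box {L : ℝ} (hL : 0 < L) (τ : Fin d → ℤ) :
    volume {ξ : E d | ∀ k, |2 * L * ξ k - τ k| ≤ 5} = ENNReal.ofReal (5 / L) ^ d := by
  have e : {ξ : E d | ∀ k, |2 * L * ξ k - τ k| ≤ 5} =
      (WithLp.ofLp : E d → Fin d → ℝ) ⁻¹' Set.Icc (fun k => (τ k - 5) / (2 * L)) (fun k => (τ k + 5) / (2 * L)) := by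
    ext ξ
    simp only [Set.mem_setOf_eq, Set.mem_preimage, Set.mem_Icc, Pi.le_def, abs_le, ← forall_and]
    refine forall_congr' fun k => ?_
    rw [div_le_iff₀ (by positivity), le_div_iff₀ (by positivity)]
    constructor <;> rintro ⟨h1, h2⟩ <;> constructor <;> linarith
  rw [e, (PiLp.volume_preserving_ofLp (Fin d)).measure_preimage measurableSet_Icc.nullMeasurableSet, Real.volume_Icc_pi]
  have : ∀ k : Fin d, ENNReal.ofReal (((τ k : ℝ) + 5) / (2 * L) - (τ k - 5) / (2 * L)) = ENNReal.ofReal (5 / L) := fun k => by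
    congr 1; field_simp; ring
  simp only [this, Finset.prod_const, Finset.card_univ, Fintype.card_fin]

theorem thick {L φ : ℝ} (hL : 0 < L) {h : E d → ℂ} {Θ : Finset (Fin d → ℤ)}
    (hs : ∀ ξ, h ξ ≠ 0 → ∃ τ ∈ Θ, ∀ k, |2 * L * ξ k - τ k| ≤ 3) (hΘ : (#Θ : ℝ) ≤ φ * L ^ d) :
    (volume : Measure (E d)).real (Metric.thickening L⁻¹ (Function.support h)) ≤ 5 ^ d * φ := by
  have h1 : Metric.thickening L⁻¹ (Function.support h) ⊆ ⋃ τ ∈ Θ, {ξ : E d | ∀ k, |2 * L * ξ k - τ k| ≤ 5} := by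
    intro ξ hξ
    obtain ⟨z, hz, hd⟩ := Metric.mem_thickening_iff.1 hξ
    obtain ⟨τ, hτ, h3⟩ := hs z hz
    refine Set.mem_biUnion hτ fun k => ?_
    have h4 : |ξ k - z k| ≤ L⁻¹ := by
      have := P076T.abs_apply_le (ξ - z) k
      rw [dist_eq_norm] at hd
      exact le_trans (by simpa using this) hd.le
    have h5 : |2 * L * (ξ k - z k)| ≤ 2 := by
      rw [abs_mul, abs_of_pos (by positivity)]
      calc 2 * L * |ξ k - z k| ≤ 2 * L * L⁻¹ := by gcongr
        _ = 2 := by field_simp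
    have h6 := h3 k
    rw [abs_le] at h5 h6 ⊢
    constructor <;> linarith [h5.1, h5.2, h6.1, h6.2]
  have h2 : volume (Metric.thickening L⁻¹ (Function.support h)) ≤ ENNReal.ofReal (#Θ * (5 / L) ^ d) := by
    refine (measure_mono h1).trans ((measure_biUnion_finset_le _ _).trans (le_of_eq ?_))
    simp only [vol_box hL, Finset.sum_const, nsmul_eq_mul]
    rw [ENNReal.ofReal_mul (Nat.cast_nonneg _), ENNReal.ofReal_natCast, ENNReal.ofReal_pow (by positivity)]
  refine (ENNReal.toReal_le_of_le_ofReal (by positivity) h2).trans ?_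
  calc (#Θ : ℝ) * (5 / L) ^ d ≤ φ * L ^ d * (5 / L) ^ d := by gcongr
    _ = _ := by rw [div_pow]; field_simp

theorem floor_near {a b : ℝ} (h : |a - b| ≤ 1) : ⌊a⌋ ∈ Finset.Icc (⌊b⌋ - 1) (⌊b⌋ + 1) := by
  rw [abs_le] at h
  rw [Finset.mem_Icc, ← Int.floor_sub_one, ← Int.floor_add_one]
  exact ⟨Int.floor_mono (by linarith), Int.floor_mono (by linarith)⟩

theorem wg {l : ℝ} (hl : 0 < l) {A : Finset (E d × ℝ)}
    (h : ∀ p ∈ A, ∀ p' ∈ A, p ≠ p' → (∃ k, 1 ≤ |p.1 k - p'.1 k|) ∨ l ≤ |p.2 - p'.2|) : WG (3 ^ (d + 1)) l A := by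
  classical
  intro y s
  have : #(A.filter fun p => ‖p.1 - y‖ ≤ 1 ∧ |p.2 - s| ≤ l) ≤
      #((Fintype.piFinset fun k => Finset.Icc (⌊y k⌋ - 1) (⌊y k⌋ + 1)) ×ˢ Finset.Icc (⌊s / l⌋ - 1) (⌊s / l⌋ + 1)) := by
    refine Finset.card_le_card_of_injOn (fun p => (fun k => ⌊p.1 k⌋, ⌊p.2 / l⌋)) ?_ ?_
    · intro p hp
      rw [Finset.coe_filter] at hp
      rw [Finset.mem_coe, Finset.mem_product, Fintype.mem_piFinset]
      refine ⟨fun k => floor_near (le_trans (by simpa using P076T.abs_apply_le (p.1 - y) k) hp.2.1), floor_near ?_⟩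
      rw [← sub_div, abs_div, abs_of_pos hl, div_le_one hl]
      exact hp.2.2
    · intro p hp p' hp' he
      rw [Finset.coe_filter] at hp hp'
      by_contra hne
      simp only [Prod.mk.injEq] at he
      rcases h p hp.1 p' hp'.1 hne with ⟨k, hk⟩ | hk
      · exact absurd (Int.abs_sub_lt_one_of_floor_eq_floor (congrFun he.1 k)) (not_lt.2 hk)
      · have := Int.abs_sub_lt_one_of_floor_eq_floor he.2
        rw [← sub_div, abs_div, abs_of_pos hl, div_lt_one hl] at this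
        linarith
  have e : ∀ a : ℤ, #(Finset.Icc (a - 1) (a + 1)) = 3 := fun a => by
    rw [Int.card_Icc]
    have : a + 1 + 1 - (a - 1) = 3 := by ring
    rw [this]; rfl
  rw [Finset.card_product, Fintype.card_piFinset] at this
  simp only [e, Finset.prod_const, Finset.card_univ, Fintype.card_fin] at this
  have h2 : ((3 ^ d * 3 : ℕ) : ℝ) = 3 ^ (d + 1) := by push_cast; ring
  rw [← h2]
  convert Nat.cast_le (α := ℝ).2 this

end Kb

open Kb in
theorem kb2 (d : ℕ) (_hd : 1 ≤ d) : KB2 d := by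
  classical
  rintro ⟨η, κ, δ, hη, hη1, hκ, hδ, H⟩
  obtain ⟨C, H⟩ := H (3 ^ (d + 1))
  have h5 : (1 : ℝ) ≤ (5 ^ d) ^ δ := Real.one_le_rpow (one_le_pow₀ (by norm_num)) hδ.le
  refine ⟨η, κ, δ, max C 0 * (5 ^ d) ^ δ, hη, hη1, hκ, hδ, by positivity, ?_⟩
  intro l T L g q0 ι A x t α φ hl hT hL hg hα hφ hin hsep hamp hloc
  have hl0 : 0 < l := by linarith
  have hT0 : 0 < T := by rw [hT]; positivity
  have hL0 : 0 < L := by rw [hL]; positivity
  set c := cor T q0 with hc
  set f : ι → E d × ℝ := fun i => (x i, t i) - c with hf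
  have hf1 : ∀ i j k, (f i).1 k - (f j).1 k = x i k - x j k := fun i j k => by simp [hf]
  have hf2 : ∀ i j, (f i).2 - (f j).2 = t i - t j := fun i j => by simp [hf]
  have hinj : Set.InjOn f A := by
    intro i hi j hj hij
    by_contra hne
    rcases hsep i hi j hj hne with ⟨k, hk⟩ | hk
    · rw [← hf1, hij, sub_self, abs_zero] at hk; linarith
    · rw [← hf2, hij, sub_self, abs_zero] at hk; linarith
  have hfc : ∀ i, f i + c = (x i, t i) := fun i => sub_add_cancel _ _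
  obtain ⟨A', h1, h2, h3⟩ := H l (tr c g) (A.image f) α (5 ^ d * φ) hl hα (tr_bd c hg)
    (wg hl0 fun p hp p' hp' hne => by
      obtain ⟨i, hi, rfl⟩ := Finset.mem_image.1 hp
      obtain ⟨j, hj, rfl⟩ := Finset.mem_image.1 hp'
      simp only [hf1, hf2]
      exact hsep i hi j hj fun h => hne (by rw [h]))
    (fun p hp => by
      obtain ⟨i, hi, rfl⟩ := Finset.mem_image.1 hp
      obtain ⟨_, a2, a3⟩ := hin i hi
      have : (f i).2 = t i - T * q0.2 := rfl
      rw [Uu_tr, hfc, this]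
      exact ⟨by linarith, by linarith, hamp i hi⟩)
    (fun p hp => by
      obtain ⟨i, hi, rfl⟩ := Finset.mem_image.1 hp
      exact (hin i hi).1)
    (fun p hp => by
      obtain ⟨i, hi, rfl⟩ := Finset.mem_image.1 hp
      obtain ⟨h, Θ, b1, b2, b3, b4, b5⟩ := hloc i hi
      refine ⟨tr c h, tr_bd c b1, by rwa [en_tr], ?_, ?_⟩
      · rw [Real.rpow_neg hl0.le, ← hL]
        exact thick hL0 (fun ξ hξ => b3 ξ (by rwa [← norm_ne_zero_iff, norm_tr, norm_ne_zero_iff] at hξ)) b4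
      · rw [← hT, tr_sub, lE_tr]
        show lE (g - h) (cor T (cub T ((x i, t i) - cor T q0)) + cor T q0) _ ≤ _
        rwa [cub_sub hT0, cor_add])
  have hen : 0 ≤ en g := integral_nonneg fun _ => sq_nonneg _
  have hCC : C ≤ max C 0 * (5 ^ d) ^ δ := (le_max_left _ _).trans (le_mul_of_one_le_right (le_max_right _ _) h5)
  refine ⟨A.filter fun i => f i ∈ A', Finset.filter_subset _ _, ?_, fun q => ?_⟩
  · have e1 : #A' ≤ #(A.filter fun i => f i ∈ A') := by
      refine le_trans (Finset.card_le_card (t := (A.filter fun i => f i ∈ A').image f) fun p hp => ?_) Finset.card_image_le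
      obtain ⟨i, hi, rfl⟩ := Finset.mem_image.1 (h1 hp)
      exact Finset.mem_image_of_mem _ (Finset.mem_filter.2 ⟨hi, hp⟩)
    have e2 : #A = #(A.image f \ A') + #A' := by
      rw [Finset.card_sdiff_add_card_eq_card h1, Finset.card_image_of_injOn hinj]
    have e3 : (#A' : ℝ) ≤ #(A.filter fun i => f i ∈ A') := by exact_mod_cast e1
    rw [e2]
    push_cast
    rw [en_tr] at h2
    have e4 : C * l ^ (2 * ((d : ℝ) + 1) / (d + 2) - κ) * (en g / α ^ 2) ≤
        max C 0 * (5 ^ d) ^ δ * l ^ (2 * ((d : ℝ) + 1) / (d + 2) - κ) * (en g / α ^ 2) := by gcongr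
    have h2' : (#(A.image f \ A') : ℝ) ≤ C * l ^ (2 * ((d : ℝ) + 1) / (d + 2) - κ) * (en g / α ^ 2) := by convert h2
    linarith
  · have h4 := h3 (q - q0)
    rw [← hT, lE_tr, hc, cor_add, Real.mul_rpow (by positivity) hφ] at h4
    have e1 : #((A.filter fun i => f i ∈ A').filter fun i => cub T (x i, t i) = q) ≤ #(A'.filter fun p => cub T p = q - q0) := by
      refine Finset.card_le_card_of_injOn f (fun i hi => ?_) (hinj.mono fun i hi => ?_)
      · rw [Finset.coe_filter] at hi ⊢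
        refine ⟨(Finset.mem_filter.1 hi.1).2, ?_⟩
        show cub T ((x i, t i) - cor T q0) = _
        rw [cub_sub hT0, hi.2]
      · rw [Finset.coe_filter] at hi
        exact (Finset.mem_filter.1 hi.1).1
    have hlE : 0 ≤ lE g (cor T q) (100 * d * T) := integral_nonneg fun _ => sq_nonneg _
    have e2 : (#(A'.filter fun p => cub T p = q - q0) : ℝ) ≤ C * ((5 ^ d) ^ δ * φ ^ δ) * T ^ (d + 1) *
        (lE g (cor T q) (100 * d * T) / (T ^ d * α ^ 2)) ^ (((d : ℝ) + 2) / d) := by convert h4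
    refine (Nat.cast_le.2 e1).trans (e2.trans ?_)
    rw [← mul_assoc C]
    gcongr
    exact le_max_left _ _

end Vale.Agent.P076N.SL
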