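import Vale.Agent.P076N.SL.Asm2a
import Vale.Agent.P076N.A.Dcp
import Vale.Agent.P076T.MeanO

/-! # P076N / SL : the localised count (row SL.KLA2) -/

set_option linter.all false

open MeasureTheory Finset

namespace Vale.Agent.P076N.SL

open Vale.Agent.P076 Vale.Agent.P076N

variable {d : ℕ}

namespace Kla

theorem wt_mono {B B' : ℝ} {ω : (Fin d → ℤ) → E d → ℝ} (h : Wt B ω) (hB : B ≤ B') : Wt B' ω :=
  ⟨h.meas, h.nn, h.le1, fun J x => (h.sum J x).trans hB⟩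

theorem lE_le {g h : E d → ℂ} (hg : Bd 3 g) (hh : Bd 3 h) (p : E d × ℝ) (ρ : ℝ) : lE g p ρ ≤ 2 * en h + 2 * lE (g - h) p ρ := by
  obtain ⟨a1, -⟩ := P076T.planch_evo hg.integrable hg.memLp p.2
  obtain ⟨b1, b2⟩ := P076T.planch_evo hh.integrable hh.memLp p.2
  obtain ⟨c1, -⟩ := P076T.planch_evo (hg.integrable.sub hh.integrable) (hg.memLp.sub hh.memLp) p.2
  have h1 : ∫ x in Metric.ball p.1 ρ, ‖evo h x p.2 0‖ ^ 2 ≤ en h := by
    unfold en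
    rw [← b2]
    exact setIntegral_le_integral b1 (Filter.Eventually.of_forall fun x => sq_nonneg _)
  have h2 : lE g p ρ ≤ ∫ x in Metric.ball p.1 ρ, (2 * ‖evo h x p.2 0‖ ^ 2 + 2 * ‖evo (g - h) x p.2 0‖ ^ 2) := by
    refine integral_mono a1.integrableOn ((b1.integrableOn.const_mul 2).add (c1.integrableOn.const_mul 2)) fun x => ?_
    have e : evo (g - h) x p.2 0 = evo g x p.2 0 - evo h x p.2 0 := A.evo_sub hg.integrable hh.integrable x p.2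
    have e2 := norm_add_le (evo h x p.2 0) (evo (g - h) x p.2 0)
    rw [e, add_sub_cancel, ← e] at e2
    show ‖evo g x p.2 0‖ ^ 2 ≤ 2 * ‖evo h x p.2 0‖ ^ 2 + 2 * ‖evo (g - h) x p.2 0‖ ^ 2
    nlinarith [norm_nonneg (evo g x p.2 0), norm_nonneg (evo h x p.2 0), norm_nonneg (evo (g - h) x p.2 0),
      sq_nonneg (‖evo h x p.2 0‖ - ‖evo (g - h) x p.2 0‖)]
  rw [integral_add (b1.integrableOn.const_mul 2) (c1.integrableOn.const_mul 2), integral_const_mul, integral_const_mul] at h2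
  refine h2.trans (add_le_add (by linarith) (le_of_eq rfl))

/-- `KC2` at a fixed scale -/
def KC3 (d : ℕ) (κ δ C l T L : ℝ) : Prop :=
  ∀ (g : E d → ℂ) (q0 : (Fin d → ℤ) × ℤ) (ι : Type) (A : Finset ι) (x : ι → E d) (t : ι → ℝ) (α φ : ℝ),
    Bd 3 g → 0 < α → 0 ≤ φ →
    (∀ i ∈ A, ‖x i - (cor T q0).1‖ ≤ l ^ 2 ∧ T * q0.2 ≤ t i ∧ t i ≤ T * q0.2 + l ^ 2) →
    (∀ i ∈ A, ∀ j ∈ A, i ≠ j → (∃ k, 1 ≤ |x i k - x j k|) ∨ l ≤ |t i - t j|) →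
    (∀ i ∈ A, α ≤ ‖evo g (x i) (t i) 0‖) →
    (∀ i ∈ A, ∃ (h : E d → ℂ) (Θ : Finset (Fin d → ℤ)), Bd 3 h ∧ en h ≤ l ^ (20 * d) * α ^ 2 ∧
      (∀ ξ, h ξ ≠ 0 → ∃ τ ∈ Θ, ∀ k, |2 * L * ξ k - τ k| ≤ 3) ∧ (#Θ : ℝ) ≤ φ * L ^ d ∧
      lE (g - h) (cor T (cub T (x i, t i))) (100 * d * T) ≤ (l ^ (10 * d))⁻¹ * α ^ 2) →
    ∃ A' ⊆ A, (#A : ℝ) ≤ #A' + C * l ^ (2 * ((d : ℝ) + 1) / (d + 2) - κ) * (en g / α ^ 2) ∧
      ∀ q, (#(A'.filter fun i => cub T (x i, t i) = q) : ℝ) ≤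
        C * φ ^ δ * T ^ (d + 1) * (lE g (cor T q) (100 * d * T) / (T ^ d * α ^ 2)) ^ (((d : ℝ) + 2) / d)

theorem tiny (hd : 1 ≤ d) {C φ δ l T α u : ℝ} (hC : 0 ≤ C) (hδ : 0 ≤ δ) (hφ : 0 ≤ φ) (hφ1 : φ ≤ 13 ^ d) (hl : 0 < l) (hT : l ≤ T)
    (hα : 0 < α) (hu0 : 0 ≤ u) (hu : u ≤ 4 * α ^ 2) (h : C * (13 ^ d) ^ δ * 4 ^ (((d : ℝ) + 2) / d) < l) :
    C * φ ^ δ * T ^ (d + 1) * (u / (T ^ d * α ^ 2)) ^ (((d : ℝ) + 2) / d) < 1 := by
  have hT0 : 0 < T := by linarith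
  have hd0 : (0 : ℝ) < d := by exact_mod_cast hd
  have h1 : u / (T ^ d * α ^ 2) ≤ 4 / T ^ d := by
    rw [div_le_div_iff₀ (by positivity) (by positivity)]
    nlinarith [pow_pos hT0 d]
  have h2 : (4 / T ^ d) ^ (((d : ℝ) + 2) / d) = 4 ^ (((d : ℝ) + 2) / d) / T ^ (d + 2) := by
    rw [Real.div_rpow (by norm_num) (by positivity), ← Real.rpow_natCast T d, ← Real.rpow_mul hT0.le, ← Real.rpow_natCast T]
    congr 2
    push_cast
    field_simp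
  calc _ ≤ C * (13 ^ d) ^ δ * T ^ (d + 1) * (4 / T ^ d) ^ (((d : ℝ) + 2) / d) := by gcongr
    _ = C * (13 ^ d) ^ δ * 4 ^ (((d : ℝ) + 2) / d) / T := by rw [h2]; field_simp; ring
    _ < 1 := by rw [div_lt_one hT0]; linarith

/-- one of the two parts -/
theorem one (hd : 1 ≤ d) {κ δ C l T L α φ : ℝ} (H : KC3 d κ δ C l T L) (hC : 0 ≤ C) (hδ : 0 ≤ δ) (hl : 1 ≤ l) (hT : l ≤ T)
    (hl0 : C * (13 ^ d) ^ δ * 4 ^ (((d : ℝ) + 2) / d) < l) {g : E d → ℂ} (q0 : (Fin d → ℤ) × ℤ) {ι : Type} {A : Finset ι}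
    {x : ι → E d} {t : ι → ℝ} (Y : (Fin d → ℤ) × ℤ → ℝ) (hY : ∀ q, 0 ≤ Y q) (hg : Bd 3 g) (hα : 0 < α) (hφ : 0 ≤ φ) (hφ1 : φ ≤ 13 ^ d)
    (hin : ∀ i ∈ A, ‖x i - (cor T q0).1‖ ≤ l ^ 2 ∧ T * q0.2 ≤ t i ∧ t i ≤ T * q0.2 + l ^ 2)
    (hsep : ∀ i ∈ A, ∀ j ∈ A, i ≠ j → (∃ k, 1 ≤ |x i k - x j k|) ∨ l ≤ |t i - t j|)
    (hamp : ∀ i ∈ A, α ≤ ‖evo g (x i) (t i) 0‖)
    (hloc : ∀ i ∈ A, ∃ (h : E d → ℂ) (Θ : Finset (Fin d → ℤ)), Bd 3 h ∧ en h ≤ l ^ (20 * d) * α ^ 2 ∧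
      (∀ ξ, h ξ ≠ 0 → ∃ τ ∈ Θ, ∀ k, |2 * L * ξ k - τ k| ≤ 3) ∧ (#Θ : ℝ) ≤ φ * L ^ d ∧
      lE (g - h) (cor T (cub T (x i, t i))) (100 * d * T) ≤ (l ^ (10 * d))⁻¹ * α ^ 2 ∧ en h ≤ Y (cub T (x i, t i))) :
    ∃ A' ⊆ A, (#A : ℝ) ≤ #A' + C * l ^ (2 * ((d : ℝ) + 1) / (d + 2) - κ) * (en g / α ^ 2) ∧
      ∀ q, (#(A'.filter fun i => cub T (x i, t i) = q) : ℝ) ≤
        C * φ ^ δ * T ^ (d + 1) * (4 * Y q / (T ^ d * α ^ 2)) ^ (((d : ℝ) + 2) / d) := by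
  have hT0 : 0 < T := by linarith
  obtain ⟨A', h1, h2, h3⟩ := H g q0 ι A x t α φ hg hα hφ hin hsep hamp fun i hi => by
    obtain ⟨h, Θ, a1, a2, a3, a4, a5, -⟩ := hloc i hi
    exact ⟨h, Θ, a1, a2, a3, a4, a5⟩
  refine ⟨A', h1, h2, fun q => ?_⟩
  have hYq := hY q
  rcases (A'.filter fun i => cub T (x i, t i) = q).eq_empty_or_nonempty with he | ⟨i, hi⟩
  · rw [he, Finset.card_empty, Nat.cast_zero]; positivity
  have hc : (1 : ℝ) ≤ #(A'.filter fun i => cub T (x i, t i) = q) := by exact_mod_cast Finset.card_pos.2 ⟨i, hi⟩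
  rw [Finset.mem_filter] at hi
  obtain ⟨h, Θ, a1, -, -, -, a5, a6⟩ := hloc i (h1 hi.1)
  rw [hi.2] at a5 a6
  have b1 := lE_le hg a1 (cor T q) (100 * d * T)
  have b0 : 0 ≤ lE g (cor T q) (100 * d * T) := integral_nonneg fun _ => sq_nonneg _
  rcases le_total ((l ^ (10 * d))⁻¹ * α ^ 2) (Y q) with hc2 | hc2
  · refine (h3 q).trans ?_
    gcongr
    linarith
  · exfalso
    have b2 : (l ^ (10 * d))⁻¹ * α ^ 2 ≤ α ^ 2 :=
      mul_le_of_le_one_left (sq_nonneg _) (inv_le_one_of_one_le₀ (one_le_pow₀ hl))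
    have := tiny hd hC hδ hφ hφ1 (by linarith) hT hα b0 (by linarith) hl0
    linarith [h3 q]

theorem corner {T S l : ℝ} {J : ℕ} (hS : S = J * T) (hS0 : 0 < S) (hS1 : (d + 1) * S ≤ l ^ 2) {x : E d} {t : ℝ} {Q' : Fin d → ℤ}
    {β' : ℤ} (h1 : cb S x = Q') (h2 : ⌊t / S⌋ = β') :
    ‖x - (cor T (fun k => J * Q' k, J * β')).1‖ ≤ l ^ 2 ∧ T * ((J * β' : ℤ) : ℝ) ≤ t ∧ t ≤ T * ((J * β' : ℤ) : ℝ) + l ^ 2 := by
  have h : ∀ (a : ℝ) (n : ℤ), ⌊a / S⌋ = n → T * ((J * n : ℤ) : ℝ) ≤ a ∧ a ≤ T * ((J * n : ℤ) : ℝ) + S := by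
    intro a n hn
    have a1 := Int.floor_le (a / S)
    have a2 := Int.lt_floor_add_one (a / S)
    rw [hn] at a1 a2
    rw [le_div_iff₀ hS0] at a1
    rw [div_lt_iff₀ hS0] at a2
    have : T * ((J * n : ℤ) : ℝ) = n * S := by rw [hS]; push_cast; ring
    rw [this]
    constructor <;> linarith
  have hd : (0 : ℝ) ≤ d * S := by positivity
  obtain ⟨b1, b2⟩ := h t β' h2
  refine ⟨le_trans (P076T.norm_le_mul (r := S) fun k => ?_) (by linarith), b1, by linarith⟩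
  obtain ⟨c1, c2⟩ := h (x k) (Q' k) (congrFun h1 k)
  have : (x - (cor T (fun k => J * Q' k, J * β')).1) k = x k - T * ((J * Q' k : ℤ) : ℝ) := rfl
  rw [this, abs_le]
  constructor <;> linarith

theorem pw16 {c Y T α p : ℝ} (hc : 0 ≤ c) (hY : 0 ≤ Y) (hT : 0 < T) (hα : 0 < α) :
    (4 * (c * Y) / (T ^ d * (α / 4) ^ 2)) ^ p = (64 * c) ^ p * (Y / (T ^ d * α ^ 2)) ^ p := by
  rw [← Real.mul_rpow (by positivity) (by positivity)]
  congr 1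
  field_simp
  ring

end Kla

open Kla in
theorem kla2 (d : ℕ) (hd : 1 ≤ d) : KLA2 d := by
  classical
  rintro hB ⟨η, κ, δ, C1, hη, hη1, hκ, hδ, hC1, HK⟩ HL
  obtain ⟨C2, hC2, HL⟩ := HL η hη hη1 (18 * d + 9)
  have h13 : (1 : ℝ) ≤ (13 ^ d) ^ δ := Real.one_le_rpow (one_le_pow₀ (by norm_num)) hδ.le
  obtain ⟨C, hCa, hCb, hCc⟩ : ∃ C : ℝ, C2 ≤ C ∧ 32 * C1 * C2 ≤ C ∧ C1 * (13 ^ d) ^ δ * (64 * C2) ^ (((d : ℝ) + 2) / d) ≤ C :=
    ⟨max (max _ _) _, (le_max_left _ _).trans (le_max_left _ _), (le_max_right _ _).trans (le_max_left _ _), le_max_right _ _⟩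
  refine ⟨η, κ, δ, C, max (16 * C2) (C1 * (13 ^ d) ^ δ * 4 ^ (((d : ℝ) + 2) / d) + 1), hη, hη1, hκ, hδ, hC2.trans hCa, ?_⟩
  intro l T L S J hl hl0 hT hL hJ hS hS1
  have hl0' : 0 < l := by linarith
  have hla : 16 * C2 ≤ l := (le_max_left _ _).trans hl0
  have hlb : C1 * (13 ^ d) ^ δ * 4 ^ (((d : ℝ) + 2) / d) < l := by linarith [(le_max_right _ _).trans hl0]
  have hlT : l ≤ T := by rw [hT]; simpa using Real.rpow_le_rpow_of_exponent_le hl (show 1 ≤ 2 - η by linarith)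
  have hT0 : 0 < T := by linarith
  have hL1 : 1 ≤ L := by rw [hL]; exact Real.one_le_rpow hl (by positivity)
  have hJ1 : (1 : ℝ) ≤ J := by exact_mod_cast hJ
  have hTS : T ≤ S := by rw [hS]; exact le_mul_of_one_le_left hT0.le hJ1
  have H3 : KC3 d κ δ C1 l T L := fun g q0 ι A x t α φ => HK l T L g q0 ι A x t α φ hl hT hL
  obtain ⟨ω, ω', hω, hω', HL⟩ := HL l T L S hl hT hL hTS
  refine ⟨ω, ω', wt_mono hω hCa, wt_mono hω' hCa, ?_⟩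
  intro h Q' β' s Θb Θg ι A x t α φ hh hα hφ hφ1 hen hin hsep hamp hΘ
  obtain ⟨g, g1, g2, g3⟩ := HL h Q' β' hh
  have hti : C2 * (l ^ (18 * d + 9))⁻¹ * en h ≤ (l ^ (10 * d))⁻¹ * (α / 4) ^ 2 := by
    calc C2 * (l ^ (18 * d + 9))⁻¹ * en h ≤ l / 16 * (l ^ (18 * d + 9))⁻¹ * (l ^ (8 * (d + 1)) * α ^ 2) := by
          have : 0 ≤ en h := integral_nonneg fun _ => sq_nonneg _
          gcongr
          linarith
      _ = _ := by field_simp; ring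
  have hti2 : C2 * en h ≤ l ^ (20 * d) * (α / 4) ^ 2 := by
    calc C2 * en h ≤ l / 16 * (l ^ (8 * (d + 1)) * α ^ 2) := by
          have : 0 ≤ en h := integral_nonneg fun _ => sq_nonneg _
          gcongr
          linarith
      _ = l ^ (8 * d + 9) * (α / 4) ^ 2 := by ring
      _ ≤ _ := mul_le_mul_of_nonneg_right (pow_le_pow_right₀ hl (by omega)) (sq_nonneg _)
  have hq : ∀ i ∈ A, 0 ≤ (cub T (x i, t i)).2 ∧ T * (cub T (x i, t i)).2 ≤ l ^ (2 + η / 2) := by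
    intro i hi
    obtain ⟨-, -, a3, a4⟩ := hin i hi
    refine ⟨Int.floor_nonneg.2 (by positivity), le_trans ?_ a4⟩
    have := Int.floor_le (t i / T)
    rw [le_div_iff₀ hT0, mul_comm] at this
    exact this
  have hcor := fun i (hi : i ∈ A) => corner hS (by linarith) hS1 (hin i hi).1 (hin i hi).2.1
  set A1 := A.filter fun i => α / 4 ≤ ‖evo (g s) (x i) (t i) 0‖ with hA1
  set A2 := A.filter fun i => ¬ α / 4 ≤ ‖evo (g s) (x i) (t i) 0‖ with hA2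
  have s1 : A1 ⊆ A := Finset.filter_subset _ _
  have s2 : A2 ⊆ A := Finset.filter_subset _ _
  obtain ⟨B1, p1, p2, p3⟩ := one hd H3 hC1 hδ.le hl hlT hlb (fun k => J * Q' k, J * β') (A := A1) (x := x) (t := t)
    (fun q => C2 * eb L ω h q.1 q.2 (TT d L)) (fun q => mul_nonneg hC2 (eb_nonneg hω _ _ _ _)) (g1 s).1 (by positivity : 0 < α / 4)
    hφ hφ1 (fun i hi => hcor i (s1 hi)) (fun i hi j hj => hsep i (s1 hi) j (s1 hj)) (fun i hi => (Finset.mem_filter.1 hi).2)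
    (fun i hi => by
      obtain ⟨a1, -, a3, a4⟩ := hΘ i (s1 hi) _ rfl
      obtain ⟨h1, b1, b2, b3, b4, b5⟩ := g3 s _ _ a1 (hq i (s1 hi)).1 (hq i (s1 hi)).2 fun τ hτ Q0 hn => (a4 τ hτ Q0 hn).1
      exact ⟨h1, _, b1, b4.trans hti2, b2, a3, b5.trans hti, b3.trans (mul_le_mul_of_nonneg_left (eb_mono hω _ _ _ a1) hC2)⟩)
  obtain ⟨B2, r1, r2, r3⟩ := one hd H3 hC1 hδ.le hl hlT hlb (fun k => J * Q' k, J * β') (A := A2) (x := x) (t := t)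
    (fun q => C2 * eb L ω h q.1 q.2 (Θg q)) (fun q => mul_nonneg hC2 (eb_nonneg hω _ _ _ _)) (g1 fun u => ¬ s u).1
    (by positivity : 0 < α / 4) (by positivity) le_rfl (fun i hi => hcor i (s2 hi)) (fun i hi j hj => hsep i (s2 hi) j (s2 hj))
    (fun i hi => by
      obtain ⟨a1, a2, a3, a4⟩ := hin i (s2 hi)
      have e1 := (g2 s (x i) (t i) a1 a2 a3 a4).trans (hti.trans
        (mul_le_of_le_one_left (sq_nonneg _) (inv_le_one_of_one_le₀ (one_le_pow₀ hl))))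
      have e2 := (pow_le_pow_iff_left₀ (norm_nonneg _) (by positivity) two_ne_zero).1 e1
      have e3 := not_le.1 (Finset.mem_filter.1 hi).2
      have e4 := hamp i (s2 hi)
      have e5 := norm_add₃_le (a := evo h (x i) (t i) 0 - evo (g s) (x i) (t i) 0 - evo (g fun u => ¬ s u) (x i) (t i) 0)
        (b := evo (g s) (x i) (t i) 0) (c := evo (g fun u => ¬ s u) (x i) (t i) 0)
      have e6 : evo h (x i) (t i) 0 - evo (g s) (x i) (t i) 0 - evo (g fun u => ¬ s u) (x i) (t i) 0 +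
        evo (g s) (x i) (t i) 0 + evo (g fun u => ¬ s u) (x i) (t i) 0 = evo h (x i) (t i) 0 := by ring
      rw [e6] at e5
      linarith)
    (fun i hi => by
      obtain ⟨-, a2, -, a4⟩ := hΘ i (s2 hi) _ rfl
      obtain ⟨h1, b1, b2, b3, b4, b5⟩ := g3 (fun u => ¬ s u) _ _ a2 (hq i (s2 hi)).1 (hq i (s2 hi)).2
        fun τ hτ Q0 hn => (a4 τ hτ Q0 hn).2
      exact ⟨h1, _, b1, b4.trans hti2, b2, (Nat.cast_le.2 (Finset.card_le_card a2)).trans (hB.2.2.2.1 L hL1).1, b5.trans hti, b3⟩)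
  refine ⟨B1 ∪ B2, Finset.union_subset (p1.trans s1) (r1.trans s2), ?_, fun q => ?_⟩
  · have e1 : (#A : ℝ) = #A1 + #A2 := by exact_mod_cast (Finset.card_filter_add_card_filter_not _).symm
    have e2 : (#(B1 ∪ B2) : ℝ) = #B1 + #B2 := by
      exact_mod_cast Finset.card_union_of_disjoint (Finset.disjoint_of_subset_left p1
        (Finset.disjoint_of_subset_right r1 (Finset.disjoint_filter_filter_not _ _ _)))
    have e0 := eb_nonneg (L := L) hω' h Q' β' (TT d L)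
    have e3 : ∀ s', C1 * l ^ (2 * ((d : ℝ) + 1) / (d + 2) - κ) * (en (g s') / (α / 4) ^ 2) ≤
        C / 2 * l ^ (2 * ((d : ℝ) + 1) / (d + 2) - κ) * (eb L ω' h Q' β' (TT d L) / α ^ 2) := fun s' => by
      calc _ ≤ C1 * l ^ (2 * ((d : ℝ) + 1) / (d + 2) - κ) * (C2 * eb L ω' h Q' β' (TT d L) / (α / 4) ^ 2) := by
            gcongr
            exact (g1 s').2
        _ = 32 * C1 * C2 / 2 * l ^ (2 * ((d : ℝ) + 1) / (d + 2) - κ) * (eb L ω' h Q' β' (TT d L) / α ^ 2) := by field_simp; ring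
        _ ≤ _ := by gcongr
    rw [e1, e2]
    linarith [e3 s, e3 fun u => ¬ s u]
  · have e1 : (#((B1 ∪ B2).filter fun i => cub T (x i, t i) = q) : ℝ) ≤
        #(B1.filter fun i => cub T (x i, t i) = q) + #(B2.filter fun i => cub T (x i, t i) = q) := by
      rw [Finset.filter_union]
      exact_mod_cast Finset.card_union_le _ _
    have e2 := p3 q
    have e3 := r3 q
    have u0 := eb_nonneg (L := L) hω h q.1 q.2 (TT d L)
    have v0 := eb_nonneg (L := L) hω h q.1 q.2 (Θg q)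
    rw [pw16 hC2 u0 hT0 hα] at e2
    rw [pw16 hC2 v0 hT0 hα] at e3
    have u1 : 0 ≤ φ ^ δ * (eb L ω h q.1 q.2 (TT d L) / (T ^ d * α ^ 2)) ^ (((d : ℝ) + 2) / d) := by positivity
    have v1 : 0 ≤ (eb L ω h q.1 q.2 (Θg q) / (T ^ d * α ^ 2)) ^ (((d : ℝ) + 2) / d) := by positivity
    have w1 : C1 * (64 * C2) ^ (((d : ℝ) + 2) / d) ≤ C := le_trans (by gcongr; exact le_mul_of_one_le_right hC1 h13) hCc
    have w2 : 0 ≤ T ^ (d + 1) := by positivity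
    have f1 := mul_le_mul_of_nonneg_right w1 (mul_nonneg w2 u1)
    have f2 := mul_le_mul_of_nonneg_right hCc (mul_nonneg w2 v1)
    refine e1.trans ((add_le_add e2 e3).trans ?_)
    calc _ = _ + _ := ?_
      _ ≤ _ + _ := add_le_add f1 f2
      _ = _ := ?_
    · ring
    · ring

end Vale.Agent.P076N.SL
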