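import Vale.Agent.P076N.SL.Spec
import Vale.Agent.P076N.A.Tail
import Vale.Agent.P076T.Ker

/-! # P076N / SL : spatial localisation along tubes (row SL.LOC) -/

set_option linter.all false

open MeasureTheory Finset
open scoped FourierTransform

namespace Vale.Agent.P076N.SL

open Vale.Agent.P076 Vale.Agent.P076N

noncomputable section

variable {d : ℕ}

namespace Loc

/-- the box of side `18 l²` -/
def box (l : ℝ) (Q : Fin d → ℤ) : Set (E d) := {z | ∀ k, |z k - l ^ 2 * Q k| ≤ 9 * l ^ 2}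

theorem box_meas (l : ℝ) (Q : Fin d → ℤ) : MeasurableSet (box l Q) := by
  have h : box l Q = ⋂ k, {z : E d | |z k - l ^ 2 * Q k| ≤ 9 * l ^ 2} := by ext; simp [box]
  rw [h]
  refine MeasurableSet.iInter fun k => measurableSet_le ?_ measurable_const
  exact ((EuclideanSpace.proj k : E d →L[ℝ] ℝ).measurable.sub measurable_const).abs

theorem box_bdd (l : ℝ) (Q : Fin d → ℤ) : Bornology.IsBounded (box l Q) := by
  refine (Metric.isBounded_closedBall (x := (0 : E d)) (r := ∑ k, (9 * l ^ 2 + |l ^ 2 * Q k|))).subset fun z hz => ?_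
  rw [mem_closedBall_zero_iff]
  refine (P076T.norm_le_sum z).trans (Finset.sum_le_sum fun k _ => ?_)
  have h1 := hz k
  have h2 := abs_add_le (z k - l ^ 2 * Q k) (l ^ 2 * Q k)
  rw [sub_add_cancel] at h2
  linarith

theorem box_card {l : ℝ} (hl : 1 ≤ l) (J : Finset (Fin d → ℤ)) (z : E d) :
    ∑ Q ∈ J, (box l Q).indicator (fun _ => (1 : ℝ)) z ≤ 19 ^ d := by
  classical
  have hl2 : 0 < l ^ 2 := by positivity
  have h1 : ∑ Q ∈ J, (box l Q).indicator (fun _ => (1 : ℝ)) z = (#(J.filter fun Q => z ∈ box l Q) : ℝ) := by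
    rw [Finset.card_filter]
    push_cast
    refine Finset.sum_congr rfl fun Q _ => ?_
    by_cases h : z ∈ box l Q <;> simp [h]
  rw [h1]
  have h2 := A.overlap_card (L := 1) (c0 := 9) one_pos (by norm_num) (J.filter fun Q => z ∈ box l Q)
    ((2 * l ^ 2)⁻¹ • z) fun Q hQ k => by
      have h3 := (Finset.mem_filter.1 hQ).2 k
      have h4 : 2 * ((2 * l ^ 2)⁻¹ • z) k - Q k / 1 = (z k - l ^ 2 * Q k) / l ^ 2 := by
        simp only [PiLp.smul_apply, smul_eq_mul]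
        field_simp
      rw [h4, abs_div, abs_of_pos hl2, div_one, div_le_iff₀ hl2]
      exact h3
  refine h2.trans (le_of_eq ?_)
  norm_num

theorem wt {L l : ℝ} (hL : 0 < L) (hl : 1 ≤ l) : Wt (19 ^ d) fun Q : Fin d → ℤ => A.W L (box l Q) where
  meas := fun Q => (A.continuous_W hL (box_meas l Q) (box_bdd l Q)).measurable
  nn := fun Q x => A.W_nonneg _ x
  le1 := fun Q x => A.W_le_one hL _ x
  sum := fun J x => by
    have hi := A.integrable_mL_sub hL x
    have h1 : ∀ Q : Fin d → ℤ, A.W L (box l Q) x = ∫ z, (box l Q).indicator (fun z => A.mL L (x - z)) z := fun Q => by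
      unfold A.W
      rw [integral_indicator (box_meas l Q)]
    simp only [h1]
    rw [← integral_finsetSum _ fun Q _ => hi.indicator (box_meas l Q)]
    have h2 : (19 : ℝ) ^ d = ∫ z, 19 ^ d * A.mL L (x - z) := by
      rw [integral_const_mul, integral_sub_left_eq_self (A.mL L) volume x, A.integral_mL hL, mul_one]
    rw [h2]
    refine integral_mono (integrable_finsetSum _ fun Q _ => hi.indicator (box_meas l Q)) (hi.const_mul _) fun z => ?_
    have h3 : ∀ Q : Fin d → ℤ, (box l Q).indicator (fun z => A.mL L (x - z)) z =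
        (box l Q).indicator (fun _ => (1 : ℝ)) z * A.mL L (x - z) := fun Q => by
      by_cases h : z ∈ box l Q <;> simp [h]
    simp only [h3]
    rw [← Finset.sum_mul]
    exact mul_le_mul_of_nonneg_right (box_card hl J z) (A.mL_nonneg _)

theorem cut_one (L : ℝ) (τ : Fin d → ℤ) (h : E d → ℂ) : cut L {τ} h = A.Gc L h τ := by
  unfold cut A.Gc
  congr 1
  ext ξ
  simp only [Set.mem_setOf_eq, Finset.mem_singleton, A.cel]
  exact funext_iff

theorem cut_sum (L : ℝ) (Θ : Finset (Fin d → ℤ)) (h : E d → ℂ) : cut L Θ h = fun ξ => ∑ τ ∈ Θ, A.Gc L h τ ξ := by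
  ext ξ
  have h1 : ∀ τ, A.Gc L h τ ξ = if cel L ξ = τ then h ξ else 0 := fun τ => by
    rw [← cut_one]
    unfold cut
    by_cases hx : cel L ξ = τ <;> simp [hx]
  simp only [h1]
  rw [Finset.sum_ite_eq]
  unfold cut
  by_cases hx : cel L ξ ∈ Θ <;> simp [hx]

theorem TT_abs {L : ℝ} (hL : 1 ≤ L) {τ : Fin d → ℤ} (h : τ ∈ TT d L) (k : Fin d) : |(τ k : ℝ)| ≤ 6 * L := by
  unfold TT at h
  rw [Fintype.mem_piFinset] at h
  have h1 := Finset.mem_Icc.1 (h k)
  have h2 : (⌈4 * L⌉ : ℝ) < 4 * L + 1 := Int.ceil_lt_add_one _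
  rw [abs_le]
  have h4 : (-(⌈4 * L⌉ + 1 : ℤ) : ℝ) ≤ τ k := by exact_mod_cast h1.1
  have h5 : (τ k : ℝ) ≤ ((⌈4 * L⌉ + 1 : ℤ) : ℝ) := by exact_mod_cast h1.2
  push_cast at h4 h5
  constructor <;> linarith

theorem TT_card {L : ℝ} (hL : 1 ≤ L) {Θ : Finset (Fin d → ℤ)} (h : Θ ⊆ TT d L) : (#Θ : ℝ) ≤ (13 * L) ^ d := by
  have h2 := A.overlap_card (L := 1) (c0 := 6 * L) one_pos (by positivity) Θ 0 fun τ hτ k => by
    have := TT_abs hL (h hτ) k
    simpa using this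
  exact h2.trans (pow_le_pow_left₀ (by positivity) (by linarith) d)

theorem en_Gc {L r : ℝ} {h : E d → ℂ} (hh : Bd r h) (τ : Fin d → ℤ) : en (A.Gc L h τ) ≤ en h := by
  refine integral_mono (A.Gc_bd hh τ).int_sq' hh.int_sq' fun ξ => ?_
  exact pow_le_pow_left₀ (norm_nonneg _) (norm_indicator_le_norm_self _ _) 2

theorem en_pc {L r : ℝ} (hL : 0 < L) {B : Set (E d)} (hB : MeasurableSet B) (hB2 : Bornology.IsBounded B)
    {G : E d → ℂ} (hG : Bd r G) : en (A.pc L B G) ≤ ee (A.W L B) G := by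
  have hp := A.pc_bd hL hB hB2 hG
  unfold en ee
  rw [← hp.planch]
  have hi : Integrable fun x => A.W L B x * ‖evo G x 0 0‖ ^ 2 := by
    have h1 := hG.int_sq.bdd_mul (c := 1) (A.continuous_W hL hB hB2).aestronglyMeasurable
      (Filter.Eventually.of_forall fun x => by
        rw [Real.norm_of_nonneg (A.W_nonneg _ _)]; exact A.W_le_one hL _ _)
    simpa only [A.inv_eq_evo] using h1
  refine integral_mono hp.int_sq hi fun x => ?_
  simp only
  rw [A.inv_pc hL hB hB2 hG.integrable, norm_mul, mul_pow, A.inv_eq_evo, Complex.norm_real,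
    Real.norm_of_nonneg (A.W_nonneg _ _)]
  refine mul_le_mul_of_nonneg_right ?_ (by positivity)
  have h0 := A.W_nonneg (L := L) B x
  have h1 := A.W_le_one hL B x
  nlinarith

/-- the centre of the tube at time zero -/
theorem centre {l L t : ℝ} (hl : 1 ≤ l) (hL : 1 ≤ L) {x : E d} {Q τ : Fin d → ℤ} {β : ℤ} (hx : cb (l ^ 2) x = Q)
    (ht : ⌊t / l ^ 2⌋ = β) (hτ : τ ∈ TT d L) (k : Fin d) :
    |x k - t * τ k / L - l ^ 2 * ((Q - sh L β τ) k : ℤ)| ≤ 7 * l ^ 2 := by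
  have hl2 : 0 < l ^ 2 := by positivity
  have hL0 : 0 < L := by linarith
  have a1 : (Q k : ℝ) ≤ x k / l ^ 2 := by rw [← hx]; exact Int.floor_le _
  have a2 : x k / l ^ 2 < Q k + 1 := by rw [← hx]; exact Int.lt_floor_add_one _
  have a3 : (β : ℝ) ≤ t / l ^ 2 := by rw [← ht]; exact Int.floor_le _
  have a4 : t / l ^ 2 < β + 1 := by rw [← ht]; exact Int.lt_floor_add_one _
  have a5 : (sh L β τ k : ℝ) ≤ β * τ k / L := Int.floor_le _
  have a6 : (β : ℝ) * τ k / L < sh L β τ k + 1 := Int.lt_floor_add_one _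
  have a7 : |(τ k : ℝ) / L| ≤ 6 := by
    rw [abs_div, abs_of_pos hL0, div_le_iff₀ hL0]
    exact TT_abs hL hτ k
  have a8 : |(t / l ^ 2 - β) * (τ k / L)| ≤ 6 := by
    rw [abs_mul, abs_of_nonneg (by linarith)]
    calc (t / l ^ 2 - β) * |(τ k : ℝ) / L| ≤ 1 * 6 := mul_le_mul (by linarith) a7 (abs_nonneg _) (by norm_num)
      _ = 6 := by norm_num
  have e : x k - t * τ k / L - l ^ 2 * ((Q - sh L β τ) k : ℤ) =
      l ^ 2 * ((x k / l ^ 2 - Q k) - (β * τ k / L - sh L β τ k) - (t / l ^ 2 - β) * (τ k / L)) := by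
    simp only [Pi.sub_apply]
    push_cast
    field_simp
    ring
  rw [e, abs_mul, abs_of_pos hl2, mul_comm]
  refine mul_le_mul_of_nonneg_right ?_ hl2.le
  rw [abs_le] at a8 ⊢
  constructor <;> linarith [a8.1, a8.2]

/-- the tail of one piece -/
theorem tail (d M : ℕ) : ∃ C : ℝ, 0 ≤ C ∧ ∀ (l u : ℝ) (h : E d → ℂ) (τ Q : Fin d → ℤ) (β : ℤ) (x : E d) (t : ℝ),
    1 ≤ u → u * u ≤ l → Bd 2 h → τ ∈ TT d (u * u) → 0 ≤ β → (β : ℝ) ≤ u → cb (l ^ 2) x = Q → ⌊t / l ^ 2⌋ = β →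
      ‖evo (fun ξ => A.Gc (u * u) h τ ξ - A.pc (u * u) (box l (Q - sh (u * u) β τ)) (A.Gc (u * u) h τ) ξ) x t 0‖ ^ 2 ≤
        C * l ^ (3 * d) * (u ^ M)⁻¹ * en h := by
  obtain ⟨C0, hC0, K⟩ := P076T.kernel_asm_all d M 2 (Nat.cast_nonneg M)
  obtain ⟨C1, hC1, T⟩ := A.W_tail d M
  refine ⟨C0 * 3 ^ d * (C1 + 3 ^ M), by positivity, ?_⟩
  intro l u h τ Q β x t hu hul hh hτ hβ0 hβ hx ht
  set L := u * u with hLdef
  have hL : 1 ≤ L := by rw [hLdef]; nlinarith
  have hL0 : 0 < L := by linarith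
  have hl : 1 ≤ l := hL.trans hul
  have hu0 : 0 < u := by linarith
  have hl2 : 0 < l ^ 2 := by positivity
  have hul' : u ≤ l := by nlinarith
  set B := box l (Q - sh L β τ) with hBdef
  have hB := box_meas l (Q - sh L β τ)
  have hB2 := box_bdd l (Q - sh L β τ)
  have hG := A.Gc_bd (L := L) hh τ
  have hP := A.pc_bd hL0 hB hB2 hG
  set G := A.Gc L h τ with hGdef
  have hH : Bd (2 + 1 / L) fun ξ => G ξ - A.pc L B G ξ := by
    have := (hG.mono (r' := 2 + 1 / L) (le_add_of_nonneg_right (by positivity))).add hP.neg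
    have e : (fun ξ => G ξ - A.pc L B G ξ) = fun ξ => G ξ + -A.pc L B G ξ := by ext ξ; ring
    rw [e]
    exact this
  set η0 : E d := WithLp.toLp 2 fun k => (τ k : ℝ) / (2 * L) with hη0
  have hs : ∀ ξ, G ξ - A.pc L B G ξ ≠ 0 → ∀ k, |ξ k - η0 k| ≤ 2 / L := by
    intro ξ hξ k
    have h1 : |2 * ξ k - τ k / L| ≤ 3 / L := by
      by_cases h2 : A.pc L B G ξ = 0
      · have h3 : ξ ∈ A.cel L τ := by
          by_contra hn
          exact hξ (by rw [h2, sub_zero]; exact Set.indicator_of_notMem hn _)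
        exact (A.cel_near hL0 h3 k).trans (by gcongr; norm_num)
      · exact A.pc_cell hL0 hB hB2 h2 k
    have h4 : ξ k - η0 k = (2 * ξ k - τ k / L) / 2 := by
      simp only [hη0]
      field_simp
    rw [h4, abs_div, abs_of_pos (by norm_num : (0 : ℝ) < 2)]
    have h5 : 3 / L / 2 ≤ 2 / L := by
      rw [div_right_comm]; gcongr; norm_num
    exact (div_le_div_of_nonneg_right h1 (by norm_num)).trans h5
  have k1 := K L η0 _ hL0 hH.meas hH.bdd hs x t
  have b3 : (β : ℝ) ≤ t / l ^ 2 := by rw [← ht]; exact Int.floor_le _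
  have b4 : t / l ^ 2 < β + 1 := by rw [← ht]; exact Int.lt_floor_add_one _
  have hβ0' : (0 : ℝ) ≤ β := by exact_mod_cast hβ0
  have ht0 : 0 ≤ t := by
    have := (le_div_iff₀ hl2).1 b3
    nlinarith
  have ht1 : t ≤ 2 * u * l ^ 2 := by
    have := (div_lt_iff₀ hl2).1 b4
    nlinarith
  rw [abs_of_nonneg ht0] at k1
  have hS0 : 0 < L * (1 + t / L ^ 2) := by positivity
  have hS : L * (1 + t / L ^ 2) * u ≤ 3 * l ^ 2 := by
    have e : L * (1 + t / L ^ 2) * u = L * u + t / u := by rw [hLdef]; field_simp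
    have a1 : t / u ≤ 2 * l ^ 2 := by rw [div_le_iff₀ hu0]; nlinarith
    have a2 : L * u ≤ l ^ 2 := by rw [sq]; exact mul_le_mul hul hul' hu0.le (by linarith)
    rw [e]; linarith
  have hpre : (1 + t / L ^ 2) ^ d / L ^ d ≤ 3 ^ d * l ^ (3 * d) := by
    have a1 : t / L ^ 2 ≤ t := div_le_self ht0 (one_le_pow₀ hL)
    have a2 : 1 ≤ l ^ 3 := one_le_pow₀ hl
    have a3 : 2 * u * l ^ 2 ≤ 2 * l ^ 3 := by nlinarith
    calc (1 + t / L ^ 2) ^ d / L ^ d ≤ (1 + t / L ^ 2) ^ d := div_le_self (by positivity) (one_le_pow₀ hL)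
      _ ≤ (3 * l ^ 3) ^ d := pow_le_pow_left₀ (by positivity) (by linarith) d
      _ = 3 ^ d * l ^ (3 * d) := by rw [mul_pow, ← pow_mul]
  have huM : 0 < u ^ M := by positivity
  have hpt : ∀ y : E d, (1 - A.W L B y) ^ 2 * (1 + ‖x - y - (2 * t) • η0‖ / (L * (1 + t / L ^ 2))) ^ (-(M : ℝ)) ≤
      (C1 + 3 ^ M) * (u ^ M)⁻¹ := by
    intro y
    have w0 := A.W_nonneg (L := L) B y
    have w1 := A.W_le_one hL0 B y
    have v0 : 0 ≤ ‖x - y - (2 * t) • η0‖ / (L * (1 + t / L ^ 2)) := by positivity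
    by_cases hy : ∀ k, |y k - l ^ 2 * ((Q - sh L β τ) k : ℤ)| ≤ 8 * l ^ 2
    · have a1 := T L (l ^ 2) Bᶜ y hL0 hl2.le (fun z hz => ?_) hB.compl
      · rw [A.W_compl hL0 hB] at a1
        have a2 : u ≤ 1 + l ^ 2 / L := by
          have : l ≤ l ^ 2 / L := by rw [le_div_iff₀ hL0, sq]; exact mul_le_mul_of_nonneg_left hul (by linarith)
          linarith
        have a3 : ((1 + l ^ 2 / L) ^ M)⁻¹ ≤ (u ^ M)⁻¹ := inv_anti₀ huM (pow_le_pow_left₀ hu0.le a2 M)
        have a4 : (1 + ‖x - y - (2 * t) • η0‖ / (L * (1 + t / L ^ 2))) ^ (-(M : ℝ)) ≤ 1 :=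
          Real.rpow_le_one_of_one_le_of_nonpos (by linarith) (by simp)
        calc _ ≤ (1 - A.W L B y) * 1 := mul_le_mul (by nlinarith) a4 (by positivity) (by linarith)
          _ ≤ C1 * (u ^ M)⁻¹ := by rw [mul_one]; exact a1.trans (mul_le_mul_of_nonneg_left a3 hC1)
          _ ≤ _ := mul_le_mul_of_nonneg_right (le_add_of_nonneg_right (by positivity)) (by positivity)
      · have hz' : ¬ ∀ k, |z k - l ^ 2 * ((Q - sh L β τ) k : ℤ)| ≤ 9 * l ^ 2 := hz
        push Not at hz'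
        obtain ⟨k, hk⟩ := hz'
        have a1 := P076T.abs_apply_le (y - z) k
        have a2 : (y - z) k = y k - z k := rfl
        have a3 := abs_sub_le (z k) (y k) (l ^ 2 * ((Q - sh L β τ) k : ℤ))
        rw [a2, abs_sub_comm] at a1
        linarith [hy k]
    · push Not at hy
      obtain ⟨k, hk⟩ := hy
      have a1 := P076T.abs_apply_le (x - y - (2 * t) • η0) k
      have a2 : (x - y - (2 * t) • η0) k = (x k - t * τ k / L) - y k := by
        simp only [hη0, PiLp.sub_apply, PiLp.smul_apply, smul_eq_mul]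
        field_simp
        ring
      have a3 := centre hl hL hx ht hτ k
      have a4 := abs_sub_le (y k) (x k - t * τ k / L) (l ^ 2 * ((Q - sh L β τ) k : ℤ))
      rw [a2, abs_sub_comm] at a1
      have a5 : l ^ 2 ≤ ‖x - y - (2 * t) • η0‖ := by linarith
      have a6 : u / 3 ≤ 1 + ‖x - y - (2 * t) • η0‖ / (L * (1 + t / L ^ 2)) := by
        have : u / 3 ≤ ‖x - y - (2 * t) • η0‖ / (L * (1 + t / L ^ 2)) := by
          rw [le_div_iff₀ hS0]; linarith
        linarith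
      have a7 : (1 + ‖x - y - (2 * t) • η0‖ / (L * (1 + t / L ^ 2))) ^ (-(M : ℝ)) ≤ 3 ^ M * (u ^ M)⁻¹ := by
        refine (Real.rpow_le_rpow_of_nonpos (by positivity) a6 (by simp)).trans (le_of_eq ?_)
        rw [Real.rpow_neg (by positivity), Real.rpow_natCast, div_pow, inv_div, div_eq_mul_inv]
      calc _ ≤ 1 * (3 ^ M * (u ^ M)⁻¹) := mul_le_mul (by nlinarith) a7 (by positivity) (by norm_num)
        _ ≤ _ := by
          rw [one_mul]
          exact mul_le_mul_of_nonneg_right (le_add_of_nonneg_left hC1) (by positivity)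
  have hint : ∫ y : E d, ‖(𝓕⁻ (fun ξ => G ξ - A.pc L B G ξ) : E d → ℂ) y‖ ^ 2 *
      (1 + ‖x - y - (2 * t) • η0‖ / (L * (1 + t / L ^ 2))) ^ (-(M : ℝ)) ≤ (C1 + 3 ^ M) * (u ^ M)⁻¹ * en h := by
    refine le_trans ?_ (mul_le_mul_of_nonneg_left (en_Gc (L := L) hh τ) (by positivity))
    unfold en
    rw [← hG.planch, ← integral_const_mul]
    refine integral_mono_of_nonneg (Filter.Eventually.of_forall fun y => by positivity) (hG.int_sq.const_mul _)
      (Filter.Eventually.of_forall fun y => ?_)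
    simp only
    have e : (𝓕⁻ (fun ξ => G ξ - A.pc L B G ξ) : E d → ℂ) y = ((1 - A.W L B y : ℝ) : ℂ) * (𝓕⁻ G : E d → ℂ) y := by
      rw [A.inv_eq_evo, A.evo_sub hG.integrable hP.integrable, ← A.inv_eq_evo, ← A.inv_eq_evo,
        A.inv_pc hL0 hB hB2 hG.integrable]
      push_cast
      ring
    rw [e, norm_mul, mul_pow, Complex.norm_real, Real.norm_eq_abs, sq_abs, mul_right_comm]
    exact mul_le_mul_of_nonneg_right (hpt y) (by positivity)
  have hen : 0 ≤ en h := integral_nonneg fun _ => by positivity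
  calc _ ≤ _ := k1
    _ ≤ C0 * (3 ^ d * l ^ (3 * d)) * ((C1 + 3 ^ M) * (u ^ M)⁻¹ * en h) :=
        mul_le_mul (mul_le_mul_of_nonneg_left hpre hC0) hint (integral_nonneg fun y => by positivity) (by positivity)
    _ = _ := by ring

end Loc

open Loc in
/-- **[SL.LOC]** -/
theorem loc (d : ℕ) : LOC d := by
  intro η hη hη1 a
  obtain ⟨M, hM⟩ := exists_nat_ge (2 * ((a + 5 * d : ℕ) : ℝ) / η)
  obtain ⟨C, hC, T⟩ := tail d M
  refine ⟨7 ^ d + 13 ^ (2 * d) * C, by positivity, fun l hl => ?_⟩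
  have hl0 : 0 < l := by linarith
  set u := l ^ (η / 2) with hu
  have hu1 : 1 ≤ u := Real.one_le_rpow hl (by positivity)
  have hLu : l ^ η = u * u := by rw [hu, ← Real.rpow_add hl0, add_halves]
  have hul : u * u ≤ l := by
    rw [← hLu]
    calc l ^ η ≤ l ^ (1 : ℝ) := Real.rpow_le_rpow_of_exponent_le hl hη1
      _ = l := Real.rpow_one l
  have huM : l ^ (a + 5 * d) ≤ u ^ M := by
    rw [hu, ← Real.rpow_natCast, ← Real.rpow_natCast, ← Real.rpow_mul hl0.le]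
    refine Real.rpow_le_rpow_of_exponent_le hl ?_
    rw [div_le_iff₀ hη] at hM
    linarith
  rw [hLu]
  set L := u * u with hLdef
  have hL : 1 ≤ L := by rw [hLdef]; nlinarith
  have hL0 : 0 < L := by linarith
  refine ⟨fun Q => A.W L (box l Q), wt hL0 hl, fun h Θ Q β hh hΘ hβ0 hβ => ?_⟩
  set P : (Fin d → ℤ) → E d → ℂ := fun τ => A.pc L (box l (Q - sh L β τ)) (A.Gc L h τ) with hP
  have hPb : ∀ τ, Bd 3 (P τ) := fun τ => (A.pc_bd hL0 (box_meas _ _) (box_bdd _ _) (A.Gc_bd hh τ)).mono (by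
    have : 1 / L ≤ 1 := (div_le_one hL0).2 hL
    linarith)
  have hPc : ∀ τ ξ, P τ ξ ≠ 0 → ∀ k, |2 * ξ k - τ k / L| ≤ 3 / L := fun τ ξ hξ k =>
    A.pc_cell hL0 (box_meas _ _) (box_bdd _ _) hξ k
  have hen : 0 ≤ en h := integral_nonneg fun _ => by positivity
  refine ⟨fun ξ => ∑ τ ∈ Θ, P τ ξ, Bd.sum Θ fun τ _ => hPb τ, fun ξ hξ => ?_, ?_, fun x t hx ht => ?_⟩
  · obtain ⟨τ, hτ, hne⟩ := Finset.exists_ne_zero_of_sum_ne_zero hξ
    refine ⟨τ, hτ, fun k => ?_⟩
    have h1 := hPc τ ξ hne k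
    have h2 : 2 * L * ξ k - τ k = L * (2 * ξ k - τ k / L) := by field_simp
    rw [h2, abs_mul, abs_of_pos hL0]
    calc L * |2 * ξ k - τ k / L| ≤ L * (3 / L) := mul_le_mul_of_nonneg_left h1 hL0.le
      _ = 3 := by field_simp
  · have h1 := A.int_sq_sum_le (c0 := 3) hL0 (by norm_num) Θ P (fun τ _ => hPb τ) fun τ _ => hPc τ
    have h2 : ∑ τ ∈ Θ, ∫ ξ, ‖P τ ξ‖ ^ 2 ≤ eb L (fun Q => A.W L (box l Q)) h Q β Θ := by
      unfold eb
      refine Finset.sum_le_sum fun τ _ => ?_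
      rw [cut_one]
      exact en_pc hL0 (box_meas _ _) (box_bdd _ _) (A.Gc_bd hh τ)
    have h3 : 0 ≤ ∑ τ ∈ Θ, ∫ ξ, ‖P τ ξ‖ ^ 2 := Finset.sum_nonneg fun τ _ => integral_nonneg fun _ => by positivity
    refine h1.trans (mul_le_mul ?_ h2 h3 (by positivity))
    have : (0 : ℝ) ≤ 13 ^ (2 * d) * C := by positivity
    norm_num
    linarith
  · have e : evo (cut L Θ h) x t 0 - evo (fun ξ => ∑ τ ∈ Θ, P τ ξ) x t 0 =
        ∑ τ ∈ Θ, evo (fun ξ => A.Gc L h τ ξ - P τ ξ) x t 0 := by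
      rw [cut_sum, A.evo_sum Θ fun τ _ => (A.Gc_bd hh τ).integrable, A.evo_sum Θ fun τ _ => (hPb τ).integrable,
        ← Finset.sum_sub_distrib]
      exact Finset.sum_congr rfl fun τ _ => (A.evo_sub (A.Gc_bd hh τ).integrable (hPb τ).integrable x t).symm
    have hc : (#Θ : ℝ) ≤ (13 * l) ^ d := (TT_card hL hΘ).trans (pow_le_pow_left₀ (by positivity) (by linarith) d)
    set K := C * l ^ (3 * d) * (u ^ M)⁻¹ * en h with hK
    have hK0 : 0 ≤ K := by positivity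
    have h1 : ∑ τ ∈ Θ, ‖evo (fun ξ => A.Gc L h τ ξ - P τ ξ) x t 0‖ ^ 2 ≤ #Θ * K := by
      rw [← nsmul_eq_mul]
      exact Finset.sum_le_card_nsmul _ _ _ fun τ hτ => T l u h τ Q β x t hu1 hul hh (hΘ hτ) hβ0 hβ hx ht
    have h2 : K ≤ C * l ^ (3 * d) * (l ^ (a + 5 * d))⁻¹ * en h := by
      rw [hK]
      gcongr
    rw [e]
    calc _ ≤ (∑ τ ∈ Θ, ‖evo (fun ξ => A.Gc L h τ ξ - P τ ξ) x t 0‖) ^ 2 :=
          pow_le_pow_left₀ (norm_nonneg _) (norm_sum_le _ _) 2
      _ ≤ #Θ * (#Θ * K) := (sq_sum_le_card_mul_sum_sq).trans (mul_le_mul_of_nonneg_left h1 (by positivity))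
      _ ≤ (13 * l) ^ d * ((13 * l) ^ d * (C * l ^ (3 * d) * (l ^ (a + 5 * d))⁻¹ * en h)) := by gcongr
      _ = 13 ^ (2 * d) * C * (l ^ a)⁻¹ * en h := by
          rw [mul_pow, pow_add, show 5 * d = d + d + 3 * d by ring, pow_add, pow_add, two_mul, pow_add]
          field_simp
      _ ≤ _ := by
          refine mul_le_mul_of_nonneg_right (mul_le_mul_of_nonneg_right ?_ (by positivity)) hen
          exact le_add_of_nonneg_left (by positivity)

end

end Vale.Agent.P076N.SL
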