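import Vale.Agent.P076N.SL.Spec2
import Vale.Agent.P076N.SL.Loc

/-! # P076N / SL : the part of the data on a set of tubes (row SL.LOC2) -/

set_option linter.all false

open MeasureTheory Finset
open scoped FourierTransform

namespace Vale.Agent.P076N.SL

open Vale.Agent.P076 Vale.Agent.P076N

noncomputable section

variable {d : ℕ}

namespace Loc

theorem wt_of {L K : ℝ} (hL : 0 < L) {B : (Fin d → ℤ) → Set (E d)} (hB : ∀ Q, MeasurableSet (B Q))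
    (h : ∀ (J : Finset (Fin d → ℤ)) (z : E d), (∀ Q ∈ J, z ∈ B Q) → (#J : ℝ) ≤ K) : Wt K fun Q => A.W L (B Q) where
  meas := fun Q => A.measurable_W L _
  nn := fun Q x => A.W_nonneg _ x
  le1 := fun Q x => A.W_le_one hL _ x
  sum := fun J x => by
    classical
    have hi := A.integrable_mL_sub hL x
    have h1 : ∀ Q : Fin d → ℤ, A.W L (B Q) x = ∫ z, (B Q).indicator (fun z => A.mL L (x - z)) z := fun Q => by
      unfold A.W
      rw [integral_indicator (hB Q)]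
    simp only [h1]
    rw [← integral_finsetSum _ fun Q _ => hi.indicator (hB Q)]
    have h2 : K = ∫ z, K * A.mL L (x - z) := by
      rw [integral_const_mul, integral_sub_left_eq_self (A.mL L) volume x, A.integral_mL hL, mul_one]
    rw [h2]
    refine integral_mono (integrable_finsetSum _ fun Q _ => hi.indicator (hB Q)) (hi.const_mul _) fun z => ?_
    have h3 : ∀ Q : Fin d → ℤ, (B Q).indicator (fun z => A.mL L (x - z)) z =
        if z ∈ B Q then A.mL L (x - z) else 0 := fun Q => by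
      by_cases h : z ∈ B Q <;> simp [h]
    simp only [h3]
    rw [← Finset.sum_filter, Finset.sum_const, nsmul_eq_mul]
    exact mul_le_mul_of_nonneg_right (h _ z fun Q hQ => (Finset.mem_filter.1 hQ).2) (A.mL_nonneg _)

theorem wt_mono {K K' : ℝ} {ω : (Fin d → ℤ) → E d → ℝ} (h : Wt K ω) (hK : K ≤ K') : Wt K' ω :=
  ⟨h.meas, h.nn, h.le1, fun J x => (h.sum J x).trans hK⟩

theorem cb_meas (T : ℝ) (s : Set (Fin d → ℤ)) : MeasurableSet {z : E d | cb T z ∈ s} := by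
  have h : Measurable (cb T : E d → Fin d → ℤ) := measurable_pi_lambda _ fun k =>
    Int.measurable_floor.comp ((EuclideanSpace.proj k : E d →L[ℝ] ℝ).measurable.div_const T)
  exact h (Set.to_countable s).measurableSet

/-- the union of the cubes near the cube `Q` -/
def nb (T : ℝ) (Q : Fin d → ℤ) : Set (E d) := {z | ∀ k, |cb T z k - Q k| ≤ 100 * d + 3}

theorem nb_meas (T : ℝ) (Q : Fin d → ℤ) : MeasurableSet (nb T Q) :=
  cb_meas T {Q0 | ∀ k, |Q0 k - Q k| ≤ 100 * d + 3}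

theorem nb_wt {L : ℝ} (hL : 0 < L) (T : ℝ) : Wt ((200 * d + 7) ^ d) fun Q : Fin d → ℤ => A.W L (nb T Q) := by
  refine wt_of hL (nb_meas T) fun J z hz => ?_
  have h2 := A.overlap_card (L := 1) (c0 := 100 * d + 3) one_pos (by positivity) J
    (WithLp.toLp 2 fun k => (cb T z k : ℝ) / 2) fun Q hQ k => by
      have h3 : ((|cb T z k - Q k| : ℤ) : ℝ) ≤ ((100 * d + 3 : ℤ) : ℝ) := by exact_mod_cast hz Q hQ k
      push_cast at h3
      simp only [div_one]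
      rw [mul_div_cancel₀ _ (two_ne_zero)]
      exact h3
  refine h2.trans (le_of_eq ?_)
  ring

theorem int_ee {L r : ℝ} (hL : 0 < L) (B : Set (E d)) {G : E d → ℂ} (hG : Bd r G) :
    Integrable fun x => A.W L B x * ‖evo G x 0 0‖ ^ 2 := by
  have h1 := hG.int_sq.bdd_mul (c := 1) (A.measurable_W L B).aestronglyMeasurable
    (Filter.Eventually.of_forall fun x => by
      rw [Real.norm_of_nonneg (A.W_nonneg _ _)]; exact A.W_le_one hL _ _)
  simpa only [A.inv_eq_evo] using h1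

theorem en_pc_le {L r : ℝ} (hL : 0 < L) {B B' : Set (E d)} (hB : MeasurableSet B) (hB2 : Bornology.IsBounded B)
    (hs : B ⊆ B') {G : E d → ℂ} (hG : Bd r G) : en (A.pc L B G) ≤ ee (A.W L B') G :=
  (en_pc hL hB hB2 hG).trans (integral_mono (int_ee hL B hG) (int_ee hL B' hG) fun x =>
    mul_le_mul_of_nonneg_right (A.W_mono hL hs x) (by positivity))

theorem ee_univ {L r : ℝ} (hL : 0 < L) {G : E d → ℂ} (hG : Bd r G) : ee (A.W L Set.univ) G = en G := by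
  unfold ee en
  rw [← hG.planch]
  simp only [A.W_univ hL, one_mul, A.inv_eq_evo]

theorem Gc_eq (L : ℝ) (h : E d → ℂ) (τ : Fin d → ℤ) (ξ : E d) : A.Gc L h τ ξ = if cel L ξ = τ then h ξ else 0 := by
  rw [← cut_one]
  unfold cut
  by_cases hx : cel L ξ = τ <;> simp [hx]

theorem sum_en {L r : ℝ} {h : E d → ℂ} (hh : Bd r h) (Θ : Finset (Fin d → ℤ)) :
    ∑ τ ∈ Θ, en (A.Gc L h τ) ≤ en h := by
  unfold en
  rw [← integral_finsetSum _ fun τ _ => (A.Gc_bd hh τ).int_sq']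
  refine integral_mono (integrable_finsetSum _ fun τ _ => (A.Gc_bd hh τ).int_sq') hh.int_sq' fun ξ => ?_
  have h1 : ∀ τ, ‖A.Gc L h τ ξ‖ ^ 2 = if cel L ξ = τ then ‖h ξ‖ ^ 2 else 0 := fun τ => by
    rw [Gc_eq]
    split_ifs <;> simp
  simp only [h1]
  rw [Finset.sum_ite_eq]
  split_ifs
  · exact le_rfl
  · positivity

theorem sum_all {L : ℝ} (hL : 0 < L) {h : E d → ℂ} (hh : Bd 2 h) : h = fun ξ => ∑ τ ∈ TT d L, A.Gc L h τ ξ := by
  ext ξ
  simp only [Gc_eq]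
  rw [Finset.sum_ite_eq]
  split_ifs with hx
  · rfl
  · by_contra h0
    refine hx ?_
    unfold TT
    rw [Fintype.mem_piFinset]
    intro k
    have h1 := abs_le.1 ((A.abs_apply_le ξ k).trans (hh.supp ξ h0))
    have h4 : 2 * L * ξ k ≤ 4 * L := by nlinarith
    have h5 : -(4 * L) ≤ 2 * L * ξ k := by nlinarith
    rw [Finset.mem_Icc]
    constructor
    · refine Int.le_floor.2 ?_
      push_cast
      linarith [Int.le_ceil (4 * L)]
    · have h6 : ⌊2 * L * ξ k⌋ ≤ ⌊4 * L⌋ := Int.floor_le_floor h4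
      have h7 : ⌊4 * L⌋ ≤ ⌈4 * L⌉ := Int.floor_le_ceil _
      exact h6.trans (h7.trans (by linarith))

theorem pc_empty (L : ℝ) (G : E d → ℂ) (ξ : E d) : A.pc L ∅ G ξ = 0 := by
  have h : (𝓕 (A.Wc L (∅ : Set (E d))) : E d → ℂ) = 0 := by
    ext η
    rw [Real.fourier_eq]
    simp [A.Wc, A.W_empty]
  unfold A.pc
  rw [h, zero_convolution]
  rfl

theorem bd_sub {r : ℝ} {G H : E d → ℂ} (hG : Bd r G) (hH : Bd r H) : Bd r fun ξ => G ξ - H ξ := by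
  simpa only [sub_eq_add_neg] using hG.add hH.neg

theorem inv_sub {G H : E d → ℂ} (hG : Integrable G) (hH : Integrable H) (y : E d) :
    (𝓕⁻ (fun ξ => G ξ - H ξ) : E d → ℂ) y = (𝓕⁻ G : E d → ℂ) y - (𝓕⁻ H : E d → ℂ) y := by
  rw [A.inv_eq_evo, A.evo_sub hG hH, ← A.inv_eq_evo, ← A.inv_eq_evo]

theorem far (d M : ℕ) : ∃ C : ℝ, 0 ≤ C ∧ ∀ (L ρ u : ℝ) (B : Set (E d)) (y : E d), 0 < L → 0 < u → L * u ≤ ρ →
    (∀ z ∈ B, ∃ k, ρ ≤ |z k - y k|) → MeasurableSet B → A.W L B y ≤ C * (u ^ M)⁻¹ := by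
  obtain ⟨C, hC, T⟩ := A.W_tail d M
  refine ⟨C, hC, fun L ρ u B y hL hu hρ h hB => ?_⟩
  refine (T L ρ B y hL (le_trans (by positivity) hρ) (fun z hz => ?_) hB).trans
    (mul_le_mul_of_nonneg_left (inv_anti₀ (by positivity) (pow_le_pow_left₀ hu.le ?_ M)) hC)
  · obtain ⟨k, hk⟩ := h z hz
    rw [abs_sub_comm] at hk
    exact hk.trans (A.abs_apply_le (y - z) k)
  · have : u ≤ ρ / L := (le_div_iff₀' hL).2 hρ
    linarith

/-- the tail of one piece -/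
theorem tail2 (d M : ℕ) : ∃ C : ℝ, 0 ≤ C ∧ ∀ (l u L ρ ε r r' : ℝ) (G H : E d → ℂ) (w : E d → ℝ) (τ : Fin d → ℤ)
    (x : E d) (t : ℝ), 1 ≤ l → 0 < u → 1 ≤ L → 0 ≤ t → t ≤ l ^ 3 → (L + t / L) * u ≤ 3 * ρ → 0 ≤ ε → Bd r G →
    Bd r' H → (∀ ξ, H ξ ≠ 0 → ∀ k, |2 * ξ k - τ k / L| ≤ 3 / L) →
    (∀ y, (𝓕⁻ H : E d → ℂ) y = (w y : ℝ) * (𝓕⁻ G : E d → ℂ) y) → (∀ y, 0 ≤ w y ∧ w y ≤ 1) →
    (∀ y : E d, (∀ k, |y k - (x k - t * τ k / L)| ≤ ρ) → w y ≤ ε * (u ^ M)⁻¹) →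
      ‖evo H x t 0‖ ^ 2 ≤ C * l ^ (3 * d) * ((ε + 3 ^ M) * (u ^ M)⁻¹ * en G) := by
  obtain ⟨C0, hC0, K⟩ := P076T.kernel_asm_all d M 2 (Nat.cast_nonneg M)
  refine ⟨C0 * 2 ^ d, by positivity, ?_⟩
  intro l u L ρ ε r r' G H w τ x t hl hu0 hL ht0 ht1 hS hε hG hH hc hw hw1 hw2
  have hL0 : 0 < L := by linarith
  set η0 : E d := WithLp.toLp 2 fun k => (τ k : ℝ) / (2 * L) with hη0
  have hs : ∀ ξ, H ξ ≠ 0 → ∀ k, |ξ k - η0 k| ≤ 2 / L := by
    intro ξ hξ k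
    have h4 : ξ k - η0 k = (2 * ξ k - τ k / L) / 2 := by
      simp only [hη0]
      field_simp
    rw [h4, abs_div, abs_of_pos (by norm_num : (0 : ℝ) < 2)]
    have h5 : 3 / L / 2 ≤ 2 / L := by
      rw [div_right_comm]; gcongr; norm_num
    exact (div_le_div_of_nonneg_right (hc ξ hξ k) (by norm_num)).trans h5
  have k1 := K L η0 _ hL0 hH.meas hH.bdd hs x t
  have e0 : L * (1 + t / L ^ 2) = L + t / L := by field_simp
  rw [abs_of_nonneg ht0, e0] at k1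
  have hS0 : 0 < L + t / L := by positivity
  have hpre : (1 + t / L ^ 2) ^ d / L ^ d ≤ 2 ^ d * l ^ (3 * d) := by
    have a1 : t / L ^ 2 ≤ t := div_le_self ht0 (one_le_pow₀ hL)
    have a2 : 1 ≤ l ^ 3 := one_le_pow₀ hl
    calc (1 + t / L ^ 2) ^ d / L ^ d ≤ (1 + t / L ^ 2) ^ d := div_le_self (by positivity) (one_le_pow₀ hL)
      _ ≤ (2 * l ^ 3) ^ d := pow_le_pow_left₀ (by positivity) (by linarith) d
      _ = 2 ^ d * l ^ (3 * d) := by rw [mul_pow, ← pow_mul]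
  have huM : 0 < u ^ M := by positivity
  have hpt : ∀ y : E d, w y ^ 2 * (1 + ‖x - y - (2 * t) • η0‖ / (L + t / L)) ^ (-(M : ℝ)) ≤
      (ε + 3 ^ M) * (u ^ M)⁻¹ := by
    intro y
    obtain ⟨w0, w1⟩ := hw1 y
    have v0 : 0 ≤ ‖x - y - (2 * t) • η0‖ / (L + t / L) := by positivity
    by_cases hy : ∀ k, |y k - (x k - t * τ k / L)| ≤ ρ
    · have a4 : (1 + ‖x - y - (2 * t) • η0‖ / (L + t / L)) ^ (-(M : ℝ)) ≤ 1 :=
        Real.rpow_le_one_of_one_le_of_nonpos (by linarith) (by simp)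
      calc _ ≤ w y * 1 := mul_le_mul (by nlinarith) a4 (by positivity) w0
        _ ≤ ε * (u ^ M)⁻¹ := by rw [mul_one]; exact hw2 y hy
        _ ≤ _ := mul_le_mul_of_nonneg_right (le_add_of_nonneg_right (by positivity)) (by positivity)
    · push Not at hy
      obtain ⟨k, hk⟩ := hy
      have a1 := A.abs_apply_le (x - y - (2 * t) • η0) k
      have a2 : (x - y - (2 * t) • η0) k = (x k - t * τ k / L) - y k := by
        simp only [hη0, PiLp.sub_apply, PiLp.smul_apply, smul_eq_mul]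
        field_simp
        ring
      rw [a2, abs_sub_comm] at a1
      have a6 : u / 3 ≤ 1 + ‖x - y - (2 * t) • η0‖ / (L + t / L) := by
        have : u / 3 ≤ ‖x - y - (2 * t) • η0‖ / (L + t / L) := by
          rw [le_div_iff₀ hS0]; linarith
        linarith
      have a7 : (1 + ‖x - y - (2 * t) • η0‖ / (L + t / L)) ^ (-(M : ℝ)) ≤ 3 ^ M * (u ^ M)⁻¹ := by
        refine (Real.rpow_le_rpow_of_nonpos (by positivity) a6 (by simp)).trans (le_of_eq ?_)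
        rw [Real.rpow_neg (by positivity), Real.rpow_natCast, div_pow, inv_div, div_eq_mul_inv]
      calc _ ≤ 1 * (3 ^ M * (u ^ M)⁻¹) := mul_le_mul (by nlinarith) a7 (by positivity) (by norm_num)
        _ ≤ _ := by
          rw [one_mul]
          exact mul_le_mul_of_nonneg_right (le_add_of_nonneg_left hε) (by positivity)
  have hint : ∫ y : E d, ‖(𝓕⁻ H : E d → ℂ) y‖ ^ 2 * (1 + ‖x - y - (2 * t) • η0‖ / (L + t / L)) ^ (-(M : ℝ)) ≤
      (ε + 3 ^ M) * (u ^ M)⁻¹ * en G := by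
    unfold en
    rw [← hG.planch, ← integral_const_mul]
    refine integral_mono_of_nonneg (Filter.Eventually.of_forall fun y => by positivity) (hG.int_sq.const_mul _)
      (Filter.Eventually.of_forall fun y => ?_)
    simp only
    rw [hw, norm_mul, mul_pow, Complex.norm_real, Real.norm_eq_abs, sq_abs, mul_right_comm]
    exact mul_le_mul_of_nonneg_right (hpt y) (by positivity)
  have hen : 0 ≤ en G := integral_nonneg fun _ => by positivity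
  calc _ ≤ _ := k1
    _ ≤ C0 * (2 ^ d * l ^ (3 * d)) * ((ε + 3 ^ M) * (u ^ M)⁻¹ * en G) :=
        mul_le_mul (mul_le_mul_of_nonneg_left hpre hC0) hint (integral_nonneg fun y => by positivity) (by positivity)
    _ = _ := by ring

theorem sum_sq {l L K : ℝ} (hL : 1 ≤ L) (hl : L ≤ l) (hK : 0 ≤ K) {z : (Fin d → ℤ) → ℂ}
    (h : ∀ τ ∈ TT d L, ‖z τ‖ ^ 2 ≤ K) : ‖∑ τ ∈ TT d L, z τ‖ ^ 2 ≤ 13 ^ (2 * d) * l ^ (2 * d) * K := by
  have hc : (#(TT d L) : ℝ) ≤ (13 * l) ^ d :=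
    (TT_card hL Finset.Subset.rfl).trans (pow_le_pow_left₀ (by positivity) (by linarith) d)
  have h1 : ∑ τ ∈ TT d L, ‖z τ‖ ^ 2 ≤ #(TT d L) * K := by
    rw [← nsmul_eq_mul]
    exact Finset.sum_le_card_nsmul _ _ _ h
  have hl0 : 0 ≤ l := by linarith
  calc _ ≤ (∑ τ ∈ TT d L, ‖z τ‖) ^ 2 := pow_le_pow_left₀ (norm_nonneg _) (norm_sum_le _ _) 2
    _ ≤ #(TT d L) * (#(TT d L) * K) := (sq_sum_le_card_mul_sum_sq).trans (mul_le_mul_of_nonneg_left h1 (by positivity))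
    _ ≤ (13 * l) ^ d * ((13 * l) ^ d * K) := by gcongr
    _ = _ := by rw [mul_pow, two_mul, pow_add, pow_add]; ring

/-- the complement of the union of the near cubes is far from the tube -/
theorem nb_far {T L : ℝ} (hT : 0 < T) {q : (Fin d → ℤ) × ℤ} {τ : Fin d → ℤ} {x y z : E d}
    (hx : x ∈ Metric.ball (cor T q).1 (100 * d * T)) (hy : ∀ k, |y k - (x k - T * q.2 * τ k / L)| ≤ T)
    (hz : z ∉ nb T (q.1 - sh L q.2 τ)) : ∃ k, T ≤ |z k - y k| := by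
  have hz' : ¬ ∀ k, |cb T z k - (q.1 - sh L q.2 τ) k| ≤ 100 * d + 3 := hz
  push Not at hz'
  obtain ⟨k, hk⟩ := hz'
  refine ⟨k, ?_⟩
  have a0 : ((100 * d + 3 + 1 : ℤ) : ℝ) ≤ ((|cb T z k - (q.1 - sh L q.2 τ) k| : ℤ) : ℝ) := by exact_mod_cast hk
  simp only [Pi.sub_apply] at a0
  push_cast at a0
  have a1 : |x k - T * q.1 k| ≤ 100 * d * T :=
    (A.abs_apply_le (x - (cor T q).1) k).trans (mem_ball_iff_norm.1 hx).le
  have a2 : (cb T z k : ℝ) ≤ z k / T := Int.floor_le _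
  have a3 : z k / T < cb T z k + 1 := Int.lt_floor_add_one _
  have a5 : (sh L q.2 τ k : ℝ) ≤ q.2 * τ k / L := Int.floor_le _
  have a6 : (q.2 : ℝ) * τ k / L < sh L q.2 τ k + 1 := Int.lt_floor_add_one _
  rw [le_div_iff₀ hT] at a2
  rw [div_lt_iff₀ hT] at a3
  have b := hy k
  have e : T * q.2 * τ k / L = T * (q.2 * τ k / L) := by ring
  rw [e] at b
  have a7 := mul_le_mul_of_nonneg_left a5 hT.le
  have a8 := mul_le_mul_of_nonneg_left a6.le hT.le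
  have a9 := mul_le_mul_of_nonneg_left a0 hT.le
  rw [← abs_of_pos hT, ← abs_mul, abs_of_pos hT] at a9
  by_contra hn
  rw [not_le, abs_lt] at hn
  rw [abs_le] at a1 b
  rcases le_abs.1 a9 with h | h <;> nlinarith [a1.1, a1.2, b.1, b.2, hn.1, hn.2]

/-- the bound `X` holds for the sums of tails at the times up to `t1` -/
def Pc (L T t1 X : ℝ) (h : E d → ℂ) : Prop := ∀ (H : (Fin d → ℤ) → E d → ℂ) (B : (Fin d → ℤ) → Set (E d)) (x : E d)
  (t ρ : ℝ), T ≤ ρ → 0 ≤ t → t ≤ t1 → (∀ τ, Bd 3 (H τ)) → (∀ τ ξ, H τ ξ ≠ 0 → ∀ k, |2 * ξ k - τ k / L| ≤ 3 / L) →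
  (∀ τ, MeasurableSet (B τ)) →
  (∀ τ y, (𝓕⁻ (H τ) : E d → ℂ) y = (A.W L (B τ) y : ℝ) * (𝓕⁻ (A.Gc L h τ) : E d → ℂ) y) →
  (∀ τ ∈ TT d L, ∀ y z : E d, (∀ k, |y k - (x k - t * τ k / L)| ≤ ρ) → z ∈ B τ → ∃ k, ρ ≤ |z k - y k|) →
  ‖∑ τ ∈ TT d L, evo (H τ) x t 0‖ ^ 2 ≤ X

theorem pieces (d : ℕ) {η : ℝ} (hη : 0 < η) (hη1 : η ≤ 1 / 2) (a : ℕ) : ∃ D : ℝ, 0 ≤ D ∧ ∀ (l T L : ℝ) (h : E d → ℂ),
    1 ≤ l → T = l ^ (2 - η) → L = l ^ (2 * η) → Bd 2 h → Pc L T (l ^ (2 + η / 2)) (D * (l ^ a)⁻¹ * en h) h := by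
  obtain ⟨M, hM⟩ := exists_nat_ge (2 * ((a + 5 * d : ℕ) : ℝ) / η)
  obtain ⟨C0, hC0, K⟩ := tail2 d M
  obtain ⟨C1, hC1, F⟩ := far d M
  refine ⟨13 ^ (2 * d) * C0 * (C1 + 3 ^ M), by positivity, ?_⟩
  intro l T L h hl hT hL hh H B x t ρ hρ t0 t1 hH hc hB hw hf
  have hl0 : 0 < l := by linarith
  obtain ⟨u, hu⟩ : ∃ u, u = l ^ (η / 2) := ⟨_, rfl⟩
  have u0 : 0 < u := by rw [hu]; positivity
  have L1 : 1 ≤ L := by rw [hL]; exact Real.one_le_rpow hl (by positivity)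
  have L0 : 0 < L := by linarith
  have Ll : L ≤ l := by
    rw [hL]
    exact (Real.rpow_le_rpow_of_exponent_le hl (by linarith)).trans (Real.rpow_one l).le
  have LuT : L * u ≤ T := by
    rw [hL, hu, hT, ← Real.rpow_add hl0]
    exact Real.rpow_le_rpow_of_exponent_le hl (by linarith)
  have t3 : l ^ (2 + η / 2) ≤ l ^ 3 :=
    (Real.rpow_le_rpow_of_exponent_le hl (by push_cast; linarith)).trans (Real.rpow_natCast l 3).le
  have tu : (L + t / L) * u ≤ 3 * ρ := by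
    have a1 : l ^ (2 + η / 2) * u = T * L := by
      rw [hu, hT, hL, ← Real.rpow_add hl0, ← Real.rpow_add hl0]
      congr 1
      ring
    have a2 : t / L * u ≤ T := by
      rw [div_mul_eq_mul_div, div_le_iff₀ L0, ← a1]
      exact mul_le_mul_of_nonneg_right t1 u0.le
    have a3 := mul_pos L0 u0
    rw [add_mul]
    linarith
  have huM : (u ^ M)⁻¹ ≤ (l ^ (a + 5 * d))⁻¹ := by
    refine inv_anti₀ (by positivity) ?_
    rw [hu, ← Real.rpow_natCast, ← Real.rpow_natCast, ← Real.rpow_mul hl0.le]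
    refine Real.rpow_le_rpow_of_exponent_le hl ?_
    rw [div_le_iff₀ hη] at hM
    linarith
  have hen : 0 ≤ en h := integral_nonneg fun _ => by positivity
  refine (sum_sq L1 Ll (K := C0 * l ^ (3 * d) * ((C1 + 3 ^ M) * (l ^ (a + 5 * d))⁻¹ * en h)) (by positivity)
    fun τ hτ => (K l u L ρ C1 2 3 _ _ (A.W L (B τ)) τ x t hl u0 L1 t0 (t1.trans t3) tu hC1 (A.Gc_bd hh τ) (hH τ)
      (hc τ) (hw τ) (fun y => ⟨A.W_nonneg _ _, A.W_le_one L0 _ _⟩)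
      fun y hy => F L ρ u _ y L0 u0 (LuT.trans hρ) (fun z hz => hf τ hτ y z hy hz) (hB τ)).trans ?_).trans (le_of_eq ?_)
  · have := en_Gc (L := L) hh τ
    have : 0 ≤ en (A.Gc L h τ) := integral_nonneg fun _ => by positivity
    gcongr
  · rw [show a + 5 * d = a + 2 * d + 3 * d by ring, pow_add _ _ (3 * d), pow_add _ _ (2 * d)]
    field_simp

variable {L T σ t1 X : ℝ} {h : E d → ℂ}

theorem bd3 (L1 : 1 ≤ L) (hh : Bd 2 h) (τ : Fin d → ℤ) {B : Set (E d)} (h1 : MeasurableSet B)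
    (h2 : Bornology.IsBounded B) : Bd 3 (A.pc L B (A.Gc L h τ)) :=
  (A.pc_bd (by linarith) h1 h2 (A.Gc_bd hh τ)).mono (by linarith [(div_le_one (by linarith : 0 < L)).2 L1])

theorem en_sum (L1 : 1 ≤ L) (hh : Bd 2 h) (Θ : Finset (Fin d → ℤ)) {B B' : (Fin d → ℤ) → Set (E d)}
    (h1 : ∀ τ, MeasurableSet (B τ)) (h2 : ∀ τ, Bornology.IsBounded (B τ)) (h3 : ∀ τ, B τ ⊆ B' τ) {C : ℝ}
    (hC : 7 ^ d ≤ C) (hX : ∑ τ ∈ Θ, ee (A.W L (B' τ)) (A.Gc L h τ) ≤ X) :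
    en (fun ξ => ∑ τ ∈ Θ, A.pc L (B τ) (A.Gc L h τ) ξ) ≤ C * X := by
  have L0 : 0 < L := by linarith
  have a1 := A.int_sq_sum_le (c0 := 3) L0 (by norm_num) Θ (fun τ => A.pc L (B τ) (A.Gc L h τ))
    (fun τ _ => bd3 L1 hh τ (h1 τ) (h2 τ)) fun τ _ ξ hξ k => A.pc_cell L0 (h1 τ) (h2 τ) hξ k
  refine a1.trans (mul_le_mul ?_
    ((Finset.sum_le_sum fun τ _ => en_pc_le L0 (h1 τ) (h2 τ) (h3 τ) (A.Gc_bd hh τ)).trans hX)
    (Finset.sum_nonneg fun τ _ => integral_nonneg fun _ => by positivity) (le_trans (by positivity) hC))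
  norm_num
  exact hC

theorem partA (L1 : 1 ≤ L) (σ1 : 1 ≤ σ) (hT : T ≤ σ ^ 2) (hh : Bd 2 h) (hp : Pc L T t1 X h) {Q : Fin d → ℤ} {β : ℤ}
    {B B' : (Fin d → ℤ) → Set (E d)} (h1 : ∀ τ, MeasurableSet (B τ)) (h2 : ∀ τ, MeasurableSet (B' τ))
    (h3 : ∀ τ, Disjoint (B τ) (B' τ)) (h4 : ∀ τ, B τ ∪ B' τ = box σ (Q - sh L β τ)) {x : E d} {t : ℝ}
    (hx : cb (σ ^ 2) x = Q) (ht : ⌊t / σ ^ 2⌋ = β) (t0 : 0 ≤ t) (ht1 : t ≤ t1) :
    ‖evo h x t 0 - evo (fun ξ => ∑ τ ∈ TT d L, A.pc L (B τ) (A.Gc L h τ) ξ) x t 0 -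
      evo (fun ξ => ∑ τ ∈ TT d L, A.pc L (B' τ) (A.Gc L h τ) ξ) x t 0‖ ^ 2 ≤ X := by
  have L0 : 0 < L := by linarith
  have b0 : ∀ τ, Bornology.IsBounded (B τ ∪ B' τ) := fun τ => h4 τ ▸ box_bdd _ _
  have b1 := fun τ => (b0 τ).subset Set.subset_union_left
  have b2 := fun τ => (b0 τ).subset Set.subset_union_right
  have hG := fun τ => A.Gc_bd (L := L) hh τ
  have i1 := fun τ => bd3 L1 hh τ (h1 τ) (b1 τ)
  have i2 := fun τ => bd3 L1 hh τ (h2 τ) (b2 τ)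
  have i3 := fun τ => bd_sub ((hG τ).mono (by norm_num : (2 : ℝ) ≤ 3)) (i1 τ)
  have e : evo h x t 0 - evo (fun ξ => ∑ τ ∈ TT d L, A.pc L (B τ) (A.Gc L h τ) ξ) x t 0 -
      evo (fun ξ => ∑ τ ∈ TT d L, A.pc L (B' τ) (A.Gc L h τ) ξ) x t 0 =
      ∑ τ ∈ TT d L, evo (fun ξ => A.Gc L h τ ξ - A.pc L (B τ) (A.Gc L h τ) ξ - A.pc L (B' τ) (A.Gc L h τ) ξ) x t 0 := by
    conv_lhs => arg 1; arg 1; rw [sum_all L0 hh]
    rw [A.evo_sum _ fun τ _ => (hG τ).integrable, A.evo_sum _ fun τ _ => (i1 τ).integrable,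
      A.evo_sum _ fun τ _ => (i2 τ).integrable, ← Finset.sum_sub_distrib, ← Finset.sum_sub_distrib]
    refine Finset.sum_congr rfl fun τ _ => ?_
    rw [A.evo_sub (i3 τ).integrable (i2 τ).integrable, A.evo_sub (hG τ).integrable (i1 τ).integrable]
  rw [e]
  refine hp _ (fun τ => (B τ ∪ B' τ)ᶜ) x t (σ ^ 2) hT t0 ht1 (fun τ => bd_sub (i3 τ) (i2 τ)) (fun τ ξ hξ k => ?_)
    (fun τ => ((h1 τ).union (h2 τ)).compl) (fun τ y => ?_) fun τ hτ y z hy hz => ?_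
  · by_cases g1 : A.pc L (B τ) (A.Gc L h τ) ξ = 0
    · by_cases g2 : A.pc L (B' τ) (A.Gc L h τ) ξ = 0
      · have g3 : ξ ∈ A.cel L τ := by
          by_contra hn
          exact hξ (by rw [g1, g2, sub_zero, sub_zero]; exact Set.indicator_of_notMem hn _)
        exact (A.cel_near L0 g3 k).trans (by gcongr; norm_num)
      · exact A.pc_cell L0 (h2 τ) (b2 τ) g2 k
    · exact A.pc_cell L0 (h1 τ) (b1 τ) g1 k
  · rw [inv_sub (i3 τ).integrable (i2 τ).integrable, inv_sub (hG τ).integrable (i1 τ).integrable,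
      A.inv_pc L0 (h1 τ) (b1 τ) (hG τ).integrable, A.inv_pc L0 (h2 τ) (b2 τ) (hG τ).integrable,
      A.W_compl L0 ((h1 τ).union (h2 τ)), A.W_union L0 (h3 τ) (h2 τ)]
    push_cast
    ring
  · rw [h4] at hz
    have hz' : ¬ ∀ k, |z k - σ ^ 2 * ((Q - sh L β τ) k : ℤ)| ≤ 9 * σ ^ 2 := hz
    push Not at hz'
    obtain ⟨k, hk⟩ := hz'
    have a1 := centre σ1 L1 hx ht hτ k
    have a2 := abs_sub_le (z k) (y k) (σ ^ 2 * ((Q - sh L β τ) k : ℤ))
    have a3 := abs_sub_le (y k) (x k - t * τ k / L) (σ ^ 2 * ((Q - sh L β τ) k : ℤ))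
    exact ⟨k, by linarith [hy k]⟩

theorem partB (L1 : 1 ≤ L) (T0 : 0 < T) (hh : Bd 2 h) (hp : Pc L T t1 X h) {B : (Fin d → ℤ) → Set (E d)}
    (h1 : ∀ τ, MeasurableSet (B τ)) (b1 : ∀ τ, Bornology.IsBounded (B τ)) {q : (Fin d → ℤ) × ℤ}
    {Θ : Finset (Fin d → ℤ)} (hΘ : Θ ⊆ TT d L) (hq0 : 0 ≤ q.2) (hq1 : T * q.2 ≤ t1)
    (hs : ∀ τ ∈ TT d L, ∀ z ∈ B τ ∩ nb T (q.1 - sh L q.2 τ), τ ∈ Θ) :
    lE ((fun ξ => ∑ τ ∈ TT d L, A.pc L (B τ) (A.Gc L h τ) ξ) -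
      fun ξ => ∑ τ ∈ Θ, A.pc L (B τ ∩ nb T (q.1 - sh L q.2 τ)) (A.Gc L h τ) ξ) (cor T q) (100 * d * T) ≤
      X * (volume : Measure (E d)).real (Metric.ball (cor T q).1 (100 * d * T)) := by
  have L0 : 0 < L := by linarith
  have h2 := fun τ => (h1 τ).inter (nb_meas T (q.1 - sh L q.2 τ))
  have h3 := fun τ => (h1 τ).diff (nb_meas T (q.1 - sh L q.2 τ))
  have b2 : ∀ τ, Bornology.IsBounded (B τ ∩ nb T (q.1 - sh L q.2 τ)) := fun τ => (b1 τ).subset Set.inter_subset_left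
  have hG := fun τ => A.Gc_bd (L := L) hh τ
  have i1 := fun τ => bd3 L1 hh τ (h1 τ) (b1 τ)
  have i2 := fun τ => bd3 L1 hh τ (h2 τ) (b2 τ)
  have e : ((fun ξ => ∑ τ ∈ TT d L, A.pc L (B τ) (A.Gc L h τ) ξ) -
      fun ξ => ∑ τ ∈ Θ, A.pc L (B τ ∩ nb T (q.1 - sh L q.2 τ)) (A.Gc L h τ) ξ) = fun ξ => ∑ τ ∈ TT d L,
      (A.pc L (B τ) (A.Gc L h τ) ξ - A.pc L (B τ ∩ nb T (q.1 - sh L q.2 τ)) (A.Gc L h τ) ξ) := by
    ext ξ
    rw [Pi.sub_apply, Finset.sum_sub_distrib, Finset.sum_subset hΘ fun τ hτ hn => ?_]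
    rw [Set.eq_empty_of_forall_notMem fun z hz => hn (hs τ hτ z hz), pc_empty]
  rw [e]
  unfold lE
  refine (Real.le_norm_self _).trans (norm_setIntegral_le_of_norm_le_const measure_ball_lt_top fun x hx => ?_)
  rw [Real.norm_of_nonneg (by positivity)]
  unfold Uu
  rw [A.evo_sum _ fun τ _ => (bd_sub (i1 τ) (i2 τ)).integrable]
  refine hp _ (fun τ => B τ \ nb T (q.1 - sh L q.2 τ)) x (T * q.2) T le_rfl (mul_nonneg T0.le (by exact_mod_cast hq0))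
    hq1 (fun τ => bd_sub (i1 τ) (i2 τ)) (fun τ ξ hξ k => ?_) h3 (fun τ y => ?_)
    fun τ hτ y z hy hz => nb_far T0 hx hy hz.2
  · by_cases g1 : A.pc L (B τ) (A.Gc L h τ) ξ = 0
    · exact A.pc_cell L0 (h2 τ) (b2 τ) (fun g2 => hξ (by rw [g1, g2, sub_zero])) k
    · exact A.pc_cell L0 (h1 τ) (b1 τ) g1 k
  · have a1 := A.W_union L0 (Set.disjoint_left.2 fun z (g1 : z ∈ B τ ∩ nb T (q.1 - sh L q.2 τ)) g2 => g2.2 g1.2) (h3 τ) y
    rw [Set.inter_union_diff] at a1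
    rw [inv_sub (i1 τ).integrable (i2 τ).integrable, A.inv_pc L0 (h1 τ) (b1 τ) (hG τ).integrable,
      A.inv_pc L0 (h2 τ) (b2 τ) (hG τ).integrable, a1]
    push_cast
    ring

end Loc

open Loc in
/-- **[SL.LOC2]** -/
theorem loc2 (d : ℕ) : LOC2 d := by
  intro η hη hη1 a
  obtain ⟨D, D0, hD⟩ := pieces d hη hη1 (a + 2 * d)
  obtain ⟨V, hV⟩ : ∃ V, V = (100 * d : ℝ) ^ d * (volume : Measure (E d)).real (Metric.ball 0 1) := ⟨_, rfl⟩
  have V0 : 0 ≤ V := by rw [hV]; positivity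
  have DV := mul_nonneg D0 V0
  have p7 : (0 : ℝ) ≤ 7 ^ d := by positivity
  have p19 : (0 : ℝ) ≤ 19 ^ d := by positivity
  have p200 : (0 : ℝ) ≤ (200 * d + 7) ^ d := by positivity
  obtain ⟨C, c1, c2, c3, c4, c5⟩ : ∃ C : ℝ, 7 ^ d ≤ C ∧ 19 ^ d ≤ C ∧ (200 * d + 7) ^ d ≤ C ∧ D ≤ C ∧ D * V ≤ C :=
    ⟨7 ^ d + 19 ^ d + (200 * d + 7) ^ d + D + D * V, by linarith, by linarith, by linarith, by linarith, by linarith⟩
  refine ⟨C, D0.trans c4, fun l T L S hl hT hL hTS => ?_⟩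
  have hl0 : 0 < l := by linarith
  have L1 : 1 ≤ L := by rw [hL]; exact Real.one_le_rpow hl (by positivity)
  have L0 : 0 < L := by linarith
  have T1 : 1 ≤ T := by rw [hT]; exact Real.one_le_rpow hl (by linarith)
  have T0 : 0 < T := by linarith
  have Tl : T ≤ l ^ 2 := by
    rw [hT]
    exact (Real.rpow_le_rpow_of_exponent_le hl (by linarith)).trans (Real.rpow_two l).le
  obtain ⟨σ, σ1, rfl⟩ : ∃ σ : ℝ, 1 ≤ σ ∧ S = σ ^ 2 :=
    ⟨√S, Real.one_le_sqrt.2 (T1.trans hTS), (Real.sq_sqrt (by linarith)).symm⟩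
  refine ⟨fun Q => A.W L (nb T Q), fun Q => A.W L (box σ Q), wt_mono (nb_wt L0 T) c3, wt_mono (wt L0 σ1) c2,
    fun h Q' β' hh => ?_⟩
  have hen : 0 ≤ en h := integral_nonneg fun _ => by positivity
  have hp := hD l T L h hl hT hL hh
  obtain ⟨W, hW⟩ : ∃ W : ((Fin d → ℤ) × (Fin d → ℤ) → Prop) → (Fin d → ℤ) → Set (E d),
    W = fun s τ => box σ (Q' - sh L β' τ) ∩ {z | s (τ, cb T z)} := ⟨_, rfl⟩
  have mW : ∀ s τ, MeasurableSet (W s τ) := fun s τ => hW ▸ (box_meas _ _).inter (cb_meas T {Q0 | s (τ, Q0)})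
  have sW : ∀ s τ, W s τ ⊆ box σ (Q' - sh L β' τ) := fun s τ => hW ▸ Set.inter_subset_left
  have bW : ∀ s τ, Bornology.IsBounded (W s τ) := fun s τ => (box_bdd _ _).subset (sW s τ)
  refine ⟨fun s ξ => ∑ τ ∈ TT d L, A.pc L (W s τ) (A.Gc L h τ) ξ, fun s => ⟨Bd.sum _ fun τ _ =>
    bd3 L1 hh τ (mW s τ) (bW s τ), en_sum L1 hh _ (mW s) (bW s) (sW s) c1 (le_of_eq ?_)⟩,
    fun s x t hx ht ht0 ht1 => ?_, fun s q Θ hΘ hq0 hq1 hs => ?_⟩
  · unfold eb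
    simp only [cut_one]
  · refine (partA L1 σ1 hTS hh hp (mW s) (mW _) (fun τ => ?_) (fun τ => ?_) hx ht ht0 ht1).trans ?_
    · rw [hW]
      exact Set.disjoint_left.2 fun z h1 h2 => h2.2 h1.2
    · rw [hW]
      exact Set.inter_union_compl _ _
    · exact mul_le_mul_of_nonneg_right (mul_le_mul c4 (inv_anti₀ (by positivity)
        (pow_le_pow_right₀ hl (by omega))) (by positivity) (D0.trans c4)) hen
  · have mN := fun τ => (mW s τ).inter (nb_meas T (q.1 - sh L q.2 τ))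
    have bN : ∀ τ, Bornology.IsBounded (W s τ ∩ nb T (q.1 - sh L q.2 τ)) :=
      fun τ => (bW s τ).subset Set.inter_subset_left
    refine ⟨fun ξ => ∑ τ ∈ Θ, A.pc L (W s τ ∩ nb T (q.1 - sh L q.2 τ)) (A.Gc L h τ) ξ,
      Bd.sum _ fun τ _ => bd3 L1 hh τ (mN τ) (bN τ), fun ξ hξ => ?_,
      en_sum L1 hh _ mN bN (fun τ => Set.inter_subset_right) c1 (le_of_eq ?_),
      en_sum L1 hh _ mN bN (fun τ => Set.subset_univ _) c1 ?_,
      (partB L1 T0 hh hp (mW s) (bW s) hΘ hq0 hq1 fun τ hτ z hz => hs τ hτ _ hz.2 ?_).trans ?_⟩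
    · obtain ⟨τ, hτ, hne⟩ := Finset.exists_ne_zero_of_sum_ne_zero hξ
      refine ⟨τ, hτ, fun k => ?_⟩
      have h1 := A.pc_cell L0 (mN τ) (bN τ) hne k
      have h2 : 2 * L * ξ k - τ k = L * (2 * ξ k - τ k / L) := by field_simp
      rw [h2, abs_mul, abs_of_pos L0]
      exact (mul_le_mul_of_nonneg_left h1 L0.le).trans (le_of_eq (by field_simp))
    · unfold eb
      simp only [cut_one]
    · simp only [fun τ => ee_univ L0 (A.Gc_bd (L := L) hh τ)]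
      exact sum_en hh Θ
    · have := hz.1
      rw [hW] at this
      exact this.2
    have hvol : (volume : Measure (E d)).real (Metric.ball (cor T q).1 (100 * d * T)) ≤ V * l ^ (2 * d) := by
      refine (measureReal_mono Metric.ball_subset_closedBall measure_closedBall_lt_top.ne).trans ?_
      rw [Measure.addHaar_real_closedBall _ _ (by positivity), finrank_euclideanSpace, Fintype.card_fin, hV, mul_pow,
        pow_mul, mul_right_comm]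
      gcongr
    calc _ ≤ D * (l ^ (a + 2 * d))⁻¹ * en h * (V * l ^ (2 * d)) := mul_le_mul_of_nonneg_left hvol (by positivity)
      _ = D * V * (l ^ a)⁻¹ * en h := by rw [pow_add]; field_simp
      _ ≤ _ := mul_le_mul_of_nonneg_right (mul_le_mul_of_nonneg_right c5 (by positivity)) hen

end

end Vale.Agent.P076N.SL
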