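import Vale.Agent.P076N.SL.Spec

/-! # P076N / SL : the row MULT (colouring) -/

set_option linter.all false

open MeasureTheory Finset

namespace Vale.Agent.P076N.SL

open Vale.Agent.P076 Vale.Agent.P076N

namespace Mult

theorem exists_rank {ι κ : Type} [DecidableEq κ] (A : Finset ι) (key : ι → κ) (B : ℕ)
    (h : ∀ k, #(A.filter fun i => key i = k) ≤ B) :
    ∃ rk : ι → ℕ, (∀ i ∈ A, rk i < B) ∧ ∀ i ∈ A, ∀ j ∈ A, key i = key j → rk i = rk j → i = j := by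
  classical
  let f : κ → ι → ℕ := fun k i =>
    if hi : i ∈ A.filter (fun i => key i = k) then ((A.filter fun i => key i = k).equivFin ⟨i, hi⟩ : ℕ) else 0
  refine ⟨fun i => f (key i) i, fun i hi => ?_, fun i hi j hj hk hr => ?_⟩
  · have h1 : i ∈ A.filter (fun j => key j = key i) := mem_filter.mpr ⟨hi, rfl⟩
    simp only [f, dif_pos h1]
    exact (Fin.is_lt _).trans_le (h _)
  · have h1 : i ∈ A.filter (fun i => key i = key j) := mem_filter.mpr ⟨hi, hk⟩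
    have h2 : j ∈ A.filter (fun i => key i = key j) := mem_filter.mpr ⟨hj, rfl⟩
    simp only [hk, f, dif_pos h1, dif_pos h2] at hr
    have := (A.filter fun i => key i = key j).equivFin.injective (Fin.ext hr)
    exact congrArg Subtype.val this

theorem sep_of_mod {a b : ℝ} {M : ℤ} (hM : 0 < M) (h1 : ⌊a⌋ % M = ⌊b⌋ % M) (h2 : ⌊a⌋ ≠ ⌊b⌋) : (M : ℝ) - 1 ≤ |a - b| := by
  have h3 : M ∣ ⌊a⌋ - ⌊b⌋ := Int.ModEq.dvd h1.symm
  have h4 : M ≤ |⌊a⌋ - ⌊b⌋| := Int.le_of_dvd (abs_pos.mpr (sub_ne_zero.mpr h2)) ((dvd_abs _ _).mpr h3)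
  have h5 : (M : ℝ) ≤ |(⌊a⌋ : ℝ) - ⌊b⌋| := by exact_mod_cast h4
  have a1 := Int.floor_le a
  have a2 := Int.lt_floor_add_one a
  have a3 := Int.floor_le b
  have a4 := Int.lt_floor_add_one b
  rcases le_abs'.mp h5 with h | h
  · exact le_abs'.mpr (Or.inl (by linarith))
  · exact le_abs'.mpr (Or.inr (by linarith))

theorem jensen {κ : Type} (S : Finset κ) (hS : S.Nonempty) (a : κ → ℝ) (ha : ∀ c, 0 ≤ a c) {δ : ℝ} (h0 : 0 ≤ δ)
    (h1 : δ ≤ 1) : ∑ c ∈ S, a c ^ δ ≤ (#S : ℝ) ^ (1 - δ) * (∑ c ∈ S, a c) ^ δ := by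
  have hK : (0:ℝ) < #S := by exact_mod_cast hS.card_pos
  have h := (Real.concaveOn_rpow h0 h1).le_map_sum (t := S) (w := fun _ => (#S : ℝ)⁻¹) (p := a)
    (fun _ _ => by positivity) (by simp [hK.ne']) (fun c _ => ha c)
  simp only [smul_eq_mul, ← Finset.mul_sum] at h
  rw [inv_mul_le_iff₀ hK, Real.mul_rpow (by positivity) (Finset.sum_nonneg fun c _ => ha c), Real.inv_rpow hK.le,
    ← mul_assoc] at h
  rwa [Real.rpow_sub hK, Real.rpow_one, div_eq_mul_inv]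

end Mult

open Mult in
/-- **[SL.MULT]** -/
theorem mult (d : ℕ) : MULT d := by
  classical
  rintro ⟨η, δ, hη, hδ, hδ1, C, hC, h⟩
  refine ⟨η, δ, hη, hδ, hδ1, fun B => ?_⟩
  set K1 : ℝ := 2 ^ d * 10 * (⌊B⌋₊ + 1) with hK1
  have hK10 : 0 < K1 := by positivity
  refine ⟨C * K1 ^ (1 - δ), by positivity, fun l N G ι A x z t b α hl hN hNl hG hb hα hm ht hA hbig => ?_⟩
  have hl0 : 0 < l := by linarith
  have hN0 : (0:ℝ) < N := by exact_mod_cast hN
  obtain ⟨rk, hrk, hinj⟩ := exists_rank A (fun i => ((fun k => ⌊x i k⌋ : Fin d → ℤ), ⌊z i⌋)) (⌊B⌋₊ + 1) (by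
    intro k
    have h1 := hm k.1 k.2
    have h2 : #(A.filter fun i => ((fun k => ⌊x i k⌋ : Fin d → ℤ), ⌊z i⌋) = k) =
        #(A.filter fun i => (∀ j, ⌊x i j⌋ = k.1 j) ∧ ⌊z i⌋ = k.2) := by
      congr 1
      ext i
      simp only [mem_filter, Prod.ext_iff, funext_iff]
    rw [h2]
    exact (Nat.le_floor h1).trans (Nat.le_succ _))
  set M : ℤ := ⌈8 * l⌉ + 1 with hM
  have hM1 : 8 * l ≤ (M : ℝ) - 1 := by
    rw [hM]; push_cast
    linarith [Int.le_ceil (8 * l)]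
  have hM2 : (M : ℝ) ≤ 10 * l := by
    rw [hM]; push_cast
    linarith [Int.ceil_lt_add_one (8 * l)]
  have hM0 : 0 < M := by
    have : (0:ℝ) < M := by linarith
    exact_mod_cast this
  set col : ι → (Fin d → ℤ) × ℤ × ℕ := fun i => (fun k => ⌊x i k⌋ % 2, ⌊z i⌋ % M, rk i) with hcol
  set Cs : Finset ((Fin d → ℤ) × ℤ × ℕ) :=
    (Fintype.piFinset fun _ => Finset.Ico (0:ℤ) 2) ×ˢ (Finset.Ico 0 M ×ˢ Finset.range (⌊B⌋₊ + 1)) with hCs
  have hmem : ∀ i ∈ A, col i ∈ Cs := by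
    intro i hi
    refine mem_product.mpr ⟨Fintype.mem_piFinset.mpr fun k => ?_, mem_product.mpr ⟨?_, mem_range.mpr (hrk i hi)⟩⟩
    · exact mem_Ico.mpr ⟨Int.emod_nonneg _ (by norm_num), Int.emod_lt_of_pos _ (by norm_num)⟩
    · exact mem_Ico.mpr ⟨Int.emod_nonneg _ hM0.ne', Int.emod_lt_of_pos _ hM0⟩
  have hcard : (#Cs : ℝ) ≤ K1 * l := by
    rw [hCs, card_product, card_product, Fintype.card_piFinset, Int.card_Ico, Int.card_Ico, card_range]
    have e : (((M - 0).toNat : ℤ) : ℝ) = M := by rw [sub_zero, Int.toNat_of_nonneg hM0.le]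
    rw [Int.cast_natCast] at e
    push_cast
    rw [e, hK1]
    simp only [Finset.prod_const, Finset.card_univ, Fintype.card_fin]
    calc (2:ℝ) ^ d * (M * (⌊B⌋₊ + 1)) ≤ 2 ^ d * (10 * l * (⌊B⌋₊ + 1)) := by gcongr
      _ = _ := by ring
  have hne : Cs.Nonempty := ⟨(0, 0, 0), mem_product.mpr ⟨Fintype.mem_piFinset.mpr fun k => by simp,
    mem_product.mpr ⟨mem_Ico.mpr ⟨le_rfl, hM0⟩, by simp⟩⟩⟩
  set a : (Fin d → ℤ) × ℤ × ℕ → ℝ := fun c => #(A.filter fun i => col i = c) with ha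
  have hsum : (#A : ℝ) = ∑ c ∈ Cs, a c := by
    simp only [ha]
    exact_mod_cast Finset.card_eq_sum_card_fiberwise hmem
  have hen : 0 ≤ en2 G := integral_nonneg fun _ => by positivity
  set V : ℝ := l ^ (2 * d + 1) * N ^ (d + 1) with hV
  have hV0 : 0 < V := by positivity
  set P : ℝ := (N : ℝ) ^ (((d : ℝ) + 1) / (d + 2)) * l ^ ((d : ℝ) / (d + 2)) with hP
  have hP0 : 0 ≤ P := by positivity
  have key : ∀ c ∈ Cs, α ^ 2 * a c ≤ C * P * (V ^ δ)⁻¹ * en2 G * a c ^ δ := by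
    intro c _
    have h1 := h l N G ι (A.filter fun i => col i = c) x z t b α hl hN hNl hG hb hα ?_
      (fun i hi => ht i (mem_filter.mp hi).1) (le_trans (by exact_mod_cast card_filter_le _ _) hA)
      (fun i hi => hbig i (mem_filter.mp hi).1)
    · refine h1.trans (le_of_eq ?_)
      unfold rhs
      rw [Real.div_rpow (by positivity) hV0.le]
      ring
    · intro i hi j hj hij
      obtain ⟨hi1, hi2⟩ := mem_filter.mp hi
      obtain ⟨hj1, hj2⟩ := mem_filter.mp hj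
      have e := hi2.trans hj2.symm
      simp only [hcol, Prod.mk.injEq, funext_iff] at e
      by_cases h1 : ∀ k, ⌊x i k⌋ = ⌊x j k⌋
      · right
        by_cases h2 : ⌊z i⌋ = ⌊z j⌋
        · exact absurd (hinj i hi1 j hj1 (Prod.ext (funext h1) h2) e.2.2) hij
        · exact hM1.trans (sep_of_mod hM0 e.2.1 h2)
      · left
        push Not at h1
        obtain ⟨k, hk⟩ := h1
        have := sep_of_mod (by norm_num) (e.1 k) hk
        exact ⟨k, by norm_num at this; exact this⟩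
  have j1 := jensen Cs hne a (fun c => by positivity) hδ.le hδ1
  rw [← hsum] at j1
  have j2 : (#Cs : ℝ) ^ (1 - δ) ≤ K1 ^ (1 - δ) * (l * (l ^ δ)⁻¹) := by
    calc (#Cs : ℝ) ^ (1 - δ) ≤ (K1 * l) ^ (1 - δ) := Real.rpow_le_rpow (by positivity) hcard (by linarith)
      _ = _ := by rw [Real.mul_rpow hK10.le hl0.le, Real.rpow_sub hl0, Real.rpow_one, div_eq_mul_inv]
  have e1 : ((N : ℝ) * l ^ 2) ^ (((d : ℝ) + 1) / (d + 2)) = P * l := by
    rw [Real.mul_rpow hN0.le (by positivity), hP, mul_assoc]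
    congr 1
    rw [← Real.rpow_natCast, ← Real.rpow_mul hl0.le, ← Real.rpow_add_one hl0.ne']
    congr 1
    push_cast
    field_simp
    ring
  have e2 : ((#A : ℝ) / ((N : ℝ) * l ^ 2) ^ (d + 1)) ^ δ = (#A : ℝ) ^ δ * ((V ^ δ)⁻¹ * (l ^ δ)⁻¹) := by
    have : ((N : ℝ) * l ^ 2) ^ (d + 1) = V * l := by rw [hV]; ring
    rw [this, Real.div_rpow (by positivity) (by positivity), Real.mul_rpow hV0.le hl0.le, div_eq_mul_inv, mul_inv]
  calc α ^ 2 * #A = ∑ c ∈ Cs, α ^ 2 * a c := by rw [hsum, Finset.mul_sum]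
    _ ≤ ∑ c ∈ Cs, C * P * (V ^ δ)⁻¹ * en2 G * a c ^ δ := Finset.sum_le_sum key
    _ ≤ C * P * (V ^ δ)⁻¹ * en2 G * (K1 ^ (1 - δ) * (l * (l ^ δ)⁻¹) * (#A : ℝ) ^ δ) := by
        rw [← Finset.mul_sum]
        refine mul_le_mul_of_nonneg_left (j1.trans ?_) (by positivity)
        gcongr
    _ = _ := by rw [e1, e2]; ring

end Vale.Agent.P076N.SL
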