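import Vale.Agent.P076N.SL.Spec2

/-!
# P076N / SL : the numerical core `NUM2`
-/

open Finset

namespace Vale.Agent.P076N.SL

namespace Num2x

variable {β γ : Type} {θ p : ℝ}

theorem holder (h0 : 0 < θ) (h1 : θ < 1) (D : Finset β) {a b : β → ℝ} (ha : ∀ i ∈ D, 0 ≤ a i)
    (hb : ∀ i ∈ D, 0 ≤ b i) :
    ∑ i ∈ D, a i ^ (1 - θ) * b i ^ θ ≤ (∑ i ∈ D, a i) ^ (1 - θ) * (∑ i ∈ D, b i) ^ θ := by
  have h2 : 0 < 1 - θ := by linarith
  have hc : (1 - θ)⁻¹.HolderConjugate θ⁻¹ :=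
    ⟨by simp, by positivity, by positivity⟩
  have := Real.inner_le_Lp_mul_Lq_of_nonneg D hc (f := fun i => a i ^ (1 - θ))
    (g := fun i => b i ^ θ) (fun i hi => Real.rpow_nonneg (ha i hi) _)
    (fun i hi => Real.rpow_nonneg (hb i hi) _)
  rw [one_div, one_div, inv_inv, inv_inv,
    sum_congr rfl fun i hi => Real.rpow_rpow_inv (ha i hi) h2.ne',
    sum_congr rfl fun i hi => Real.rpow_rpow_inv (hb i hi) h0.ne'] at this
  exact this

/-- the interpolation between the total energy and the energy of a selection -/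
theorem core (h0 : 0 < θ) (h1 : θ < 1) (hp : p * θ = 1) (D : Finset β) (Y : β → Finset γ)
    {f : β → γ → ℝ} {L E : ℝ} (hL : 0 ≤ L) (hY : ∀ b ∈ D, (Y b).Nonempty) (hf : ∀ b y, 0 ≤ f b y)
    (hE : ∑ b ∈ D, ∑ y ∈ Y b, f b y ≤ E)
    (hs : ∀ y : β → γ, (∀ b ∈ D, y b ∈ Y b) → ∑ b ∈ D, f b (y b) ≤ L) :
    ∑ b ∈ D, (∑ y ∈ Y b, f b y ^ p) ^ θ ≤ L ^ (1 - θ) * E ^ θ := by
  have hE0 : 0 ≤ ∑ b ∈ D, ∑ y ∈ Y b, f b y := sum_nonneg fun b _ => sum_nonneg fun y _ => hf b y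
  rcases D.eq_empty_or_nonempty with rfl | ⟨b0, hb0⟩
  · rw [sum_empty]
    exact mul_nonneg (Real.rpow_nonneg hL _) (Real.rpow_nonneg (hE0.trans hE) _)
  obtain ⟨y0, -⟩ := hY b0 hb0
  have : Nonempty γ := ⟨y0⟩
  have h2 : ∀ b, b ∈ D → ∃ y ∈ Y b, ∀ z ∈ Y b, f b z ≤ f b y := fun b hb =>
    exists_max_image _ _ (hY b hb)
  choose! y hy hm using h2
  have hp1 : 0 < p - 1 := by
    by_contra k
    nlinarith [not_lt.1 k]
  have h3 : ∀ b ∈ D, (∑ z ∈ Y b, f b z ^ p) ^ θ ≤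
      f b (y b) ^ (1 - θ) * (∑ z ∈ Y b, f b z) ^ θ := fun b hb => by
    have a1 : ∑ z ∈ Y b, f b z ^ p ≤ f b (y b) ^ (p - 1) * ∑ z ∈ Y b, f b z := by
      rw [mul_sum]
      refine sum_le_sum fun z hz => ?_
      have : f b z ^ p = f b z ^ (p - 1) * f b z := by
        rw [← Real.rpow_add_one' (hf b z) (by linarith), sub_add_cancel]
      rw [this]
      exact mul_le_mul_of_nonneg_right (Real.rpow_le_rpow (hf b z) (hm b hb z hz) hp1.le) (hf b z)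
    refine (Real.rpow_le_rpow (sum_nonneg fun z _ => Real.rpow_nonneg (hf b z) _) a1
      h0.le).trans_eq ?_
    rw [Real.mul_rpow (Real.rpow_nonneg (hf _ _) _) (sum_nonneg fun z _ => hf b z),
      ← Real.rpow_mul (hf _ _), sub_mul, hp, one_mul]
  refine (sum_le_sum h3).trans ((holder h0 h1 D (fun b _ => hf b _)
    fun b _ => sum_nonneg fun z _ => hf b z).trans ?_)
  exact mul_le_mul (Real.rpow_le_rpow (sum_nonneg fun b _ => hf _ _) (hs y hy) (by linarith))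
    (Real.rpow_le_rpow hE0 hE h0.le) (Real.rpow_nonneg hE0 _) (Real.rpow_nonneg hL _)

theorem geo (h0 : 0 < θ) (h1 : θ < 1) {a μ x : ℝ} (ha : 0 ≤ a) (h2 : a ≤ μ) (h3 : a ≤ x) :
    a ≤ μ ^ (1 - θ) * x ^ θ := by
  have : a = a ^ (1 - θ) * a ^ θ := by
    rw [← Real.rpow_add' ha (by simp), sub_add_cancel, Real.rpow_one]
  rw [this]
  exact mul_le_mul (Real.rpow_le_rpow ha h2 (by linarith)) (Real.rpow_le_rpow ha h3 h0.le)
    (Real.rpow_nonneg ha _) (Real.rpow_nonneg (ha.trans h2) _)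

/-- the bound for one set of blocks -/
theorem step (h0 : 0 < θ) (h1 : θ < 1) (hp : p * θ = 1) (D : Finset β) (Y : β → Finset γ)
    {m e e' : β → γ → ℝ} {L L' E B ρ μ : ℝ} (hL : 0 ≤ L) (hL' : 0 ≤ L') (hB : 0 ≤ B) (hρ : 0 ≤ ρ)
    (hμ : 0 ≤ μ) (hY : ∀ b ∈ D, (Y b).Nonempty) (hm : ∀ b y, 0 ≤ m b y)
    (he : ∀ b y, 0 ≤ e' b y ∧ e' b y ≤ e b y) (hE : ∑ b ∈ D, ∑ y ∈ Y b, e b y ≤ E)
    (hs : ∀ y : β → γ, (∀ b ∈ D, y b ∈ Y b) → ∑ b ∈ D, e b (y b) ≤ L)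
    (hs' : ∀ y : β → γ, (∀ b ∈ D, y b ∈ Y b) → ∑ b ∈ D, e' b (y b) ≤ L')
    (hb : ∀ b ∈ D, ∑ y ∈ Y b, m b y ≤ μ)
    (hk : ∀ b ∈ D, ∀ y ∈ Y b, m b y ≤ B * (ρ * e b y ^ p + e' b y ^ p)) :
    ∑ b ∈ D, ∑ y ∈ Y b, m b y ≤
      μ ^ (1 - θ) * B ^ θ * ((ρ ^ θ * L ^ (1 - θ) + L' ^ (1 - θ)) * E ^ θ) := by
  have e0 : ∀ b y, 0 ≤ e b y := fun b y => (he b y).1.trans (he b y).2
  have c1 := core h0 h1 hp D Y hL hY e0 hE hs
  have c2 := core h0 h1 hp D Y hL' hY (fun b y => (he b y).1)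
    ((sum_le_sum fun b _ => sum_le_sum fun y _ => (he b y).2).trans hE) hs'
  have c3 : ∀ b ∈ D, ∑ y ∈ Y b, m b y ≤ μ ^ (1 - θ) * B ^ θ *
      (ρ ^ θ * (∑ y ∈ Y b, e b y ^ p) ^ θ + (∑ y ∈ Y b, e' b y ^ p) ^ θ) := fun b hb' => by
    have s1 : 0 ≤ ∑ y ∈ Y b, e b y ^ p := sum_nonneg fun y _ => Real.rpow_nonneg (e0 b y) _
    have s2 : 0 ≤ ∑ y ∈ Y b, e' b y ^ p := sum_nonneg fun y _ => Real.rpow_nonneg (he b y).1 _
    have a1 : ∑ y ∈ Y b, m b y ≤ B * (ρ * ∑ y ∈ Y b, e b y ^ p + ∑ y ∈ Y b, e' b y ^ p) := by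
      rw [mul_sum, ← sum_add_distrib, mul_sum]
      exact sum_le_sum (hk b hb')
    refine (geo h0 h1 (sum_nonneg fun y _ => hm b y) (hb b hb') a1).trans ?_
    rw [Real.mul_rpow hB (by positivity), mul_assoc, ← Real.mul_rpow hρ s1]
    gcongr
    exact Real.rpow_add_le_add_rpow (by positivity) s2 h0.le h1.le
  refine (sum_le_sum c3).trans ?_
  rw [← mul_sum, sum_add_distrib, ← mul_sum, add_mul, mul_assoc (ρ ^ θ)]
  gcongr

/-- selections on a subset -/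
theorem sel {S D : Finset β} (hD : D ⊆ S) {Y : β → Finset γ} {e : β → γ → ℝ} {L : ℝ}
    (hY : ∀ b ∈ S, (Y b).Nonempty) (he : ∀ b y, 0 ≤ e b y)
    (hs : ∀ y : β → γ, (∀ b ∈ S, y b ∈ Y b) → ∑ b ∈ S, e b (y b) ≤ L)
    (y : β → γ) (hy : ∀ b ∈ D, y b ∈ Y b) : ∑ b ∈ D, e b (y b) ≤ L := by
  have h1 : ∀ b, ∃ z, (b ∈ S → z ∈ Y b) ∧ (b ∈ D → z = y b) := fun b => by
    by_cases a1 : b ∈ D
    · exact ⟨y b, fun _ => hy b a1, fun _ => rfl⟩
    by_cases a2 : b ∈ S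
    · obtain ⟨z, hz⟩ := hY b a2
      exact ⟨z, fun _ => hz, fun k => absurd k a1⟩
    · exact ⟨y b, fun k => absurd k a2, fun _ => rfl⟩
  choose z h2 h3 using h1
  rw [← sum_congr rfl fun b hb => congrArg (e b) (h3 b hb)]
  exact (sum_le_sum_of_subset_of_nonneg hD fun b _ _ => he _ _).trans (hs z h2)

theorem pw (θ : ℝ) {B : ℝ} (hB : 0 ≤ B) : B ^ (1 - θ) * B ^ θ = B := by
  rw [← Real.rpow_add' hB (by simp), sub_add_cancel, Real.rpow_one]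

end Num2x

open Num2x in
/-- **[SL.NUM2]** -/
theorem num2 (d : ℕ) (hd : 1 ≤ d) : NUM2 d := by
  intro δ0 hδ0
  have hd' : (1 : ℝ) ≤ d := by exact_mod_cast hd
  set θ : ℝ := d / (d + 2) with hθ
  have h0 : 0 < θ := by positivity
  have h1 : θ < 1 := by rw [hθ, div_lt_one (by positivity)]; linarith
  have hp : ((d : ℝ) + 2) / d * θ = 1 := by rw [hθ]; field_simp
  set δ1 := min (2 * δ0 * θ) (1 - θ) with hδ1
  have hδ1p : 0 < δ1 := lt_min (by positivity) (by linarith)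
  refine ⟨δ1 / (8 * (d + 1)), by positivity, fun B hB => ⟨4 * B, by positivity, ?_⟩⟩
  intro β γ S Y m e N J Z X hN hJ hZ hX hY hm he hb hE hs hK
  classical
  have hB0 : 0 ≤ B := by linarith
  have hN0 : 0 < N := by linarith
  set W := J ^ (1 / ((d : ℝ) + 2)) * N ^ (((d : ℝ) + 1) / (d + 2)) with hW
  have hW0 : 0 ≤ W := by positivity
  have hWZ : (√(J * N) * Z) ^ (1 - θ) * (N * Z) ^ θ = W * Z := by
    rw [Real.mul_rpow (Real.sqrt_nonneg _) hZ, Real.mul_rpow hN0.le hZ, mul_mul_mul_comm,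
      pw θ hZ, Real.sqrt_eq_rpow, ← Real.rpow_mul (by positivity), Real.mul_rpow hJ hN0.le,
      mul_assoc (J ^ _), ← Real.rpow_add hN0, hW]
    congr 3 <;> (rw [hθ]; field_simp; ring)
  have hEs : ∀ D ⊆ S, ∑ b ∈ D, ∑ y ∈ Y b, e b y ≤ N * Z := fun D hD =>
    (sum_le_sum_of_subset_of_nonneg hD fun b _ _ => sum_nonneg fun y _ => he b y).trans hE
  have hBθ : B ^ θ ≤ B := by
    simpa using Real.rpow_le_rpow_of_exponent_le hB h1.le
  have t1 : ∀ D ⊆ S, ∀ μ : ℝ, 0 ≤ μ → (∀ b ∈ D, ∑ y ∈ Y b, m b y ≤ μ) →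
      ∑ b ∈ D, ∑ y ∈ Y b, m b y ≤ μ ^ (1 - θ) * B ^ θ * (2 * (W * Z)) + X := by
    intro D hD μ hμ hb'
    obtain ⟨m', e', a1, a2, a3, a4, -⟩ := hK D hD (max 1 ((#D : ℝ) ^ (1 / ((d : ℝ) + 1))))
      (by positivity)
    have a5 : ((#D : ℝ) ^ (1 / ((d : ℝ) + 1)) / max 1 ((#D : ℝ) ^ (1 / ((d : ℝ) + 1)))) ^ δ0 ≤ 1 :=
      Real.rpow_le_one (by positivity) (div_le_one_of_le₀ (le_max_right _ _) (by positivity))
        hδ0.le
    have a6 := step h0 h1 hp D Y (ρ := 1) (by positivity : 0 ≤ √(J * N) * Z)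
      (by positivity : 0 ≤ √(J * N) * Z) hB0 zero_le_one hμ (fun b hb => hY b (hD hb))
      (fun b y => (a1 b y).1) a2 (hEs D hD) (sel hD hY he hs)
      (fun y hy => (sum_le_sum fun b _ => (a2 b _).2).trans (sel hD hY he hs y hy))
      (fun b hb => (sum_le_sum fun y _ => (a1 b y).2).trans (hb' b hb))
      fun b hb y hy => (a4 b hb y hy).trans (by
        have := Real.rpow_nonneg (he b y) (((d : ℝ) + 2) / d)
        gcongr)
    rw [Real.one_rpow, one_mul, ← two_mul, mul_assoc 2, hWZ] at a6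
    linarith
  set M := ∑ b ∈ S, ∑ y ∈ Y b, m b y with hM
  have hM0 : 0 ≤ M := sum_nonneg fun b _ => sum_nonneg fun y _ => hm b y
  have hWZ0 : 0 ≤ B * (W * Z) := by positivity
  rcases le_or_gt 1 (M / N ^ (d + 1)) with hl | hl
  · have a1 := t1 S Subset.rfl B hB0 hb
    rw [pw θ hB0] at a1
    rw [min_eq_left hl, Real.one_rpow]
    nlinarith
  rw [min_eq_right hl.le]
  rcases hM0.eq_or_lt with h2 | h2
  · conv_lhs => rw [← h2]
    positivity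
  set u := (M / N ^ (d + 1)) ^ (1 / (8 * ((d : ℝ) + 1))) with hu
  have hu0 : 0 < u := by positivity
  have hu1 : u ≤ 1 := Real.rpow_le_one (by positivity) hl.le (by positivity)
  have hu2 : (M / N ^ (d + 1)) ^ (δ1 / (8 * ((d : ℝ) + 1))) = u ^ δ1 := by
    rw [hu, ← Real.rpow_mul (by positivity)]
    congr 1
    ring
  have hu3 : (u ^ 4) ^ (d + 1) * (u ^ 4) ^ (d + 1) = M / N ^ (d + 1) := by
    rw [← pow_mul, ← pow_add, hu, ← Real.rpow_natCast, ← Real.rpow_mul (by positivity)]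
    have : 1 / (8 * ((d : ℝ) + 1)) * ((4 * (d + 1) + 4 * (d + 1) : ℕ) : ℝ) = 1 := by
      push_cast; field_simp; ring
    rw [this, Real.rpow_one]
  have hu4 : u ^ (1 - θ) ≤ u ^ δ1 := Real.rpow_le_rpow_of_exponent_ge hu0 hu1 (min_le_right _ _)
  set μ := (u ^ 4) ^ (d + 1) with hμ
  have hμ0 : 0 < μ := by positivity
  have b1 := t1 (S.filter fun b => ∑ y ∈ Y b, m b y ≤ μ) (filter_subset _ _) μ hμ0.le
    fun b hb => (mem_filter.1 hb).2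
  have b2 : μ ^ (1 - θ) ≤ u ^ δ1 := by
    refine (Real.rpow_le_rpow hμ0.le ?_ (by linarith)).trans hu4
    rw [hμ, ← pow_mul]
    exact pow_le_of_le_one hu0.le hu1 (by omega)
  set D := S.filter fun b => ¬ ∑ y ∈ Y b, m b y ≤ μ with hDd
  have hD : D ⊆ S := filter_subset _ _
  have b3 : (#D : ℝ) ≤ (u ^ 4 * N) ^ (d + 1) := by
    have a1 : (#D : ℝ) * μ ≤ M := by
      rw [← nsmul_eq_mul]
      exact (card_nsmul_le_sum D _ _ fun b hb => (not_le.1 (mem_filter.1 hb).2).le).trans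
        (sum_le_sum_of_subset_of_nonneg hD fun b _ _ => sum_nonneg fun y _ => hm b y)
    have a2 : M = μ * N ^ (d + 1) * μ := by
      rw [eq_div_iff (by positivity)] at hu3
      rw [← hu3]; ring
    rw [mul_pow]
    exact le_of_mul_le_mul_right (a1.trans_eq a2) hμ0
  have b4 : (#D : ℝ) ^ (1 / ((d : ℝ) + 1)) / (u ^ 2 * N) ≤ u ^ 2 := by
    have a1 := Real.rpow_le_rpow (Nat.cast_nonneg _) b3 (by positivity : 0 ≤ 1 / ((d : ℝ) + 1))
    rw [one_div, ← Nat.cast_succ, Real.pow_rpow_inv_natCast (by positivity) (by omega),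
      Nat.cast_succ, ← one_div] at a1
    rw [div_le_iff₀ (by positivity)]
    exact a1.trans_eq (by ring)
  obtain ⟨m', e', a1, a2, a3, a4, a5⟩ := hK D hD (u ^ 2 * N) (by positivity)
  have a6 := step h0 h1 hp D Y (ρ := (u ^ 2) ^ δ0) (by positivity : 0 ≤ √(J * N) * Z)
    (by positivity : 0 ≤ √(J * (u ^ 2 * N)) * Z) hB0 (by positivity) hB0 (fun b hb => hY b (hD hb))
    (fun b y => (a1 b y).1) a2 (hEs D hD) (sel hD hY he hs) a5
    (fun b k => (sum_le_sum fun y _ => (a1 b y).2).trans (hb b (hD k)))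
    fun b hb y hy => (a4 b hb y hy).trans (by
      have := Real.rpow_nonneg (he b y) (((d : ℝ) + 2) / d)
      gcongr)
  have b5 : √(J * (u ^ 2 * N)) * Z = u * (√(J * N) * Z) := by
    rw [mul_left_comm J, Real.sqrt_mul (by positivity), Real.sqrt_sq hu0.le, mul_assoc]
  have b6 : ((u ^ 2) ^ δ0) ^ θ ≤ u ^ δ1 := by
    rw [← Real.rpow_natCast, ← Real.rpow_mul hu0.le, ← Real.rpow_mul hu0.le]
    exact Real.rpow_le_rpow_of_exponent_ge hu0 hu1 (min_le_left _ _)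
  rw [pw θ hB0, b5, Real.mul_rpow hu0.le (by positivity), ← add_mul, mul_assoc, hWZ] at a6
  have b7 : M = ∑ b ∈ S.filter fun b => ∑ y ∈ Y b, m b y ≤ μ, ∑ y ∈ Y b, m b y +
      ∑ b ∈ D, ∑ y ∈ Y b, m b y := (sum_filter_add_sum_filter_not _ _ _).symm
  have b8 : μ ^ (1 - θ) * B ^ θ * (2 * (W * Z)) ≤ u ^ δ1 * B * (2 * (W * Z)) := by gcongr
  have b9 : B * ((((u ^ 2) ^ δ0) ^ θ + u ^ (1 - θ)) * (W * Z)) ≤
      B * ((u ^ δ1 + u ^ δ1) * (W * Z)) := by gcongr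
  rw [hu2]
  nlinarith

end Vale.Agent.P076N.SL
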