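import Vale.Agent.P076N.SL.Spec
import Vale.Agent.P076N.A.Cl

/-!
# P076N / SL : the choice of the parameters
-/

open MeasureTheory Finset
open scoped RealInnerProductSpace

namespace Vale.Agent.P076N.SL

open Vale.Agent.P076 Vale.Agent.P076N

namespace Parx

variable {n : ℕ}

/-- points with the graph condition over a ball -/
theorem gph {B r : ℝ} {A A' : Finset (E n × ℝ)} (h : Gph B A) (hA : A' ⊆ A) {y : E n}
    (hr : 1 ≤ r) (hy : ∀ p ∈ A', ‖p.1 - y‖ ≤ r) :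
    (#A' : ℝ) ≤ max B 1 * (4 * (n + 1) * r) ^ n := by
  have hB : 0 ≤ B := (Nat.cast_nonneg _).trans (h y)
  refine (P076N.A.gph_card h hA).trans (mul_le_mul (le_max_left _ _) ?_ (Nat.cast_nonneg _)
    (by positivity))
  have hn : (0 : ℝ) ≤ n := Nat.cast_nonneg n
  have h1 := card_le_card (t := Fintype.piFinset fun k =>
      Icc ⌈((n : ℝ) + 1) * (y k - r) - 1⌉ ⌊((n : ℝ) + 1) * (y k + r)⌋)
    (s := A'.image fun p => (fun l => ⌊((n : ℝ) + 1) * p.1 l⌋ : Fin n → ℤ)) fun τ hτ => by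
      obtain ⟨p, hp, rfl⟩ := mem_image.1 hτ
      refine Fintype.mem_piFinset.2 fun k => ?_
      have a1 := abs_le.1 ((P076N.A.abs_apply_le (p.1 - y) k).trans (hy p hp))
      rw [PiLp.sub_apply] at a1
      have a2 := Int.lt_floor_add_one (((n : ℝ) + 1) * p.1 k)
      rw [mem_Icc, Int.ceil_le]
      exact ⟨by nlinarith [a1.1], Int.floor_mono (by nlinarith [a1.2])⟩
  rw [Fintype.card_piFinset] at h1
  calc _ ≤ ∏ k : Fin n, ((#(Icc ⌈((n : ℝ) + 1) * (y k - r) - 1⌉ ⌊((n : ℝ) + 1) * (y k + r)⌋) : ℕ) :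
        ℝ) := by exact_mod_cast h1
    _ ≤ ∏ _k : Fin n, (4 * ((n : ℝ) + 1) * r) := prod_le_prod (fun _ _ => by positivity)
        fun k _ => (P076N.A.card_Icc_le (by nlinarith)).trans (by nlinarith)
    _ = _ := by simp

/-- the trivial bound -/
theorem triv (n : ℕ) : ∃ V : ℝ, 0 ≤ V ∧ ∀ (G : E n → ℂ) (x : E n) (t : ℝ), Bd 2 G →
    ‖evo G x t 0‖ ^ 2 ≤ V * en G := by
  set V := volume.real (Metric.closedBall (0 : E n) 2) with hV
  have hV0 : 0 ≤ V := measureReal_nonneg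
  refine ⟨V + 1, by positivity, fun G x t hG => ?_⟩
  have h0 : 0 ≤ en G := integral_nonneg fun _ => by positivity
  have h1 := norm_evo_le hG.integrable x t le_rfl
  set a := ‖evo G x t 0‖
  rcases (norm_nonneg (evo G x t 0)).eq_or_lt with h | h
  · have h : 0 = a := h
    rw [← h, zero_pow two_ne_zero]; positivity
  have h : 0 < a := h
  set s := a / (V + 1) with hs
  have hs0 : 0 < s := by positivity
  have i1 : Integrable ((Metric.closedBall (0 : E n) 2).indicator fun _ => s / 2) :=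
    (integrableOn_const measure_closedBall_lt_top.ne).integrable_indicator
      measurableSet_closedBall
  have h2 : ∫ η, ‖G η‖ ≤ ∫ η, ((Metric.closedBall (0 : E n) 2).indicator (fun _ => s / 2) η +
      ‖G η‖ ^ 2 / (2 * s)) := by
    refine integral_mono hG.integrable.norm (i1.add (hG.int_sq'.div_const _)) fun η => ?_
    by_cases k : G η = 0
    · simp only [k, norm_zero]
      exact add_nonneg (Set.indicator_nonneg (fun _ _ => by positivity) _) (by positivity)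
    · simp only
      rw [Set.indicator_of_mem (mem_closedBall_zero_iff.2 (hG.supp η k)), ← sub_nonneg]
      have : s / 2 + ‖G η‖ ^ 2 / (2 * s) - ‖G η‖ = (s - ‖G η‖) ^ 2 / (2 * s) := by
        field_simp; ring
      rw [this]; positivity
  rw [integral_add i1 (hG.int_sq'.div_const _), integral_indicator measurableSet_closedBall,
    setIntegral_const, integral_div, smul_eq_mul, ← hV] at h2
  have h3 : a ≤ V * (s / 2) + en G / (2 * s) := h1.trans h2
  have h4 : a = s * (V + 1) := by rw [hs]; field_simp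
  rw [← sub_le_iff_le_add', le_div_iff₀ (by positivity)] at h3
  rw [h4] at h3 ⊢
  have h5 : s ^ 2 * (V + 1) ≤ en G := by nlinarith [sq_nonneg s]
  nlinarith [mul_le_mul_of_nonneg_left h5 (by positivity : 0 ≤ V + 1)]

/-- the parameters -/
theorem pars {η c K R : ℝ} (hη : 0 < η) (hc : 0 < c) (h1 : 16 * c ≤ η) (h2 : 16 * c ≤ 1)
    (hR : 1 ≤ R) (hK : 1 ≤ K) (hu : 128 ^ 4 * (128 ^ η + K) ≤ R ^ c) :
    ∃ (l : ℝ) (N : ℕ), 1 ≤ l ∧ 1 ≤ N ∧ (N : ℝ) ≤ l ^ η ∧ l * R ^ (c - 1 / 2) = 1 / 128 ∧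
      R < N * l ^ 2 ∧ N * l ^ 2 ≤ 2 * R ∧ K * R ≤ l ^ 4 := by
  have hR0 : 0 < R := by linarith
  set u := R ^ c with hu'
  set w := R ^ (1 / 2 - c) with hw
  have hw0 : 0 < w := by positivity
  have hp : (1 : ℝ) ≤ 128 ^ η := Real.one_le_rpow (by norm_num) hη.le
  have hu1 : 128 ≤ u := by nlinarith
  have a1 : u ≤ w := Real.rpow_le_rpow_of_exponent_le hR (by linarith)
  have a2 : w ^ 2 * u ^ 2 = R := by
    rw [← mul_pow, ← Real.rpow_add hR0, sub_add_cancel, ← Real.sqrt_eq_rpow, Real.sq_sqrt hR0.le]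
  have a3 : u ^ 3 ≤ w ^ η := by
    rw [hu', hw, ← Real.rpow_mul_natCast hR0.le, ← Real.rpow_mul hR0.le]
    refine Real.rpow_le_rpow_of_exponent_le hR ?_
    push_cast
    nlinarith
  have a4 : R * u ≤ w ^ 4 := by
    rw [hu', hw, ← Real.rpow_one_add' hR0.le (by linarith), ← Real.rpow_mul_natCast hR0.le]
    refine Real.rpow_le_rpow_of_exponent_le hR ?_
    push_cast
    linarith
  have a5 : R / (w / 128) ^ 2 = 128 ^ 2 * u ^ 2 := by rw [← a2]; field_simp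
  have a6 := Nat.lt_floor_add_one (R / (w / 128) ^ 2)
  have a7 := Nat.floor_le (by positivity : 0 ≤ R / (w / 128) ^ 2)
  refine ⟨w / 128, ⌊R / (w / 128) ^ 2⌋₊ + 1, by linarith, by omega, ?_, ?_, ?_, ?_, ?_⟩
  · rw [Real.div_rpow hw0.le (by norm_num), le_div_iff₀ (by positivity)]
    push_cast
    have b1 : (⌊R / (w / 128) ^ 2⌋₊ : ℝ) + 1 ≤ 128 ^ 4 * u ^ 2 := by nlinarith
    have b2 : 128 ^ 4 * 128 ^ η ≤ u := by nlinarith
    calc _ ≤ 128 ^ 4 * u ^ 2 * 128 ^ η := by gcongr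
      _ = u ^ 2 * (128 ^ 4 * 128 ^ η) := by ring
      _ ≤ u ^ 2 * u := by gcongr
      _ ≤ _ := by rw [← pow_succ]; exact a3
  · rw [div_mul_eq_mul_div, hw, ← Real.rpow_add hR0]; norm_num
  · push_cast
    rwa [div_lt_iff₀ (by positivity)] at a6
  · push_cast
    rw [le_div_iff₀ (by positivity)] at a7
    have : (w / 128) ^ 2 ≤ R := by
      rw [← a2, div_pow, div_le_iff₀ (by positivity), mul_assoc]
      exact le_mul_of_one_le_right (by positivity) (by nlinarith)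
    linarith
  · rw [div_pow, le_div_iff₀ (by positivity)]
    have : 128 ^ 4 * K ≤ u := by nlinarith
    nlinarith

/-- the multiplicity over a unit cube -/
theorem mult {d : ℕ} {B : ℝ} {A : Finset (E (d + 1) × ℝ)} (hg : Gph B A) {X : E (d + 1) → E d}
    {Z : E (d + 1) → ℝ} (r3 : ∀ u v, ‖u - v‖ ^ 2 = ‖X u - X v‖ ^ 2 + (Z u - Z v) ^ 2)
    (q : Fin d → ℤ) (r : ℤ) : (#(A.filter fun p => (∀ k, ⌊X p.1 k⌋ = q k) ∧ ⌊Z p.1⌋ = r) : ℝ) ≤
      max B 1 * (4 * (((d + 1 : ℕ) : ℝ) + 1) * (d + 1)) ^ (d + 1) := by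
  rcases (A.filter fun p => (∀ k, ⌊X p.1 k⌋ = q k) ∧ ⌊Z p.1⌋ = r).eq_empty_or_nonempty with
    k | ⟨p1, hp1⟩
  · rw [k, card_empty, Nat.cast_zero]; positivity
  have hd : (0 : ℝ) ≤ d := Nat.cast_nonneg d
  refine gph hg (filter_subset _ _) (y := p1.1) (by linarith) fun p hp => ?_
  have k1 := (mem_filter.1 hp).2
  have k2 := (mem_filter.1 hp1).2
  have k3 : ‖X p.1 - X p1.1‖ ≤ d * 1 := P076N.A.norm_le_coord fun k =>
    (Int.abs_sub_lt_one_of_floor_eq_floor ((k1.1 k).trans (k2.1 k).symm)).le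
  have k4 := abs_le.1 (Int.abs_sub_lt_one_of_floor_eq_floor (k1.2.trans k2.2.symm)).le
  refine (pow_le_pow_iff_left₀ (norm_nonneg _) (by positivity) two_ne_zero).1 ?_
  rw [r3]
  nlinarith [norm_nonneg (X p.1 - X p1.1), k4.1, k4.2]

theorem large {C C1 R T e δ a M : ℝ} (hC : 0 ≤ C) (hC1 : 0 ≤ C1) (hR : 0 < R) (h1 : R ≤ T)
    (h2 : T ≤ 2 * R) (he0 : 0 ≤ e) (he1 : e ≤ 1) (hδ : 0 ≤ δ) (ha : 0 ≤ a) (hM : 0 ≤ M) :
    C * T ^ e * (a / T ^ n) ^ δ * M ≤ (2 * C + C1) * R ^ e * (a / R ^ n) ^ δ * M := by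
  have hT : 0 < T := by linarith
  have b1 : T ^ e ≤ 2 * R ^ e := by
    refine (Real.rpow_le_rpow hT.le h2 he0).trans ?_
    rw [Real.mul_rpow zero_le_two hR.le]
    gcongr
    simpa using Real.rpow_le_rpow_of_exponent_le one_le_two he1
  calc _ ≤ C * (2 * R ^ e) * (a / R ^ n) ^ δ * M := by gcongr
    _ = 2 * C * R ^ e * (a / R ^ n) ^ δ * M := by ring
    _ ≤ _ := by gcongr; linarith

theorem small {C V K R R0 e δ a M α : ℝ} (hC : 0 ≤ C) (hV : 0 ≤ V) (hK : 0 ≤ K) (hR : 1 ≤ R)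
    (h1 : R ≤ R0) (he0 : 0 ≤ e) (hδ : 0 ≤ δ) (ha : 1 ≤ a) (hM : 0 ≤ M) (h2 : α ^ 2 ≤ V * M)
    (h3 : a ≤ (K * R) ^ n) :
    α ^ 2 * a ≤ (2 * C + V * (K * R0) ^ n * (R0 ^ n) ^ δ) * R ^ e * (a / R ^ n) ^ δ * M := by
  have hRp : 0 < R := by linarith
  have hR0 : 0 < R0 := by linarith
  have ha0 : 0 < a := by linarith
  have b4 : 1 ≤ (R0 ^ n) ^ δ * (a / R ^ n) ^ δ := by
    rw [← Real.mul_rpow (by positivity) (by positivity)]
    refine Real.one_le_rpow ?_ hδ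
    rw [← mul_div_assoc, one_le_div (by positivity)]
    exact (pow_le_pow_left₀ hRp.le h1 _).trans (le_mul_of_one_le_right (by positivity) ha)
  have b5 : 1 ≤ R ^ e := Real.one_le_rpow hR he0
  calc _ ≤ V * M * (K * R0) ^ n * 1 * 1 := by
        rw [mul_one, mul_one]
        exact mul_le_mul h2 (h3.trans (by gcongr)) ha0.le (by positivity)
    _ ≤ V * M * (K * R0) ^ n * R ^ e * ((R0 ^ n) ^ δ * (a / R ^ n) ^ δ) := by gcongr
    _ = V * (K * R0) ^ n * (R0 ^ n) ^ δ * R ^ e * (a / R ^ n) ^ δ * M := by ring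
    _ ≤ _ := by gcongr; linarith

end Parx

open Parx in
/-- **[SL.PAR]** -/
theorem par (d : ℕ) : PAR d := by
  rintro hrot ⟨η, δ, hη, hδ, -, h0⟩
  set c := min η 1 / 16 with hc
  have hc0 : 0 < c := by positivity
  have hc1 : 16 * c ≤ η := by have := min_le_left η 1; linarith
  have hc2 : 16 * c ≤ 1 := by have := min_le_right η 1; linarith
  refine ⟨c, δ, hc0, hδ, fun B => ?_⟩
  obtain ⟨V, hV, hT⟩ := triv (d + 1)
  obtain ⟨C, hC, h1⟩ := h0 (max B 1 * (4 * (((d + 1 : ℕ) : ℝ) + 1) * (d + 1)) ^ (d + 1))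
  set K := max B 1 * (4 * (((d + 1 : ℕ) : ℝ) + 1)) with hK
  have hB : 1 ≤ max B 1 := le_max_right _ _
  have hK1 : 1 ≤ K := by
    have : (0 : ℝ) ≤ ((d + 1 : ℕ) : ℝ) := Nat.cast_nonneg _
    nlinarith
  set R0 := (128 ^ 4 * (128 ^ η + K)) ^ c⁻¹ with hR0
  have hR0p : 0 < R0 := by positivity
  set C1 := V * (K * R0) ^ (d + 1) * (R0 ^ (d + 1)) ^ δ with hC1
  have hC1' : 0 ≤ C1 := by positivity
  refine ⟨2 * C + C1, fun R G A α b ν hR hα hG hg hb hx hν hs => ?_⟩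
  have hRp : 0 < R := by linarith
  have hE : 0 ≤ en G := integral_nonneg fun _ => by positivity
  have he : ((d + 1 : ℕ) : ℝ) / (((d + 1 : ℕ) : ℝ) + 1) = ((d : ℝ) + 1) / (d + 2) := by
    push_cast; ring
  rw [he]
  set e := ((d : ℝ) + 1) / (d + 2) with he'
  have he0 : 0 ≤ e := by positivity
  have he1 : e ≤ 1 := by rw [he', div_le_one (by positivity)]; linarith
  have hA : (#A : ℝ) ≤ (K * R) ^ (d + 1) := by
    refine (gph hg Subset.rfl (y := 0) hR fun p hp => by simpa using hx p hp).trans ?_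
    rw [hK, mul_assoc (max B 1), mul_pow (max B 1)]
    exact mul_le_mul_of_nonneg_right (le_self_pow₀ hB (by omega)) (by positivity)
  rcases A.eq_empty_or_nonempty with rfl | ⟨p0, hp0⟩
  · simp only [card_empty, Nat.cast_zero, mul_zero]; positivity
  rcases hα.eq_or_lt with rfl | hα'
  · simp only [ne_eq, OfNat.ofNat_ne_zero, not_false_eq_true, zero_pow, zero_mul]; positivity
  rcases le_or_gt (128 ^ 4 * (128 ^ η + K)) (R ^ c) with hu | hu
  · obtain ⟨l, N, a1, a2, a3, a4, a5, a6, a7⟩ := pars hη hc0 hc1 hc2 hR hK1 hu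
    obtain ⟨ζ, hζ⟩ : ∃ ζ, G ζ ≠ 0 := by
      by_contra! k
      have := (hb p0 hp0).2.2
      simp only [Uu, evo, k, mul_zero, integral_zero, norm_zero] at this
      linarith
    have hb3 : |2 * b| ≤ 6 := by
      have b1 := abs_le.1 ((hs ζ hζ).trans (Real.rpow_le_one_of_one_le_of_nonpos hR (by linarith)))
      have b2 := abs_le.1 ((abs_real_inner_le_norm ν ζ).trans (c := 2)
        (by rw [hν, one_mul]; exact hG.supp ζ hζ))
      rw [abs_le]
      constructor <;> linarith [b1.1, b1.2, b2.1, b2.2]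
    obtain ⟨G', X, Z, r1, r2, r3, r4⟩ := hrot G ν b l hG hν fun ζ k => by
      rw [← a4]; exact mul_le_mul_of_nonneg_left (hs ζ k) (by linarith)
    have h2 := h1 l N G' _ A (fun p => X p.1) (fun p => Z p.1) (fun p => p.2) (2 * b) α a1 a2 a3 r1
      hb3 hα (mult hg r3) (fun p hp => ⟨(hb p hp).1, (hb p hp).2.1.trans_lt a5⟩)
      (hA.trans (by rw [pow_mul]; gcongr)) fun p hp => by rw [← r4]; exact (hb p hp).2.2
    rw [r2] at h2
    exact h2.trans (large hC hC1' hRp a5.le a6 he0 he1 hδ.le (Nat.cast_nonneg _) hE)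
  · have b1 : R ≤ R0 := by
      rw [hR0, Real.le_rpow_inv_iff_of_pos hRp.le (by positivity) hc0]
      exact hu.le
    have b2 : α ^ 2 ≤ V * en G :=
      (pow_le_pow_left₀ hα (hb p0 hp0).2.2 2).trans (hT G p0.1 p0.2 hG)
    have b3 : (1 : ℝ) ≤ #A := by exact_mod_cast card_pos.2 ⟨p0, hp0⟩
    exact small hC hV (by linarith) hR b1 he0 hδ.le b3 hE b2 hA

end Vale.Agent.P076N.SL
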