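import Vale.Agent.P076N.SL.Spec

/-!
# P076N / SL, row ROT : rotation and Galilean shift
-/

set_option linter.all false

open MeasureTheory Complex
open scoped RealInnerProductSpace

namespace Vale.Agent.P076N.SL

open Vale.Agent.P076 Vale.Agent.P076N

noncomputable section

namespace Rot

variable {d : ℕ} (o : OrthonormalBasis (Fin (d + 1)) ℝ (E (d + 1))) (b : ℝ)

/-- the last `d` coordinates -/
def XX (u : E (d + 1)) : E d := WithLp.toLp 2 fun j => o.repr u j.succ

/-- the first coordinate -/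
def ZZ (u : E (d + 1)) : ℝ := o.repr u 0

theorem inn (u v : E (d + 1)) : ⟪u, v⟫ = ⟪XX o u, XX o v⟫ + ZZ o u * ZZ o v := by
  rw [← o.repr.inner_map_map, PiLp.inner_apply, PiLp.inner_apply, Fin.sum_univ_succ, add_comm]
  simp [XX, ZZ, mul_comm]

theorem nrm (u : E (d + 1)) : ‖u‖ ^ 2 = ‖XX o u‖ ^ 2 + ZZ o u ^ 2 := by
  rw [← real_inner_self_eq_norm_sq, ← real_inner_self_eq_norm_sq, inn o, sq]

theorem XX_sub (u v : E (d + 1)) : XX o (u - v) = XX o u - XX o v := by
  ext j; simp [XX]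

theorem ZZ_sub (u v : E (d + 1)) : ZZ o (u - v) = ZZ o u - ZZ o v := by simp [ZZ]

/-- the coordinates -/
def eq : E (d + 1) ≃ᵐ E d × ℝ :=
  (((o.measurableEquiv.trans (MeasurableEquiv.toLp 2 (Fin (d + 1) → ℝ)).symm).trans
    (MeasurableEquiv.piFinSuccAbove (fun _ => ℝ) 0)).trans MeasurableEquiv.prodComm).trans
    ((MeasurableEquiv.toLp 2 (Fin d → ℝ)).prodCongr (MeasurableEquiv.addRight (-b)))

theorem eq_apply (u : E (d + 1)) : eq o b u = (XX o u, ZZ o u + -b) := rfl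

theorem mp : MeasurePreserving (eq o b) volume volume :=
  ((PiLp.volume_preserving_toLp (Fin d)).prod (measurePreserving_add_right volume (-b))).comp
    (Measure.measurePreserving_swap.comp ((volume_preserving_piFinSuccAbove (fun _ => ℝ) 0).comp
      ((PiLp.volume_preserving_ofLp (Fin (d + 1))).comp o.measurePreserving_repr)))

theorem XX_symm (p : E d × ℝ) : XX o ((eq o b).symm p) = p.1 :=
  congrArg Prod.fst ((eq o b).apply_symm_apply p)

theorem ZZ_symm (p : E d × ℝ) : ZZ o ((eq o b).symm p) = p.2 + b := by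
  have : ZZ o ((eq o b).symm p) + -b = p.2 := congrArg Prod.snd ((eq o b).apply_symm_apply p)
  linarith

theorem int {m : ℕ} {r : ℝ} {G : E m → ℂ} (h : Bd r G) : Integrable G := by
  obtain ⟨c, hc⟩ := h.bdd
  refine (Measure.integrableOn_of_bounded (s := Metric.closedBall (0 : E m) r)
    (isCompact_closedBall _ _).measure_lt_top.ne h.meas.aestronglyMeasurable
    (ae_of_all _ hc)).integrable_of_forall_notMem_eq_zero fun η hη => ?_
  by_contra k
  exact hη (mem_closedBall_zero_iff.2 (h.supp η k))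

theorem phase (u : E (d + 1)) (t : ℝ) (ξ : E d) (ζ : ℝ) :
    cexp (2 * Real.pi * I * ((⟪u, (eq o b).symm (ξ, ζ)⟫ - t * ‖(eq o b).symm (ξ, ζ)‖ ^ 2 : ℝ) : ℂ) -
      (0 * ‖(eq o b).symm (ξ, ζ)‖ ^ 2 : ℝ)) = X.ex (ZZ o u * b - t * b ^ 2) *
      (cexp (2 * Real.pi * I * ((⟪XX o u, ξ⟫ - t * ‖ξ‖ ^ 2 : ℝ) : ℂ) - (0 * ‖ξ‖ ^ 2 : ℝ)) *
        X.ex ((ZZ o u - 2 * b * t) * ζ - t * ζ ^ 2)) := by
  rw [inn o, nrm o, XX_symm, ZZ_symm, X.ex, X.ex, ← Complex.exp_add, ← Complex.exp_add]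
  congr 1
  push_cast
  ring

end Rot

open Rot

theorem rot (d : ℕ) : ROT d := by
  intro G ν b l hG hν hs
  obtain ⟨o, ho⟩ := Orthonormal.exists_orthonormalBasis_extension_of_card_eq (𝕜 := ℝ)
    (ι := Fin (d + 1)) (E := E (d + 1)) (by simp) (v := fun _ => ν) (s := {0})
    ⟨fun _ => hν, fun i j hij => (hij (Subsingleton.elim i j)).elim⟩
  have ms := (mp o b).symm (eq o b)
  obtain ⟨c, hc⟩ := hG.bdd
  refine ⟨fun p => G ((eq o b).symm p), XX o, ZZ o,
    ⟨hG.meas.comp (eq o b).symm.measurable, ⟨c, fun p => hc _⟩, fun p hp => ⟨?_, ?_⟩⟩,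
    ms.integral_comp' fun η => ‖G η‖ ^ 2, fun u v => by rw [nrm o, XX_sub, ZZ_sub],
    fun u t => ?_⟩
  · have h1 := nrm o ((eq o b).symm p)
    rw [XX_symm] at h1
    exact (le_of_sq_le_sq (by nlinarith [sq_nonneg (ZZ o ((eq o b).symm p))])
      (norm_nonneg _)).trans (hG.supp _ hp)
  · have h1 := hs _ hp
    have h2 := ZZ_symm o b p
    rw [ZZ, o.repr_apply_apply, ho 0 rfl] at h2
    rwa [h2, add_sub_cancel_right] at h1
  · have i : Integrable fun η : E (d + 1) => cexp (2 * Real.pi * I *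
        ((⟪u, η⟫ - t * ‖η‖ ^ 2 : ℝ) : ℂ) - (0 * ‖η‖ ^ 2 : ℝ)) * G η :=
      (int hG).bdd_mul (c := 1) (Continuous.aestronglyMeasurable (by fun_prop))
        (ae_of_all _ fun η => by
          rw [Complex.norm_exp]
          simp [-ofReal_sub, -ofReal_mul])
    have n : ‖X.ex (ZZ o u * b - t * b ^ 2)‖ = 1 := Complex.norm_exp_ofReal_mul_I _
    have j := (ms.integral_comp' _).symm.trans
      (integral_prod _ (ms.integrable_comp_of_integrable i))
    rw [evo, j, evo, ← one_mul ‖∫ ξ : E d, _ * slc _ _ _ ξ‖, ← n, ← norm_mul, ← integral_const_mul]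
    congr 2 with ξ
    rw [slc, X.sol, ← integral_const_mul, ← integral_const_mul]
    congr 1 with ζ
    rw [phase]
    ring

end

end Vale.Agent.P076N.SL
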