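import Vale.Agent.P076N.Fun
import Vale.Agent.P076.X.Defs

/-!
# P076N / SL : the thick slab from the one-block count (notes/P076/alln.md, section 8)

Definitions, the rows (as `Prop`s) and the assembly `slab_of`.
The frequency variable is `(ξ, ζ) ∈ E d × ℝ`, with `ζ` in an interval of length `≈ 1 / l`.
-/

set_option linter.all false

open MeasureTheory Finset
open scoped RealInnerProductSpace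

namespace Vale.Agent.P076N.SL

open Vale.Agent.P076 Vale.Agent.P076N

noncomputable section

variable {d : ℕ}

/-- bounded measurable data in the strip `‖ξ‖ ≤ 2`, `|ζ| ≤ 1 / (128 l)` -/
structure Str (l : ℝ) (G : E d × ℝ → ℂ) : Prop where
  meas : Measurable G
  bdd : ∃ b : ℝ, ∀ p, ‖G p‖ ≤ b
  supp : ∀ p, G p ≠ 0 → ‖p.1‖ ≤ 2 ∧ l * |p.2| ≤ 1 / 128

/-- the energy -/
def en2 (G : E d × ℝ → ℂ) : ℝ := ∫ p, ‖G p‖ ^ 2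

/-- the evolution in the thin variable only; the full evolution is `evo (slc G y t) x t 0` -/
def slc (G : E d × ℝ → ℂ) (y s : ℝ) (ξ : E d) : ℂ := X.sol (fun ζ => G (ξ, ζ)) y s

/-- the Taylor pieces -/
def tw (l : ℝ) (j : ℕ) (G : E d × ℝ → ℂ) (p : E d × ℝ) : ℂ := ((64 * l * p.2 : ℝ) : ℂ) ^ j * G p

/-- the frequency cell (side `1 / (2 L)`) -/
def cel (L : ℝ) (ξ : E d) : Fin d → ℤ := fun k => ⌊2 * L * ξ k⌋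

/-- restriction to a set of cells -/
def cut (L : ℝ) (Θ : Finset (Fin d → ℤ)) (h : E d → ℂ) : E d → ℂ := {ξ | cel L ξ ∈ Θ}.indicator h

/-- the cells which may meet the ball of radius `2` -/
def TT (d : ℕ) (L : ℝ) : Finset (Fin d → ℤ) := Fintype.piFinset fun _ => Finset.Icc (-(⌈4 * L⌉ + 1)) (⌈4 * L⌉ + 1)

/-- the displacement, in units of `l²`, of the direction `τ` after time `β l²` -/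
def sh (L : ℝ) (β : ℤ) (τ : Fin d → ℤ) : Fin d → ℤ := fun k => ⌊(β : ℝ) * τ k / L⌋

/-- spatial weights with bounded overlap -/
structure Wt (B : ℝ) (ω : (Fin d → ℤ) → E d → ℝ) : Prop where
  meas : ∀ Q, Measurable (ω Q)
  nn : ∀ Q x, 0 ≤ ω Q x
  le1 : ∀ Q x, ω Q x ≤ 1
  sum : ∀ (J : Finset (Fin d → ℤ)) x, ∑ Q ∈ J, ω Q x ≤ B

/-- the weighted energy at time `0` -/
def ee (w : E d → ℝ) (h : E d → ℂ) : ℝ := ∫ x, w x * ‖evo h x 0 0‖ ^ 2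

/-- the cube of side `s` -/
def cb (s : ℝ) (x : E d) : Fin d → ℤ := fun k => ⌊x k / s⌋

/-- blocks `(Q, β, P)` -/
abbrev Bk (d : ℕ) := (Fin d → ℤ) × ℤ × ℤ

/-- the tube through the block `b` in the direction `τ` -/
def tb (L : ℝ) (b : Bk d) (τ : Fin d → ℤ) : (Fin d → ℤ) × ℤ := (b.1 - sh L b.2.1 τ, b.2.2)

/-- the bound for one class -/
def rhs (d : ℕ) (δ l N a : ℝ) : ℝ :=
  N ^ (((d : ℝ) + 1) / (d + 2)) * l ^ ((d : ℝ) / (d + 2)) * (a / (l ^ (2 * d + 1) * N ^ (d + 1))) ^ δ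

/-- the bound for one block: `φ` is the proportion of directions, `Y` the energy -/
def kb (d : ℕ) (κ δ l α φ Y : ℝ) : ℝ :=
  φ ^ δ * l ^ (2 * d + 2) * (Y / (l ^ (2 * d) * α ^ 2)) ^ (((d : ℝ) + 2) / d) +
    l ^ (2 * ((d : ℝ) + 1) / (d + 2) - κ) * (Y / α ^ 2)

/-! ## the chain of statements -/

/-- rotated form: bounded multiplicity over unit cubes of `(x, z)` -/
def SL0 (d : ℕ) : Prop := ∃ η δ : ℝ, 0 < η ∧ 0 < δ ∧ δ ≤ 1 ∧ ∀ B : ℝ, ∃ C : ℝ, 0 ≤ C ∧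
  ∀ (l : ℝ) (N : ℕ) (G : E d × ℝ → ℂ) (ι : Type) (A : Finset ι) (x : ι → E d) (z t : ι → ℝ) (b α : ℝ),
    1 ≤ l → 1 ≤ N → (N : ℝ) ≤ l ^ η → Str l G → |b| ≤ 6 → 0 ≤ α →
    (∀ (q : Fin d → ℤ) (r : ℤ), (#(A.filter fun i => (∀ k, ⌊x i k⌋ = q k) ∧ ⌊z i⌋ = r) : ℝ) ≤ B) →
    (∀ i ∈ A, 0 ≤ t i ∧ t i < N * l ^ 2) → (#A : ℝ) ≤ l ^ (4 * (d + 1)) →
    (∀ i ∈ A, α ≤ ‖evo (slc G (z i - b * t i) (t i)) (x i) (t i) 0‖) →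
    α ^ 2 * #A ≤ C * ((N : ℝ) * l ^ 2) ^ (((d : ℝ) + 1) / (d + 2)) * ((#A : ℝ) / ((N : ℝ) * l ^ 2) ^ (d + 1)) ^ δ * en2 G

/-- one colour class: separated at scale `1` in `x` or at scale `8 l` in `z` -/
def SL1 (d : ℕ) : Prop := ∃ η δ : ℝ, 0 < η ∧ 0 < δ ∧ δ ≤ 1 ∧ ∃ C : ℝ, 0 ≤ C ∧
  ∀ (l : ℝ) (N : ℕ) (G : E d × ℝ → ℂ) (ι : Type) (A : Finset ι) (x : ι → E d) (z t : ι → ℝ) (b α : ℝ),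
    1 ≤ l → 1 ≤ N → (N : ℝ) ≤ l ^ η → Str l G → |b| ≤ 6 → 0 ≤ α →
    (∀ i ∈ A, ∀ j ∈ A, i ≠ j → (∃ k, 1 ≤ |x i k - x j k|) ∨ 8 * l ≤ |z i - z j|) →
    (∀ i ∈ A, 0 ≤ t i ∧ t i < N * l ^ 2) → (#A : ℝ) ≤ l ^ (4 * (d + 1)) →
    (∀ i ∈ A, α ≤ ‖evo (slc G (z i - b * t i) (t i)) (x i) (t i) 0‖) →
    α ^ 2 * #A ≤ C * rhs d δ l N #A * en2 G

/-- frozen form: the thin variables are rounded to the grids `l ℤ` and `l² ℤ` -/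
def SL2 (d : ℕ) : Prop := ∃ η δ : ℝ, 0 < η ∧ 0 < δ ∧ δ ≤ 1 ∧ ∃ C : ℝ, 0 ≤ C ∧
  ∀ (l : ℝ) (N : ℕ) (G : E d × ℝ → ℂ) (ι : Type) (A : Finset ι) (x : ι → E d) (t : ι → ℝ) (Y : ι → ℤ) (α : ℝ),
    1 ≤ l → 1 ≤ N → (N : ℝ) ≤ l ^ η → Str l G → 0 ≤ α →
    (∀ i ∈ A, ∀ j ∈ A, i ≠ j → (∃ k, 1 ≤ |x i k - x j k|) ∨ l ≤ |t i - t j| ∨ Y i ≠ Y j) →
    (∀ b : Bk d, (#(A.filter fun i => (cb (l ^ 2) (x i), ⌊t i / l ^ 2⌋, ⌊(Y i : ℝ) / l⌋) = b) : ℝ) ≤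
      4 ^ (d + 1) * l ^ (2 * d + 1)) →
    (∀ i ∈ A, 0 ≤ t i ∧ t i < N * l ^ 2) → (#A : ℝ) ≤ l ^ (4 * (d + 1)) →
    (∀ i ∈ A, α ≤ ‖evo (slc G (l * Y i) (l ^ 2 * ⌊t i / l ^ 2⌋)) (x i) (t i) 0‖) →
    α ^ 2 * #A ≤ C * rhs d δ l N #A * en2 G

/-- `KEY` in one block of the grid, for data on a set of cells -/
def KC (d : ℕ) : Prop := ∃ η κ δ C : ℝ, 0 < η ∧ η ≤ 1 ∧ 0 < κ ∧ 0 < δ ∧ 0 ≤ C ∧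
  ∀ (l L : ℝ) (g : E d → ℂ) (Θ : Finset (Fin d → ℤ)) (Q : Fin d → ℤ) (β : ℤ) (ι : Type) (A : Finset ι) (x : ι → E d)
    (t : ι → ℝ) (α : ℝ), 1 ≤ l → 1 ≤ L → L ≤ l ^ η → Bd 3 g →
    (∀ ξ, g ξ ≠ 0 → ∃ τ ∈ Θ, ∀ k, |2 * L * ξ k - τ k| ≤ 3) → 0 < α →
    (∀ i ∈ A, cb (l ^ 2) (x i) = Q ∧ ⌊t i / l ^ 2⌋ = β) →
    (∀ i ∈ A, ∀ j ∈ A, i ≠ j → (∃ k, 1 ≤ |x i k - x j k|) ∨ l ≤ |t i - t j|) →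
    (∀ i ∈ A, α ≤ ‖evo g (x i) (t i) 0‖) →
    (#A : ℝ) ≤ C * kb d κ δ l α (#Θ / L ^ d) (en g)

/-- the energy seen from the block `(Q, β)` in the directions `Θ` -/
def eb (L : ℝ) (ω : (Fin d → ℤ) → E d → ℝ) (h : E d → ℂ) (Q : Fin d → ℤ) (β : ℤ) (Θ : Finset (Fin d → ℤ)) : ℝ :=
  ∑ τ ∈ Θ, ee (ω (Q - sh L β τ)) (cut L {τ} h)

/-- the localised count in one block, split along a set of directions -/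
def KL (d : ℕ) : Prop := ∃ η κ δ : ℝ, 0 < η ∧ η ≤ 1 ∧ 0 < κ ∧ 0 < δ ∧ ∀ a : ℕ, ∃ C : ℝ, 0 ≤ C ∧
  ∀ l : ℝ, 1 ≤ l → ∃ ω : (Fin d → ℤ) → E d → ℝ, Wt (19 ^ d) ω ∧
    ∀ (h : E d → ℂ) (Θ : Finset (Fin d → ℤ)) (Q : Fin d → ℤ) (β : ℤ) (ι : Type) (A : Finset ι) (x : ι → E d)
      (t : ι → ℝ) (α : ℝ), Bd 2 h → Θ ⊆ TT d (l ^ η) → 0 ≤ β → (β : ℝ) ≤ l ^ (η / 2) → 0 < α →
      C * (l ^ a)⁻¹ * en h ≤ α ^ 2 →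
      (∀ i ∈ A, cb (l ^ 2) (x i) = Q ∧ ⌊t i / l ^ 2⌋ = β) →
      (∀ i ∈ A, ∀ j ∈ A, i ≠ j → (∃ k, 1 ≤ |x i k - x j k|) ∨ l ≤ |t i - t j|) →
      (∀ i ∈ A, α ≤ ‖evo h (x i) (t i) 0‖) →
      (#A : ℝ) ≤ C * kb d κ δ l α (#Θ / (l ^ η) ^ d) (eb (l ^ η) ω h Q β Θ) +
        C * kb d κ δ l α (#(TT d (l ^ η) \ Θ) / (l ^ η) ^ d) (eb (l ^ η) ω h Q β (TT d (l ^ η) \ Θ))

/-! ## the rows -/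

/-- **[SL.BAS]** basic facts -/
def BAS (d : ℕ) : Prop :=
  (∀ (l : ℝ) (G : E d × ℝ → ℂ) (y s : ℝ), 1 ≤ l → Str l G → Bd 2 (slc G y s) ∧ en (slc G y s) ≤ en2 G) ∧
  (∀ (l : ℝ) (G : E d × ℝ → ℂ) (j : ℕ), 1 ≤ l → Str l G → Str l (tw l j G) ∧ en2 (tw l j G) ≤ en2 G) ∧
  (∀ (L r : ℝ) (Θ : Finset (Fin d → ℤ)) (h : E d → ℂ), Bd r h → Bd r (cut L Θ h) ∧ en (cut L Θ h) ≤ en h) ∧
  (∀ L : ℝ, 1 ≤ L → (#(TT d L) : ℝ) ≤ 13 ^ d * L ^ d ∧ (∀ τ ∈ TT d L, ∀ k, |(τ k : ℝ)| ≤ 6 * L) ∧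
    ∀ ξ : E d, ‖ξ‖ ≤ 2 → cel L ξ ∈ TT d L) ∧
  (∀ (L : ℝ) (Θ : Finset (Fin d → ℤ)) (h : E d → ℂ) (x : E d) (t : ℝ), 1 ≤ L → Bd 2 h → Θ ⊆ TT d L →
    evo h x t 0 = evo (cut L Θ h) x t 0 + evo (cut L (TT d L \ Θ) h) x t 0) ∧
  (∀ (L r : ℝ) (Θ : Finset (Fin d → ℤ)) (h : E d → ℂ) (x : E d) (t : ℝ), Bd r h →
    evo (cut L Θ h) x t 0 = ∑ τ ∈ Θ, evo (cut L {τ} h) x t 0)

/-- **[SL.ROT]** rotation and Galilean shift -/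
def ROT (d : ℕ) : Prop := ∀ (G : E (d + 1) → ℂ) (ν : E (d + 1)) (b l : ℝ), Bd 2 G → ‖ν‖ = 1 →
  (∀ η, G η ≠ 0 → l * |⟪ν, η⟫ - b| ≤ 1 / 128) →
  ∃ (G' : E d × ℝ → ℂ) (X : E (d + 1) → E d) (Z : E (d + 1) → ℝ), Str l G' ∧ en2 G' = en G ∧
    (∀ u v, ‖u - v‖ ^ 2 = ‖X u - X v‖ ^ 2 + (Z u - Z v) ^ 2) ∧
    ∀ u t, ‖evo G u t 0‖ = ‖evo (slc G' (Z u - 2 * b * t) t) (X u) t 0‖

/-- **[SL.PAR]** choice of the parameters -/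
def PAR (d : ℕ) : Prop := ROT d → SL0 d → TS (d + 1)

/-- **[SL.MULT]** colouring -/
def MULT (d : ℕ) : Prop := SL1 d → SL0 d

/-- **[SL.TAY]** Taylor expansion in the thin variable -/
def TAY (d : ℕ) : Prop := ∀ (l : ℝ) (G : E d × ℝ → ℂ) (x : E d) (t y y0 s s0 α : ℝ), 1 ≤ l → Str l G →
  |y - y0| ≤ l → |s - s0| ≤ l ^ 2 → α ≤ ‖evo (slc G y s) x t 0‖ →
  ∃ j : ℕ, 8 ^ j * α / 8 ≤ ‖evo (slc (tw l j G) y0 s0) x t 0‖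

/-- **[SL.FRZ]** freezing the thin variables -/
def FRZ (d : ℕ) : Prop := BAS d → TAY d → SL2 d → SL1 d

/-- **[SL.KB]** from `KEY` to the grid form -/
def KB (d : ℕ) : Prop := KEY d → KC d

/-- **[SL.LOC]** spatial localisation along tubes -/
def LOC (d : ℕ) : Prop := ∀ η : ℝ, 0 < η → η ≤ 1 → ∀ a : ℕ, ∃ C : ℝ, 0 ≤ C ∧
  ∀ l : ℝ, 1 ≤ l → ∃ ω : (Fin d → ℤ) → E d → ℝ, Wt (19 ^ d) ω ∧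
    ∀ (h : E d → ℂ) (Θ : Finset (Fin d → ℤ)) (Q : Fin d → ℤ) (β : ℤ), Bd 2 h → Θ ⊆ TT d (l ^ η) → 0 ≤ β →
      (β : ℝ) ≤ l ^ (η / 2) → ∃ g : E d → ℂ, Bd 3 g ∧ (∀ ξ, g ξ ≠ 0 → ∃ τ ∈ Θ, ∀ k, |2 * l ^ η * ξ k - τ k| ≤ 3) ∧
        en g ≤ C * eb (l ^ η) ω h Q β Θ ∧
        ∀ (x : E d) (t : ℝ), cb (l ^ 2) x = Q → ⌊t / l ^ 2⌋ = β →
          ‖evo (cut (l ^ η) Θ h) x t 0 - evo g x t 0‖ ^ 2 ≤ C * (l ^ a)⁻¹ * en h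

/-- **[SL.KLA]** the localised count -/
def KLA (d : ℕ) : Prop := BAS d → KC d → LOC d → KL d

/-- **[SL.TT3]** the one-dimensional `TT*` bound -/
def TT3 : Prop := ∃ C : ℝ, 0 ≤ C ∧ ∀ (l σ K : ℝ) (g : ℝ → ℂ) (ι : Type) (I : Finset ι) (P β : ι → ℤ) (y : ι → ℝ),
  1 ≤ l → 0 < σ → Measurable g → (∃ b : ℝ, ∀ ζ, ‖g ζ‖ ≤ b) → (∀ ζ, g ζ ≠ 0 → l * |ζ| ≤ 1) →
  (∀ i ∈ I, ∀ j ∈ I, P i = P j → β i = β j → i = j) → (∀ i ∈ I, |y i - P i * σ| ≤ σ) →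
  (∀ i ∈ I, ∀ j ∈ I, l ^ 2 * (1 + ((β i : ℝ) - β j) ^ 2) ≤ 2 * σ ^ 2) →
  (∀ i ∈ I, (#(I.filter fun j => P j = P i) : ℝ) ≤ K) →
  ∑ i ∈ I, ‖X.sol g (y i) (l ^ 2 * β i)‖ ^ 2 ≤ C * √K / l * X.ms g

/-- the energy of a tube family -/
def EN (d : ℕ) : Prop := ∃ C : ℝ, 0 ≤ C ∧ ∀ (B l L : ℝ) (ω : (Fin d → ℤ) → E d → ℝ) (G : E d × ℝ → ℂ),
  1 ≤ l → Wt B ω → Str l G → ∃ m : (Fin d → ℤ) × (Fin d → ℤ) → ℝ, (∀ u, 0 ≤ m u) ∧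
    (∀ J : Finset ((Fin d → ℤ) × (Fin d → ℤ)), ∑ u ∈ J, m u ≤ B * en2 G) ∧
    ∀ (τ Q : Fin d → ℤ) (σ K : ℝ) (ι : Type) (I : Finset ι) (P β : ι → ℤ) (y : ι → ℝ), 0 < σ →
      (∀ i ∈ I, ∀ j ∈ I, P i = P j → β i = β j → i = j) → (∀ i ∈ I, |y i - P i * σ| ≤ σ) →
      (∀ i ∈ I, ∀ j ∈ I, l ^ 2 * (1 + ((β i : ℝ) - β j) ^ 2) ≤ 2 * σ ^ 2) →
      (∀ i ∈ I, (#(I.filter fun j => P j = P i) : ℝ) ≤ K) →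
      ∑ i ∈ I, ee (ω Q) (cut L {τ} (slc G (y i) (l ^ 2 * β i))) ≤ C * √K / l * m (τ, Q)

/-- **[SL.ENA]** Fubini and Plancherel -/
def ENA (d : ℕ) : Prop := TT3 → EN d

/-- the X-ray count -/
def XR (d : ℕ) : Prop := ∀ (L : ℝ) (N : ℕ) (D : Finset (Bk d)), 1 ≤ L → (N : ℝ) ≤ L →
  (∀ b ∈ D, 0 ≤ b.2.1 ∧ b.2.1 < N) → ∀ b ∈ D,
    (∀ τ, (#(D.filter fun b' => tb L b' τ = tb L b τ) : ℝ) ≤ N) ∧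
    ∑ τ ∈ TT d L, (#(D.filter fun b' => tb L b' τ = tb L b τ) : ℝ) ≤
      4 * 13 ^ d * (#D : ℝ) ^ (1 / ((d : ℝ) + 1)) * L ^ d

/-- **[SL.XRA]** lattice counting -/
def XRA (d : ℕ) : Prop := BAS d → XR d

/-- **[SL.NUM]** the numerical core -/
def NUM (d : ℕ) : Prop := ∀ δ0 : ℝ, 0 < δ0 → ∃ δ : ℝ, 0 < δ ∧ ∀ B : ℝ, 1 ≤ B → ∃ C : ℝ, 0 ≤ C ∧
  ∀ (β γ θ u : Type) [DecidableEq θ] [DecidableEq u] (S : Finset β) (Y : β → Finset γ) (T : Finset θ) (tb : β → θ → u) (m : β → γ → ℝ)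
    (e : β → γ → θ → ℝ) (N V Z ε : ℝ), 1 ≤ N → 0 < V → 0 ≤ Z → 0 ≤ ε → (#T : ℝ) ≤ B * V →
    (∀ b ∈ S, (Y b).Nonempty) → (∀ b y, 0 ≤ m b y) → (∀ b y τ, 0 ≤ e b y τ) →
    (∀ b ∈ S, ∀ y ∈ Y b, ∀ Θ ⊆ T, m b y ≤
      B * ((#Θ / V) ^ δ0 * (∑ τ ∈ Θ, e b y τ) ^ (((d : ℝ) + 2) / d) + ε * ∑ τ ∈ Θ, e b y τ) +
      B * ((#(T \ Θ) / V) ^ δ0 * (∑ τ ∈ T \ Θ, e b y τ) ^ (((d : ℝ) + 2) / d) + ε * ∑ τ ∈ T \ Θ, e b y τ)) →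
    (∀ b ∈ S, ∑ y ∈ Y b, m b y ≤ B) →
    ∑ b ∈ S, ∑ y ∈ Y b, ∑ τ ∈ T, e b y τ ≤ N * Z →
    (∀ D ⊆ S, ∀ (Θ : β → Finset θ) (y : β → γ) (K : ℝ), (∀ b ∈ D, Θ b ⊆ T) → (∀ b ∈ D, y b ∈ Y b) →
      (∀ b ∈ D, ∀ τ ∈ Θ b, (#(D.filter fun b' => tb b' τ = tb b τ) : ℝ) ≤ K) →
      ∑ b ∈ D, ∑ τ ∈ Θ b, e b (y b) τ ≤ √K * Z) →
    (∀ D ⊆ S, ∀ b ∈ D, (∀ τ, (#(D.filter fun b' => tb b' τ = tb b τ) : ℝ) ≤ N) ∧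
      ∑ τ ∈ T, (#(D.filter fun b' => tb b' τ = tb b τ) : ℝ) ≤ B * (#D : ℝ) ^ (1 / ((d : ℝ) + 1)) * V) →
    ∑ b ∈ S, ∑ y ∈ Y b, m b y ≤
      C * ((min 1 ((∑ b ∈ S, ∑ y ∈ Y b, m b y) / N ^ (d + 1))) ^ δ * N ^ (((d : ℝ) + 1) / (d + 2)) + ε * N) * Z

/-- **[SL.ASM]** the main assembly -/
def ASM (d : ℕ) : Prop := BAS d → KL d → EN d → XR d → NUM d → SL2 d

/-- the rows -/
structure Rows : Prop where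
  bas : ∀ d, BAS d
  rot : ∀ d, ROT d
  par : ∀ d, PAR d
  mult : ∀ d, MULT d
  tay : ∀ d, TAY d
  frz : ∀ d, FRZ d
  kb : ∀ d, 1 ≤ d → KB d
  loc : ∀ d, LOC d
  kla : ∀ d, 1 ≤ d → KLA d
  tt3 : TT3
  ena : ∀ d, ENA d
  xra : ∀ d, XRA d
  num : ∀ d, 1 ≤ d → NUM d
  asm : ∀ d, 1 ≤ d → ASM d

theorem slab_of (h : Rows) (d : ℕ) (hd : 2 ≤ d) (hk : KEY d) : TS (d + 1) := by
  have h1 : 1 ≤ d := by omega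
  exact h.par d (h.rot d) (h.mult d (h.frz d (h.bas d) (h.tay d) (h.asm d h1 (h.bas d)
    (h.kla d h1 (h.bas d) (h.kb d h1 hk) (h.loc d)) (h.ena d h.tt3) (h.xra d (h.bas d)) (h.num d h1))))

end

end Vale.Agent.P076N.SL
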