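import Vale.Agent.P076N.SL.Spec

/-!
# P076N / SL : rows for the local form of `KEY`

Blocks have side `T = l ^ (2 - η)`, the big blocks (where the data are frozen) have side `S = J T ≈ l²`,
the frequency cells have side `1 / (2 L)`, `L = l ^ (2 η)`.
-/

set_option linter.all false

open MeasureTheory Finset

namespace Vale.Agent.P076N.SL

open Vale.Agent.P076 Vale.Agent.P076N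

noncomputable section

variable {d : ℕ}

/-- frozen form: the thin variables are rounded to the grids `l ℤ` and `S ℤ` -/
def SL3 (d : ℕ) : Prop := ∃ η δ : ℝ, 0 < η ∧ 0 < δ ∧ δ ≤ 1 ∧ ∃ C : ℝ, 0 ≤ C ∧ ∀ l : ℝ, 1 ≤ l →
  ∃ T S : ℝ, l ≤ T ∧ 0 < S ∧ S ≤ l ^ 2 ∧
  ∀ (N : ℕ) (G : E d × ℝ → ℂ) (ι : Type) (A : Finset ι) (x : ι → E d) (t : ι → ℝ) (Y : ι → ℤ) (α : ℝ),
    1 ≤ N → (N : ℝ) ≤ l ^ η → Str l G → 0 ≤ α →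
    (∀ i ∈ A, ∀ j ∈ A, i ≠ j → (∃ k, 1 ≤ |x i k - x j k|) ∨ l ≤ |t i - t j| ∨ Y i ≠ Y j) →
    (∀ b : Bk d, (#(A.filter fun i => (cb T (x i), ⌊t i / T⌋, ⌊l * Y i / T⌋) = b) : ℝ) ≤ 4 ^ (d + 1) * (T ^ (d + 1) / l)) →
    (∀ i ∈ A, 0 ≤ t i ∧ t i < N * l ^ 2) → (#A : ℝ) ≤ l ^ (4 * (d + 1)) →
    (∀ i ∈ A, α ≤ ‖evo (slc G (l * Y i) (S * ⌊t i / S⌋)) (x i) (t i) 0‖) →
    α ^ 2 * #A ≤ C * rhs d δ l N #A * en2 G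

/-- `KEY` for indexed points, in a big block with corner on the grid of side `T` -/
def KC2 (d : ℕ) : Prop := ∃ η κ δ C : ℝ, 0 < η ∧ η ≤ 1 / 2 ∧ 0 < κ ∧ 0 < δ ∧ 0 ≤ C ∧
  ∀ (l T L : ℝ) (g : E d → ℂ) (q0 : (Fin d → ℤ) × ℤ) (ι : Type) (A : Finset ι) (x : ι → E d) (t : ι → ℝ) (α φ : ℝ),
    1 ≤ l → T = l ^ (2 - η) → L = l ^ (2 * η) → Bd 3 g → 0 < α → 0 ≤ φ →
    (∀ i ∈ A, ‖x i - (cor T q0).1‖ ≤ l ^ 2 ∧ T * q0.2 ≤ t i ∧ t i ≤ T * q0.2 + l ^ 2) →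
    (∀ i ∈ A, ∀ j ∈ A, i ≠ j → (∃ k, 1 ≤ |x i k - x j k|) ∨ l ≤ |t i - t j|) →
    (∀ i ∈ A, α ≤ ‖evo g (x i) (t i) 0‖) →
    (∀ i ∈ A, ∃ (h : E d → ℂ) (Θ : Finset (Fin d → ℤ)), Bd 3 h ∧ en h ≤ l ^ (20 * d) * α ^ 2 ∧
      (∀ ξ, h ξ ≠ 0 → ∃ τ ∈ Θ, ∀ k, |2 * L * ξ k - τ k| ≤ 3) ∧ (#Θ : ℝ) ≤ φ * L ^ d ∧
      lE (g - h) (cor T (cub T (x i, t i))) (100 * d * T) ≤ (l ^ (10 * d))⁻¹ * α ^ 2) →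
    ∃ A' ⊆ A, (#A : ℝ) ≤ #A' + C * l ^ (2 * ((d : ℝ) + 1) / (d + 2) - κ) * (en g / α ^ 2) ∧
      ∀ q, (#(A'.filter fun i => cub T (x i, t i) = q) : ℝ) ≤
        C * φ ^ δ * T ^ (d + 1) * (lE g (cor T q) (100 * d * T) / (T ^ d * α ^ 2)) ^ (((d : ℝ) + 2) / d)

/-- the tube `(τ, Q0)` passes near the cube `q` -/
def nr (L : ℝ) (q : (Fin d → ℤ) × ℤ) (τ Q0 : Fin d → ℤ) : Prop := ∀ k, |Q0 k - (q.1 - sh L q.2 τ) k| ≤ 100 * d + 3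

/-- the localised count in one big block, split along a set `s` of tubes -/
def KL2 (d : ℕ) : Prop := ∃ η κ δ C l0 : ℝ, 0 < η ∧ η ≤ 1 / 2 ∧ 0 < κ ∧ 0 < δ ∧ 0 ≤ C ∧
  ∀ (l T L S : ℝ) (J : ℕ), 1 ≤ l → l0 ≤ l → T = l ^ (2 - η) → L = l ^ (2 * η) → 1 ≤ J → S = J * T → (d + 1) * S ≤ l ^ 2 →
    ∃ ω ω' : (Fin d → ℤ) → E d → ℝ, Wt C ω ∧ Wt C ω' ∧
    ∀ (h : E d → ℂ) (Q' : Fin d → ℤ) (β' : ℤ) (s : (Fin d → ℤ) × (Fin d → ℤ) → Prop)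
      (Θb Θg : (Fin d → ℤ) × ℤ → Finset (Fin d → ℤ)) (ι : Type) (A : Finset ι) (x : ι → E d) (t : ι → ℝ) (α φ : ℝ),
      Bd 2 h → 0 < α → 0 ≤ φ → φ ≤ 13 ^ d → en h ≤ l ^ (8 * (d + 1)) * α ^ 2 →
      (∀ i ∈ A, cb S (x i) = Q' ∧ ⌊t i / S⌋ = β' ∧ 0 ≤ t i ∧ t i ≤ l ^ (2 + η / 2)) →
      (∀ i ∈ A, ∀ j ∈ A, i ≠ j → (∃ k, 1 ≤ |x i k - x j k|) ∨ l ≤ |t i - t j|) →
      (∀ i ∈ A, α ≤ ‖evo h (x i) (t i) 0‖) →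
      (∀ i ∈ A, ∀ q, cub T (x i, t i) = q → Θb q ⊆ TT d L ∧ Θg q ⊆ TT d L ∧ (#(Θb q) : ℝ) ≤ φ * L ^ d ∧
        ∀ τ ∈ TT d L, ∀ Q0, nr L q τ Q0 → (s (τ, Q0) → τ ∈ Θb q) ∧ (¬ s (τ, Q0) → τ ∈ Θg q)) →
      ∃ A' ⊆ A, (#A : ℝ) ≤ #A' + C * l ^ (2 * ((d : ℝ) + 1) / (d + 2) - κ) * (eb L ω' h Q' β' (TT d L) / α ^ 2) ∧
        ∀ q, (#(A'.filter fun i => cub T (x i, t i) = q) : ℝ) ≤ C * T ^ (d + 1) *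
          (φ ^ δ * (eb L ω h q.1 q.2 (TT d L) / (T ^ d * α ^ 2)) ^ (((d : ℝ) + 2) / d) +
            (eb L ω h q.1 q.2 (Θg q) / (T ^ d * α ^ 2)) ^ (((d : ℝ) + 2) / d))

/-- **[SL.FRZ2]** freezing the thin variables -/
def FRZ2 (d : ℕ) : Prop := BAS d → TAY d → SL3 d → SL1 d

/-- **[SL.KB2]** from `KEY` to indexed points -/
def KB2 (d : ℕ) : Prop := KEY d → KC2 d

/-- **[SL.LOC2]** the part `g s` of the data carried by a set `s` of tubes, and its localisation near a cube -/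
def LOC2 (d : ℕ) : Prop := ∀ η : ℝ, 0 < η → η ≤ 1 / 2 → ∀ a : ℕ, ∃ C : ℝ, 0 ≤ C ∧
  ∀ l T L S : ℝ, 1 ≤ l → T = l ^ (2 - η) → L = l ^ (2 * η) → T ≤ S →
    ∃ ω ω' : (Fin d → ℤ) → E d → ℝ, Wt C ω ∧ Wt C ω' ∧
    ∀ (h : E d → ℂ) (Q' : Fin d → ℤ) (β' : ℤ), Bd 2 h → ∃ g : ((Fin d → ℤ) × (Fin d → ℤ) → Prop) → E d → ℂ,
      (∀ s, Bd 3 (g s) ∧ en (g s) ≤ C * eb L ω' h Q' β' (TT d L)) ∧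
      (∀ s (x : E d) (t : ℝ), cb S x = Q' → ⌊t / S⌋ = β' → 0 ≤ t → t ≤ l ^ (2 + η / 2) →
        ‖evo h x t 0 - evo (g s) x t 0 - evo (g fun u => ¬ s u) x t 0‖ ^ 2 ≤ C * (l ^ a)⁻¹ * en h) ∧
      ∀ s (q : (Fin d → ℤ) × ℤ) (Θ : Finset (Fin d → ℤ)), Θ ⊆ TT d L → 0 ≤ q.2 → T * q.2 ≤ l ^ (2 + η / 2) →
        (∀ τ ∈ TT d L, ∀ Q0, nr L q τ Q0 → s (τ, Q0) → τ ∈ Θ) →
        ∃ h1 : E d → ℂ, Bd 3 h1 ∧ (∀ ξ, h1 ξ ≠ 0 → ∃ τ ∈ Θ, ∀ k, |2 * L * ξ k - τ k| ≤ 3) ∧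
          en h1 ≤ C * eb L ω h q.1 q.2 Θ ∧ en h1 ≤ C * en h ∧
          lE (g s - h1) (cor T q) (100 * d * T) ≤ C * (l ^ a)⁻¹ * en h

/-- **[SL.KLA2]** the localised count -/
def KLA2 (d : ℕ) : Prop := BAS d → KC2 d → LOC2 d → KL2 d

/-- **[SL.TT4]** the one-dimensional `TT*` bound, with multiplicity -/
def TT4 : Prop := ∃ C : ℝ, 0 ≤ C ∧ ∀ (l σ μ K : ℝ) (g : ℝ → ℂ) (ι : Type) (I : Finset ι) (P β : ι → ℤ) (y : ι → ℝ),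
  1 ≤ l → 0 < σ → Measurable g → (∃ b : ℝ, ∀ ζ, ‖g ζ‖ ≤ b) → (∀ ζ, g ζ ≠ 0 → l * |ζ| ≤ 1) →
  (∀ i ∈ I, (#(I.filter fun j => P j = P i ∧ β j = β i) : ℝ) ≤ μ) → (∀ i ∈ I, |y i - P i * σ| ≤ σ) →
  (∀ i ∈ I, ∀ j ∈ I, l ^ 2 * (1 + ((β i : ℝ) - β j) ^ 2) ≤ 2 * σ ^ 2) →
  (∀ i ∈ I, (#(I.filter fun j => P j = P i) : ℝ) ≤ K) →
  ∑ i ∈ I, ‖X.sol g (y i) (l ^ 2 * β i)‖ ^ 2 ≤ C * √(μ * K) / l * X.ms g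

/-- the energy of a tube family -/
def EN2 (d : ℕ) : Prop := ∃ C : ℝ, 0 ≤ C ∧ ∀ (B l L : ℝ) (ω : (Fin d → ℤ) → E d → ℝ) (G : E d × ℝ → ℂ),
  1 ≤ l → Wt B ω → Str l G → ∃ m : (Fin d → ℤ) × (Fin d → ℤ) → ℝ, (∀ u, 0 ≤ m u) ∧
    (∀ J : Finset ((Fin d → ℤ) × (Fin d → ℤ)), ∑ u ∈ J, m u ≤ B * en2 G) ∧
    ∀ (τ Q : Fin d → ℤ) (σ μ K : ℝ) (ι : Type) (I : Finset ι) (P β : ι → ℤ) (y : ι → ℝ), 0 < σ →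
      (∀ i ∈ I, (#(I.filter fun j => P j = P i ∧ β j = β i) : ℝ) ≤ μ) → (∀ i ∈ I, |y i - P i * σ| ≤ σ) →
      (∀ i ∈ I, ∀ j ∈ I, l ^ 2 * (1 + ((β i : ℝ) - β j) ^ 2) ≤ 2 * σ ^ 2) →
      (∀ i ∈ I, (#(I.filter fun j => P j = P i) : ℝ) ≤ K) →
      ∑ i ∈ I, ee (ω Q) (cut L {τ} (slc G (y i) (l ^ 2 * β i))) ≤ C * √(μ * K) / l * m (τ, Q)

/-- **[SL.ENA2]** Fubini and Plancherel -/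
def ENA2 (d : ℕ) : Prop := TT4 → EN2 d

/-- the X-ray count for dilated tubes -/
def XR2 (d : ℕ) : Prop := ∀ (L : ℝ) (N r : ℕ) (D : Finset (Bk d)), 1 ≤ L → (N : ℝ) ≤ L →
  (∀ b ∈ D, 0 ≤ b.2.1 ∧ b.2.1 < N) → ∀ b ∈ D,
    (∀ τ, (#(D.filter fun b' => tb L b' τ = tb L b τ) : ℝ) ≤ N) ∧
    ∑ τ ∈ TT d L, (#(D.filter fun b' => (∀ k, |(tb L b' τ).1 k - (tb L b τ).1 k| ≤ r) ∧ b'.2.2 = b.2.2) : ℝ) ≤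
      4 * (13 * (2 * r + 3)) ^ d * (#D : ℝ) ^ (1 / ((d : ℝ) + 1)) * L ^ d

/-- **[SL.XRA2]** lattice counting -/
def XRA2 (d : ℕ) : Prop := BAS d → XR2 d

/-- **[SL.NUM2]** the numerical core -/
def NUM2 (d : ℕ) : Prop := ∀ δ0 : ℝ, 0 < δ0 → ∃ δ : ℝ, 0 < δ ∧ ∀ B : ℝ, 1 ≤ B → ∃ C : ℝ, 0 ≤ C ∧
  ∀ (β γ : Type) (S : Finset β) (Y : β → Finset γ) (m e : β → γ → ℝ) (N J Z X : ℝ), 1 ≤ N → 0 ≤ J → 0 ≤ Z → 0 ≤ X →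
    (∀ b ∈ S, (Y b).Nonempty) → (∀ b y, 0 ≤ m b y) → (∀ b y, 0 ≤ e b y) →
    (∀ b ∈ S, ∑ y ∈ Y b, m b y ≤ B) →
    ∑ b ∈ S, ∑ y ∈ Y b, e b y ≤ N * Z →
    (∀ y : β → γ, (∀ b ∈ S, y b ∈ Y b) → ∑ b ∈ S, e b (y b) ≤ √(J * N) * Z) →
    (∀ D ⊆ S, ∀ K : ℝ, 0 < K → ∃ m' e' : β → γ → ℝ, (∀ b y, 0 ≤ m' b y ∧ m' b y ≤ m b y) ∧
      (∀ b y, 0 ≤ e' b y ∧ e' b y ≤ e b y) ∧
      ∑ b ∈ D, ∑ y ∈ Y b, m b y ≤ ∑ b ∈ D, ∑ y ∈ Y b, m' b y + X ∧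
      (∀ b ∈ D, ∀ y ∈ Y b, m' b y ≤
        B * (((#D : ℝ) ^ (1 / ((d : ℝ) + 1)) / K) ^ δ0 * e b y ^ (((d : ℝ) + 2) / d) + e' b y ^ (((d : ℝ) + 2) / d))) ∧
      ∀ y : β → γ, (∀ b ∈ D, y b ∈ Y b) → ∑ b ∈ D, e' b (y b) ≤ √(J * K) * Z) →
    ∑ b ∈ S, ∑ y ∈ Y b, m b y ≤ C * (min 1 ((∑ b ∈ S, ∑ y ∈ Y b, m b y) / N ^ (d + 1))) ^ δ *
      (J ^ (1 / ((d : ℝ) + 2)) * N ^ (((d : ℝ) + 1) / (d + 2))) * Z + 2 * X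

/-- **[SL.ASM2]** the main assembly -/
def ASM2 (d : ℕ) : Prop := BAS d → KL2 d → EN2 d → XR2 d → NUM2 d → SL3 d

/-- the rows -/
structure Rows2 : Prop where
  bas : ∀ d, BAS d
  rot : ∀ d, ROT d
  par : ∀ d, PAR d
  mult : ∀ d, MULT d
  tay : ∀ d, TAY d
  frz : ∀ d, FRZ2 d
  kb : ∀ d, 1 ≤ d → KB2 d
  loc : ∀ d, LOC2 d
  kla : ∀ d, 1 ≤ d → KLA2 d
  tt4 : TT4
  ena : ∀ d, ENA2 d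
  xra : ∀ d, XRA2 d
  num : ∀ d, 1 ≤ d → NUM2 d
  asm : ∀ d, 1 ≤ d → ASM2 d

theorem slab_of2 (h : Rows2) (d : ℕ) (hd : 2 ≤ d) (hk : KEY d) : TS (d + 1) := by
  have h1 : 1 ≤ d := by omega
  exact h.par d (h.rot d) (h.mult d (h.frz d (h.bas d) (h.tay d) (h.asm d h1 (h.bas d)
    (h.kla d h1 (h.bas d) (h.kb d h1 hk) (h.loc d)) (h.ena d h.tt4) (h.xra d (h.bas d)) (h.num d h1))))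

end

end Vale.Agent.P076N.SL
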