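import Vale.Agent.P076N.SL.Ena2

/-! # P076N / SL : the row TAY (Taylor expansion in the thin variable; port of P076/H457/Tay) -/

set_option linter.all false

open MeasureTheory Complex

namespace Vale.Agent.P076N.SL

open Vale.Agent.P076 Vale.Agent.P076N Vale.Agent.P076T
open Vale.Agent.P122.H84 (norm_ee continuous_ee measurable_ee)
open Vale.Agent.P076.X (ex)

variable {d : ℕ}

namespace Tay

open Ena

theorem ex_add (a b : ℝ) : ex (a + b) = ex a * ex b := by
  unfold ex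
  rw [← Complex.exp_add]
  congr 1
  push_cast
  ring

/-- terms of the exponential series -/
noncomputable def et (z : ℂ) (k : ℕ) : ℂ := z ^ k / k.factorial

noncomputable def er (z : ℝ) (k : ℕ) : ℝ := z ^ k / k.factorial

theorem et_hasSum (z : ℂ) : HasSum (et z) (cexp z) := by
  have h := NormedSpace.expSeries_div_hasSum_exp (𝔸 := ℂ) z
  rw [← Complex.exp_eq_exp_ℂ] at h
  exact h

theorem summable_norm_et (z : ℂ) : Summable (fun k : ℕ => ‖et z k‖) := by
  have h := NormedSpace.norm_expSeries_div_summable (𝔸 := ℂ) z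
  exact h

theorem et_mul_hasSum (z w : ℂ) : HasSum (fun p : ℕ × ℕ => et z p.1 * et w p.2) (cexp z * cexp w) :=
  (et_hasSum z).mul (et_hasSum w) (summable_mul_of_summable_norm (summable_norm_et z) (summable_norm_et w))

theorem er_hasSum (z : ℝ) : HasSum (er z) (Real.exp z) := by
  have h := NormedSpace.expSeries_div_hasSum_exp (𝔸 := ℝ) z
  rw [← Real.exp_eq_exp_ℝ] at h; exact h

theorem er_nonneg {z : ℝ} (hz : 0 ≤ z) (k : ℕ) : 0 ≤ er z k := by unfold er; positivity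

theorem er_mul_hasSum {z w : ℝ} (hz : 0 ≤ z) (hw : 0 ≤ w) : HasSum (fun p : ℕ × ℕ => er z p.1 * er w p.2)
    (Real.exp z * Real.exp w) :=
  (er_hasSum z).mul (er_hasSum w) ((er_hasSum z).summable.mul_of_nonneg (er_hasSum w).summable (er_nonneg hz) (er_nonneg hw))

theorem norm_et_le {z : ℂ} {r : ℝ} (h : ‖z‖ ≤ r) (k : ℕ) : ‖et z k‖ ≤ er r k := by
  unfold et er
  rw [norm_div, norm_pow, Complex.norm_natCast]
  gcongr

/-- the coefficients -/
noncomputable def kap (S dy dt : ℝ) (p : ℕ × ℕ) : ℂ :=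
  et (2 * Real.pi * (dy / (64 * S)) * I) p.1 * et (-(2 * Real.pi * (dt / (64 * S) ^ 2)) * I) p.2

theorem norm_kap_le {S dy dt : ℝ} (hS : 0 < S) (hy : |dy| ≤ S) (ht : |dt| ≤ S ^ 2) (p : ℕ × ℕ) :
    ‖kap S dy dt p‖ ≤ er (2 * Real.pi / 64) p.1 * er (2 * Real.pi / 4096) p.2 := by
  unfold kap
  have hpi := Real.pi_pos
  have e1 : ‖(2 * Real.pi * (dy / (64 * S)) * I : ℂ)‖ ≤ 2 * Real.pi / 64 := by
    have : (2 * Real.pi * (dy / (64 * S)) * I : ℂ) = ((2 * Real.pi * (dy / (64 * S)) : ℝ) : ℂ) * I := by push_cast; ring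
    rw [this, norm_mul, Complex.norm_real, Complex.norm_I, mul_one, Real.norm_eq_abs, abs_mul,
      abs_of_pos (by positivity : (0:ℝ) < 2 * Real.pi), mul_div_assoc]
    rw [abs_div, abs_of_pos (by positivity : (0:ℝ) < 64 * S)]
    have h1 : |dy| / (64 * S) ≤ 1 / 64 := by
      rw [div_le_div_iff₀ (by positivity) (by norm_num)]; linarith
    calc 2 * Real.pi * (|dy| / (64 * S)) ≤ 2 * Real.pi * (1 / 64) := by gcongr
      _ = _ := by ring
  have e2 : ‖(-(2 * Real.pi * (dt / (64 * S) ^ 2)) * I : ℂ)‖ ≤ 2 * Real.pi / 4096 := by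
    have : (-(2 * Real.pi * (dt / (64 * S) ^ 2)) * I : ℂ) = ((-(2 * Real.pi * (dt / (64 * S) ^ 2)) : ℝ) : ℂ) * I := by
      push_cast; ring
    rw [this, norm_mul, Complex.norm_real, Complex.norm_I, mul_one, Real.norm_eq_abs, abs_neg, abs_mul,
      abs_of_pos (by positivity : (0:ℝ) < 2 * Real.pi), mul_div_assoc]
    rw [abs_div, abs_of_pos (by positivity : (0:ℝ) < (64 * S) ^ 2)]
    have h1 : |dt| / (64 * S) ^ 2 ≤ 1 / 4096 := by
      rw [div_le_div_iff₀ (by positivity) (by norm_num)]; nlinarith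
    calc 2 * Real.pi * (|dt| / (64 * S) ^ 2) ≤ 2 * Real.pi * (1 / 4096) := by gcongr
      _ = _ := by ring
  rw [norm_mul]
  exact mul_le_mul (norm_et_le e1 _) (norm_et_le e2 _) (norm_nonneg _) (er_nonneg (by positivity) _)

theorem et_mul (z v : ℂ) (k : ℕ) : et (z * v) k = et z k * v ^ k := by
  unfold et; rw [mul_pow]; ring

theorem er_mul (z v : ℝ) (k : ℕ) : er (z * v) k = er z k * v ^ k := by
  unfold er; rw [mul_pow]; ring

theorem kap_hasSum {S dy dt ζ : ℝ} (hS : 0 < S) :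
    HasSum (fun p : ℕ × ℕ => kap S dy dt p * (((64 * S * ζ) ^ (p.1 + 2 * p.2) : ℝ) : ℂ)) (ex (dy * ζ - dt * ζ ^ 2)) := by
  have hS' : (S : ℂ) ≠ 0 := by exact_mod_cast hS.ne'
  have h := et_mul_hasSum (2 * Real.pi * (dy / (64 * S)) * I * (64 * S * ζ)) (-(2 * Real.pi * (dt / (64 * S) ^ 2)) * I * (64 * S * ζ) ^ 2)
  have e : cexp (2 * Real.pi * (dy / (64 * S)) * I * (64 * S * ζ)) * cexp (-(2 * Real.pi * (dt / (64 * S) ^ 2)) * I * (64 * S * ζ) ^ 2)
      = ex (dy * ζ - dt * ζ ^ 2) := by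
    rw [← Complex.exp_add]
    unfold ex
    congr 1; push_cast; field_simp; ring
  rw [e] at h
  have e2 : (fun p : ℕ × ℕ => kap S dy dt p * (((64 * S * ζ) ^ (p.1 + 2 * p.2) : ℝ) : ℂ)) = fun p : ℕ × ℕ =>
      et (2 * Real.pi * (dy / (64 * S)) * I * (64 * S * ζ)) p.1 * et (-(2 * Real.pi * (dt / (64 * S) ^ 2)) * I * (64 * S * ζ) ^ 2) p.2 := by
    ext p
    rw [et_mul (2 * Real.pi * (dy / (64 * S)) * I), et_mul (-(2 * Real.pi * (dt / (64 * S) ^ 2)) * I)]
    unfold kap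
    push_cast
    rw [pow_add, pow_mul]
    ring
  rw [e2]; exact h

theorem small_v {l : ℝ} {G : E d × ℝ → ℂ} (hl : 1 ≤ l) (hG : Str l G) {p : E d × ℝ} (h : G p ≠ 0) :
    |64 * l * p.2| ≤ 1 / 2 := by
  have := (hG.supp p h).2
  rw [abs_mul, abs_of_pos (by positivity : (0:ℝ) < 64 * l)]
  linarith

theorem norm_tw_le {l : ℝ} {G : E d × ℝ → ℂ} (hl : 1 ≤ l) (hG : Str l G) (j : ℕ) (p : E d × ℝ) :
    ‖tw l j G p‖ ≤ ‖G p‖ := by
  unfold tw
  by_cases h : G p = 0
  · simp [h]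
  · rw [norm_mul, norm_pow, Complex.norm_real, Real.norm_eq_abs]
    exact mul_le_of_le_one_left (norm_nonneg _) (pow_le_one₀ (abs_nonneg _) ((small_v hl hG h).trans (by norm_num)))

theorem tw_str {l : ℝ} {G : E d × ℝ → ℂ} (hl : 1 ≤ l) (hG : Str l G) (j : ℕ) : Str l (tw l j G) := by
  obtain ⟨b, hb⟩ := hG.bdd
  refine ⟨?_, ⟨b, fun p => (norm_tw_le hl hG j p).trans (hb p)⟩, fun p hp => hG.supp p fun h => hp ?_⟩
  · unfold tw
    exact Measurable.mul (by fun_prop) hG.meas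
  · unfold tw
    rw [h, mul_zero]

/-- the integrand over `E d × ℝ` -/
noncomputable def Phi (G : E d × ℝ → ℂ) (y s : ℝ) (x : E d) (t : ℝ) (p : E d × ℝ) : ℂ :=
  G p * (ex (y * p.2 - s * p.2 ^ 2) * P122.H84.ee (inner ℝ x p.1 - t * ‖p.1‖ ^ 2))

theorem norm_Phi (G : E d × ℝ → ℂ) (y s : ℝ) (x : E d) (t : ℝ) (p : E d × ℝ) : ‖Phi G y s x t p‖ = ‖G p‖ := by
  unfold Phi
  rw [norm_mul, norm_mul, norm_ex, norm_ee, one_mul, mul_one]

theorem Phi_int {l : ℝ} {G : E d × ℝ → ℂ} (hl : 1 ≤ l) (hG : Str l G) (y s : ℝ) (x : E d) (t : ℝ) :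
    Integrable (Phi G y s x t) := by
  have hc : Continuous fun p : E d × ℝ => ex (y * p.2 - s * p.2 ^ 2) * P122.H84.ee (inner ℝ x p.1 - t * ‖p.1‖ ^ 2) := by
    unfold ex
    fun_prop
  exact (str_int hl hG).mul_bdd (c := 1) hc.aestronglyMeasurable (Filter.Eventually.of_forall fun p => by
    rw [norm_mul, norm_ex, norm_ee, one_mul])

theorem evo_slc {l : ℝ} {G : E d × ℝ → ℂ} (hl : 1 ≤ l) (hG : Str l G) (y s : ℝ) (x : E d) (t : ℝ) :
    evo (slc G y s) x t 0 = ∫ p, Phi G y s x t p := by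
  rw [Measure.volume_eq_prod, integral_prod _ (by rw [← Measure.volume_eq_prod]; exact Phi_int hl hG y s x t), evo_ee]
  congr 1
  funext ξ
  unfold slc X.sol Phi
  rw [← integral_mul_const]
  congr 1
  funext ζ
  ring

end Tay

open Tay Ena in
/-- **[SL.TAY]** -/
theorem tay (d : ℕ) : TAY d := by
  intro l G x t y y0 s s0 α hl hG hy hs hαu
  have hS : 0 < l := by linarith
  rcases le_or_gt α 0 with hα | hα
  · exact ⟨0, le_trans (by simp; linarith) (norm_nonneg _)⟩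
  by_contra hcon
  push Not at hcon
  have hpi := Real.pi_pos
  set F : ℕ × ℕ → E d × ℝ → ℂ := fun q p => kap l (y - y0) (s - s0) q * Phi (tw l (q.1 + 2 * q.2) G) y0 s0 x t p with hF
  have hFi : ∀ q, Integrable (F q) := fun q => (Phi_int hl (tw_str hl hG _) _ _ _ _).const_mul _
  have hGi := (str_int hl hG).norm
  have hK : Summable (fun q : ℕ × ℕ => er (2 * Real.pi / 64) q.1 * er (2 * Real.pi / 4096) q.2) :=
    (er_mul_hasSum (by positivity) (by positivity)).summable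
  have hFs : Summable fun q => ∫ p, ‖F q p‖ := by
    refine Summable.of_nonneg_of_le (fun q => integral_nonneg fun p => norm_nonneg _) (fun q => ?_)
      (hK.mul_right (∫ p : E d × ℝ, ‖G p‖))
    calc ∫ p, ‖F q p‖ ≤ ∫ p : E d × ℝ, (er (2 * Real.pi / 64) q.1 * er (2 * Real.pi / 4096) q.2) * ‖G p‖ := by
          refine integral_mono (hFi q).norm (hGi.const_mul _) fun p => ?_
          simp only [hF]
          rw [norm_mul, norm_Phi]
          exact mul_le_mul (norm_kap_le hS hy hs q) (norm_tw_le hl hG _ p) (norm_nonneg _)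
            (mul_nonneg (er_nonneg (by positivity) _) (er_nonneg (by positivity) _))
      _ = _ := integral_const_mul _ _
  have hmain := hasSum_integral_of_summable_integral_norm hFi hFs
  have e1 : ∫ p, ∑' q, F q p = evo (slc G y s) x t 0 := by
    rw [evo_slc hl hG]
    congr 1; ext p
    have h1 := (kap_hasSum (dy := y - y0) (dt := s - s0) (ζ := p.2) hS).mul_right (Phi G y0 s0 x t p)
    have h2 : (fun q : ℕ × ℕ => kap l (y - y0) (s - s0) q * (((64 * l * p.2) ^ (q.1 + 2 * q.2) : ℝ) : ℂ) *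
        Phi G y0 s0 x t p) = fun q => F q p := by
      ext q
      simp only [hF, Phi, tw]
      push_cast
      ring
    rw [h2] at h1
    rw [h1.tsum_eq]
    have h3 : ex (y * p.2 - s * p.2 ^ 2) = ex ((y - y0) * p.2 - (s - s0) * p.2 ^ 2) * ex (y0 * p.2 - s0 * p.2 ^ 2) := by
      rw [← ex_add]; congr 1; ring
    unfold Phi
    rw [h3]; ring
  rw [e1] at hmain
  have hterm : ∀ q : ℕ × ℕ, ‖∫ p, F q p‖ ≤ (er (Real.pi / 2) q.1 * er (Real.pi / 8) q.2) * (α / 8) := by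
    intro q
    simp only [hF]
    rw [integral_const_mul, norm_mul, ← evo_slc hl (tw_str hl hG _)]
    have h1 := hcon (q.1 + 2 * q.2)
    have h2 := norm_kap_le hS hy hs q
    calc ‖kap l (y - y0) (s - s0) q‖ * ‖evo (slc (tw l (q.1 + 2 * q.2) G) y0 s0) x t 0‖
        ≤ (er (2 * Real.pi / 64) q.1 * er (2 * Real.pi / 4096) q.2) * (16 ^ (q.1 + 2 * q.2) * α / 8) := by
          refine mul_le_mul h2 ?_ (norm_nonneg _)
            (mul_nonneg (er_nonneg (by positivity) _) (er_nonneg (by positivity) _))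
          have h3 : (8:ℝ) ^ (q.1 + 2 * q.2) ≤ 16 ^ (q.1 + 2 * q.2) := pow_le_pow_left₀ (by norm_num) (by norm_num) _
          nlinarith [mul_le_mul_of_nonneg_right h3 hα.le]
      _ = _ := by
          have e2 : er (Real.pi / 2) q.1 = er (2 * Real.pi / 64) q.1 * 16 ^ q.1 := by rw [← er_mul]; congr 1; ring
          have e3 : er (Real.pi / 8) q.2 = er (2 * Real.pi / 4096) q.2 * (16 ^ 2) ^ q.2 := by rw [← er_mul]; congr 1; ring
          rw [pow_add, pow_mul, e2, e3]; ring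
  have hr := (er_mul_hasSum (z := Real.pi / 2) (w := Real.pi / 8) (by positivity) (by positivity)).mul_right (α / 8)
  have hle : α ≤ Real.exp (Real.pi / 2) * Real.exp (Real.pi / 8) * (α / 8) := by
    have h9 := tsum_of_norm_bounded hr hterm
    rw [hmain.tsum_eq] at h9
    exact hαu.trans h9
  have hex : Real.exp (Real.pi / 2) * Real.exp (Real.pi / 8) < 8 := by
    rw [← Real.exp_add]
    have h1 : Real.pi / 2 + Real.pi / 8 ≤ 1 + 1 := by nlinarith [Real.pi_lt_d2]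
    calc Real.exp (Real.pi / 2 + Real.pi / 8) ≤ Real.exp (1 + 1) := Real.exp_le_exp.2 h1
      _ = Real.exp 1 * Real.exp 1 := Real.exp_add 1 1
      _ < 8 := by nlinarith [Real.exp_one_lt_d9, Real.exp_pos 1]
  nlinarith

end Vale.Agent.P076N.SL
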