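import Vale.Agent.P076N.SL.Spec2
import Vale.Agent.P076.H381.TT2

/-!
# P076N / SL : the one-dimensional `TT*` bound with multiplicity
-/

open MeasureTheory Finset Complex
open scoped InnerProductSpace

namespace Vale.Agent.P076N.SL

open Vale.Agent.P076.X Vale.Agent.P076.H381

namespace Tt4x

/-- the Schur form of the inequality of Bessel -/
theorem bessel {H ι : Type} [NormedAddCommGroup H] [InnerProductSpace ℂ H] (s : Finset ι)
    (φ : ι → H) (g : H) {S : ℝ} (hS0 : 0 ≤ S) (hS : ∀ i ∈ s, ∑ j ∈ s, ‖⟪φ i, φ j⟫_ℂ‖ ≤ S) :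
    ∑ i ∈ s, ‖⟪φ i, g⟫_ℂ‖ ^ 2 ≤ S * ‖g‖ ^ 2 := by
  set v : ι → ℂ := fun i => ⟪φ i, g⟫_ℂ with hv
  set A : ℝ := ∑ i ∈ s, ‖v i‖ ^ 2 with hA
  set F : H := ∑ i ∈ s, v i • φ i with hF
  have hA0 : 0 ≤ A := sum_nonneg fun i _ => by positivity
  have h1 : A ≤ ‖F‖ * ‖g‖ := by
    have : ⟪F, g⟫_ℂ = (A : ℂ) := by
      rw [hF, sum_inner, hA]
      push_cast
      refine sum_congr rfl fun i _ => ?_
      rw [inner_smul_left, Complex.conj_mul']
    have h2 := norm_inner_le_norm (𝕜 := ℂ) F g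
    rwa [this, Complex.norm_real, Real.norm_of_nonneg hA0] at h2
  have h2 : ‖F‖ ^ 2 ≤ S * A := by
    have e : ‖F‖ ^ 2 = ‖⟪F, F⟫_ℂ‖ := by
      rw [inner_self_eq_norm_sq_to_K]; simp
    have e2 : ⟪F, F⟫_ℂ = ∑ i ∈ s, ∑ j ∈ s, (starRingEnd ℂ) (v i) * (v j * ⟪φ i, φ j⟫_ℂ) := by
      rw [hF, sum_inner]
      refine sum_congr rfl fun i _ => ?_
      rw [inner_sum]
      exact sum_congr rfl fun j _ => by rw [inner_smul_left, inner_smul_right]
    rw [e, e2]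
    calc _ ≤ ∑ i ∈ s, ∑ j ∈ s, (1 / 2 * (‖v i‖ ^ 2 * ‖⟪φ i, φ j⟫_ℂ‖) +
            1 / 2 * (‖v j‖ ^ 2 * ‖⟪φ j, φ i⟫_ℂ‖)) := by
          refine (norm_sum_le _ _).trans (sum_le_sum fun i _ => (norm_sum_le _ _).trans
            (sum_le_sum fun j _ => ?_))
          rw [norm_mul, norm_mul, RCLike.norm_conj, norm_inner_symm (φ j) (φ i)]
          nlinarith [mul_nonneg (norm_nonneg ⟪φ i, φ j⟫_ℂ) (sq_nonneg (‖v i‖ - ‖v j‖))]
      _ = ∑ i ∈ s, ‖v i‖ ^ 2 * ∑ j ∈ s, ‖⟪φ i, φ j⟫_ℂ‖ := by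
          simp_rw [sum_add_distrib]
          rw [sum_comm (f := fun i j => 1 / 2 * (‖v j‖ ^ 2 * ‖⟪φ j, φ i⟫_ℂ‖)), ← sum_add_distrib]
          refine sum_congr rfl fun i _ => ?_
          rw [← sum_add_distrib, mul_sum]
          exact sum_congr rfl fun j _ => by ring
      _ ≤ ∑ i ∈ s, ‖v i‖ ^ 2 * S :=
          sum_le_sum fun i hi => mul_le_mul_of_nonneg_left (hS i hi) (by positivity)
      _ = S * A := by rw [← sum_mul, mul_comm]
  rcases hA0.eq_or_lt with h | h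
  · rw [← h]; positivity
  · refine le_of_mul_le_mul_left ?_ h
    have h3 : A * A ≤ (‖F‖ * ‖g‖) * (‖F‖ * ‖g‖) := mul_self_le_mul_self hA0 h1
    have h4 := mul_le_mul_of_nonneg_right h2 (sq_nonneg ‖g‖)
    nlinarith

theorem inner_toLp {f g : ℝ → ℂ} (hf : MemLp f 2) (hg : MemLp g 2) :
    ⟪hf.toLp f, hg.toLp g⟫_ℂ = ∫ x, g x * (starRingEnd ℂ) (f x) := by
  rw [L2.inner_def]
  refine integral_congr_ae ?_
  filter_upwards [hf.coeFn_toLp, hg.coeFn_toLp] with x a b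
  rw [a, b, RCLike.inner_apply]

theorem memLp_ph {w : ℝ} (hw : 0 < w) (y t : ℝ) :
    MemLp (fun ξ => (starRingEnd ℂ) (ph w y t ξ)) 2 := by
  refine (memLp_two_iff_integrable_sq_norm
    (Complex.continuous_conj.comp (continuous_ph w y t)).aestronglyMeasurable).2 ?_
  refine (integrable_ph_mul hw y t y t).norm.congr (Filter.Eventually.of_forall fun ξ => ?_)
  simp [sq]

/-- the discrete `TT*` inequality with a general bound for the Gram matrix -/
theorem tt {w : ℝ} (hw : 0 < w) {C : ℝ → ℂ} (hC : Good C) (hs : ∀ ξ, C ξ ≠ 0 → |ξ| ≤ w)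
    {ι : Type} (s : Finset ι) (y t : ι → ℝ) {S : ℝ} (hS0 : 0 ≤ S)
    (hS : ∀ i ∈ s, ∑ j ∈ s, ‖∫ ξ, ph w (y i) (t i) ξ * (starRingEnd ℂ) (ph w (y j) (t j) ξ)‖ ≤ S) :
    ∑ i ∈ s, ‖sol C (y i) (t i)‖ ^ 2 ≤ S * (Real.exp (2 * Real.pi) * ms C) := by
  obtain ⟨h1, h2⟩ := unG_int_sq hw hC hs
  have hm : AEStronglyMeasurable (unG w C) := hC.1.aestronglyMeasurable.mul
    (Complex.continuous_ofReal.comp (by fun_prop)).aestronglyMeasurable
  have hG : MemLp (unG w C) 2 := (memLp_two_iff_integrable_sq_norm hm).2 h1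
  have h3 := bessel s (fun i => (memLp_ph hw (y i) (t i)).toLp _) (hG.toLp _) hS0 fun i hi => by
    simpa only [inner_toLp, Complex.conj_conj, mul_comm (ph w (y i) (t i) _)] using hS i hi
  have h4 : ‖hG.toLp _‖ ^ 2 = ∫ ξ, ‖unG w C ξ‖ ^ 2 := by
    have := inner_toLp hG hG
    rw [inner_self_eq_norm_sq_to_K] at this
    simp only [Complex.mul_conj', ← Complex.ofReal_pow, integral_complex_ofReal] at this
    refine Complex.ofReal_injective ?_
    rw [← this]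
    simp
  simp only [inner_toLp, Complex.conj_conj, unG_mul_ph, h4] at h3
  exact h3.trans (mul_le_mul_of_nonneg_left h2 hS0)

/-- the Gram entry, with the Gaussian factor -/
theorem gram {w : ℝ} (hw : 0 < w) (y t y' t' : ℝ) :
    ‖∫ ξ, ph w y t ξ * (starRingEnd ℂ) (ph w y' t' ξ)‖ ≤ kap w (t - t') * Real.exp
      (-(Real.pi * (y - y') ^ 2 * (1 / w) ^ 2 / (2 * ((1 / w) ^ 4 + (t - t') ^ 2)))) := by
  have h0 := norm_int_ph_le hw 0 t 0 t'
  simp_rw [ph_mul_conj] at h0 ⊢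
  set z : ℂ := 2 * Real.pi * ((1 / w) ^ 2 + (t - t') * I) with hz
  have hz' : z = ((2 * Real.pi * (1 / w) ^ 2 : ℝ) : ℂ) + ((2 * Real.pi * (t - t') : ℝ) : ℂ) * I := by
    rw [hz]; push_cast; ring
  have hre : z.re = 2 * Real.pi * (1 / w) ^ 2 := by
    rw [hz', Complex.add_re, Complex.ofReal_re, Complex.re_ofReal_mul, Complex.I_re, mul_zero,
      add_zero]
  have hpos : 0 < (2 * Real.pi * (1 / w) ^ 2 : ℝ) := by positivity
  have hz0 : z ≠ 0 := fun h => by rw [h, Complex.zero_re] at hre; linarith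
  rw [integral_cexp_quadratic (by rw [Complex.neg_re, hre]; linarith)] at h0 ⊢
  simp only [Complex.ofReal_zero, sub_self, mul_zero, zero_mul, ne_eq, OfNat.ofNat_ne_zero,
    not_false_eq_true, zero_pow, zero_div, Complex.exp_zero, mul_one] at h0
  rw [norm_mul]
  refine mul_le_mul h0 (le_of_eq ?_) (norm_nonneg _) (kap_nonneg _ _)
  have e : (0 - (2 * Real.pi * (y - y') * I) ^ 2 / (4 * -z) : ℂ)
      = -(((Real.pi * (y - y')) ^ 2 : ℝ) : ℂ) * z⁻¹ := by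
    push_cast
    field_simp
    rw [Complex.I_sq]
    ring
  rw [Complex.norm_exp, e, neg_mul, Complex.neg_re, Complex.re_ofReal_mul, Complex.inv_re, hre,
    hz', Complex.normSq_add_mul_I]
  congr 2
  have := Real.pi_pos
  field_simp

theorem summ : Summable fun m : ℤ => Real.exp (-|(m : ℝ)|) := by
  refine summable_int_iff_summable_nat_and_neg.2 ⟨?_, ?_⟩ <;>
    simpa using Real.summable_exp_neg_nat

theorem sum_exp (T : Finset ℤ) (p : ℤ) :
    ∑ q ∈ T, Real.exp (-|((q : ℝ) - p)|) ≤ ∑' m : ℤ, Real.exp (-|(m : ℝ)|) := by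
  have h := summ.sum_le_tsum (T.map (Equiv.subRight p).toEmbedding) fun m _ => (Real.exp_pos _).le
  rw [sum_map] at h
  simpa using h

/-- the bound for one entry -/
theorem entry {l σ y y' : ℝ} (hl : 1 ≤ l) (hσ : 0 < σ) {P P' β β' : ℤ} (h1 : |y - P * σ| ≤ σ)
    (h2 : |y' - P' * σ| ≤ σ) (h3 : l ^ 2 * (1 + ((β : ℝ) - β') ^ 2) ≤ 2 * σ ^ 2) :
    ‖∫ ξ, ph (1 / l) y (l ^ 2 * β) ξ * (starRingEnd ℂ) (ph (1 / l) y' (l ^ 2 * β') ξ)‖ ≤
      Real.exp 3 / l * (Real.exp (-|((P' : ℝ) - P)|) *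
        (1 * (√(((β' - β).natAbs : ℝ) + 1))⁻¹)) := by
  have hl0 : 0 < l := by linarith
  refine (gram (by positivity) _ _ _ _).trans ?_
  have a1 : kap (1 / l) (l ^ 2 * β - l ^ 2 * β') = l⁻¹ * (√(((β' - β).natAbs : ℝ) + 1))⁻¹ := by
    rw [kap, one_div_one_div, ← mul_sub, abs_mul, abs_of_pos (by positivity : 0 < l ^ 2),
      Nat.cast_natAbs, ← mul_inv, ← mul_one_add, Real.sqrt_mul (by positivity),
      Real.sqrt_sq hl0.le, add_comm, abs_sub_comm]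
    push_cast
    rfl
  set r := |y - y'| / σ with hr
  have a2 : |(P' : ℝ) - P| ≤ r + 2 := by
    rw [hr, div_add' _ _ _ hσ.ne', le_div_iff₀ hσ, ← abs_of_pos hσ, ← abs_mul, abs_of_pos hσ]
    have : ((P' : ℝ) - P) * σ = (y - P * σ) - (y' - P' * σ) - (y - y') := by ring
    rw [this]
    linarith [abs_sub (y - P * σ - (y' - P' * σ)) (y - y'), abs_sub (y - P * σ) (y' - P' * σ)]
  have a3 : Real.pi * r ^ 2 / 4 ≤ Real.pi * (y - y') ^ 2 * (1 / (1 / l)) ^ 2 /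
      (2 * ((1 / (1 / l)) ^ 4 + (l ^ 2 * β - l ^ 2 * β') ^ 2)) := by
    have b1 : Real.pi * (y - y') ^ 2 * (1 / (1 / l)) ^ 2 /
        (2 * ((1 / (1 / l)) ^ 4 + (l ^ 2 * β - l ^ 2 * β') ^ 2)) =
        Real.pi * (y - y') ^ 2 / (2 * (l ^ 2 * (1 + ((β : ℝ) - β') ^ 2))) := by
      rw [one_div_one_div]; field_simp
    have b2 : Real.pi * r ^ 2 / 4 = Real.pi * (y - y') ^ 2 / (2 * (2 * σ ^ 2)) := by
      rw [hr, div_pow, sq_abs]; field_simp; ring
    rw [b1, b2]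
    have := Real.pi_pos
    gcongr
  have a4 : r - 1 ≤ Real.pi * r ^ 2 / 4 := by
    nlinarith [Real.pi_gt_three, sq_nonneg r, sq_nonneg (r - 2)]
  rw [a1]
  calc _ ≤ l⁻¹ * (√(((β' - β).natAbs : ℝ) + 1))⁻¹ * Real.exp (3 + -|((P' : ℝ) - P)|) := by
        gcongr; linarith
    _ = _ := by rw [Real.exp_add]; ring

theorem good {g : ℝ → ℂ} (hm : Measurable g) {b : ℝ} (hb : ∀ ζ, ‖g ζ‖ ≤ b)
    (hs : ∀ ζ, g ζ ≠ 0 → |ζ| ≤ 1) : Good g := by
  have h : ∀ p, MemLp g p := fun p => by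
    have h1 : MemLp ((Set.Icc (-1 : ℝ) 1).indicator fun _ => b) p volume :=
      memLp_indicator_const p measurableSet_Icc b (Or.inr (by simp))
    refine h1.mono' hm.aestronglyMeasurable (Filter.Eventually.of_forall fun ζ => ?_)
    by_cases k : g ζ = 0
    · rw [k, norm_zero]
      exact Set.indicator_nonneg (fun _ _ => (norm_nonneg _).trans (hb 0)) _
    · rw [Set.indicator_of_mem (Set.mem_Icc.2 (abs_le.1 (hs ζ k)))]
      exact hb ζ
  exact ⟨memLp_one_iff_integrable.1 (h 1), h 2⟩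

end Tt4x

open Tt4x in
/-- **[SL.TT4]** -/
theorem tt4 : TT4 := by
  set c := ∑' m : ℤ, Real.exp (-|(m : ℝ)|) with hc
  have hc0 : 0 ≤ c := tsum_nonneg fun m => (Real.exp_pos _).le
  refine ⟨Real.exp 3 * (c * 7) * Real.exp (2 * Real.pi), by positivity, ?_⟩
  rintro l σ μ K g ι I P β y hl hσ hm ⟨b, hb⟩ hs hμ hy hβ hK
  classical
  have hl0 : 0 < l := by linarith
  have h1 := tt (w := 1 / l) (by positivity) (good hm hb fun ζ k => by
      nlinarith [hs ζ k, abs_nonneg ζ])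
    (fun ζ k => by rw [le_div_iff₀ hl0, mul_comm]; exact hs ζ k) I y (fun i => l ^ 2 * β i)
    (S := Real.exp 3 / l * (c * (7 * √(μ * K)))) (by positivity) fun i hi => ?_
  · exact h1.trans_eq (by ring)
  have hμ0 : 0 ≤ μ := (Nat.cast_nonneg _).trans (hμ i hi)
  refine (sum_le_sum fun j hj => entry hl hσ (hy i hi) (hy j hj) (hβ i hi j hj)).trans ?_
  rw [← mul_sum, ← sum_fiberwise_of_maps_to (g := P) fun j hj => mem_image_of_mem P hj]
  refine mul_le_mul_of_nonneg_left ?_ (by positivity)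
  refine le_trans (sum_le_sum fun q hq => ?_) ((sum_mul _ _ _).symm.trans_le
    (mul_le_mul_of_nonneg_right (sum_exp (I.image P) (P i)) (by positivity)))
  obtain ⟨j0, hj0, rfl⟩ := mem_image.1 hq
  rw [sum_congr rfl fun j hj => by rw [(mem_filter.1 hj).2], ← mul_sum]
  refine mul_le_mul_of_nonneg_left ?_ (Real.exp_pos _).le
  refine (col_sum _ (fun _ => 1) β (fun _ _ => zero_le_one) hμ0 (fun q => ?_) (β i)).trans ?_
  · rw [sum_const, nsmul_eq_mul, mul_one, filter_filter]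
    rcases (I.filter fun j => P j = P j0 ∧ β j = q).eq_empty_or_nonempty with h | ⟨j, hj⟩
    · rw [h]; simpa using hμ0
    · obtain ⟨k1, k2, k3⟩ := mem_filter.1 hj
      rw [← k2, ← k3]
      exact hμ j k1
  · rw [sum_const, nsmul_eq_mul, mul_one]
    have := hK j0 hj0
    gcongr

end Vale.Agent.P076N.SL
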