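import Vale.Agent.P076N.SL.Spec2

/-! # P076N / SL : the row XRA2 (lattice counting) -/

set_option linter.all false

open MeasureTheory Finset

namespace Vale.Agent.P076N.SL

open Vale.Agent.P076 Vale.Agent.P076N

namespace Xra

variable {d : ℕ}

theorem card_Icc_le {a b : ℝ} (hab : a ≤ b) : (#(Finset.Icc ⌈a⌉ ⌊b⌋) : ℝ) ≤ b - a + 1 := by
  rw [Int.card_Icc]
  have h1 := Int.floor_le b
  have h2 := Int.le_ceil a
  rcases le_total 0 (⌊b⌋ + 1 - ⌈a⌉) with h | h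
  · have : (((⌊b⌋ + 1 - ⌈a⌉).toNat : ℤ) : ℝ) = ((⌊b⌋ + 1 - ⌈a⌉ : ℤ) : ℝ) := by rw [Int.toNat_of_nonneg h]
    rw [Int.cast_natCast] at this
    rw [this]
    push_cast
    linarith
  · rw [Int.toNat_eq_zero.mpr h]
    push_cast
    linarith

theorem card_box (c : Fin d → ℝ) {w : ℝ} (hw : 0 ≤ w) (S : Finset (Fin d → ℤ))
    (h : ∀ τ ∈ S, ∀ k, |(τ k : ℝ) - c k| ≤ w) : (#S : ℝ) ≤ (2 * w + 1) ^ d := by
  have hsub : S ⊆ Fintype.piFinset fun k => Finset.Icc ⌈c k - w⌉ ⌊c k + w⌋ := by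
    intro τ hτ
    refine Fintype.mem_piFinset.mpr fun k => ?_
    have := abs_le.mp (h τ hτ k)
    exact mem_Icc.mpr ⟨Int.ceil_le.mpr (by linarith), Int.le_floor.mpr (by linarith)⟩
  have h1 := Finset.card_le_card hsub
  rw [Fintype.card_piFinset] at h1
  calc (#S : ℝ) ≤ ∏ k : Fin d, (#(Finset.Icc ⌈c k - w⌉ ⌊c k + w⌋) : ℝ) := by exact_mod_cast h1
    _ ≤ ∏ _k : Fin d, (2 * w + 1) := Finset.prod_le_prod (fun _ _ => by positivity) fun k _ =>
        (card_Icc_le (by linarith)).trans (le_of_eq (by ring))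
    _ = _ := by simp

theorem near {L j0 : ℝ} (hj : 1 ≤ j0) (r : ℕ) (D : Finset (Bk d)) (b : Bk d) (τ : Fin d → ℤ) :
    (#(D.filter fun b' => ((∀ k, |(tb L b' τ).1 k - (tb L b τ).1 k| ≤ r) ∧ b'.2.2 = b.2.2) ∧
      |(b'.2.1 : ℝ) - b.2.1| ≤ j0) : ℝ) ≤ 3 * j0 * (2 * r + 3) ^ d := by
  set S := D.filter fun b' => ((∀ k, |(tb L b' τ).1 k - (tb L b τ).1 k| ≤ r) ∧ b'.2.2 = b.2.2) ∧
      |(b'.2.1 : ℝ) - b.2.1| ≤ j0 with hS
  have h1 : #S ≤ #(Finset.Icc ⌈(b.2.1 : ℝ) - j0⌉ ⌊(b.2.1 : ℝ) + j0⌋ ×ˢ S.image fun b' => (tb L b' τ).1) := by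
    refine Finset.card_le_card_of_injOn (fun b' => (b'.2.1, (tb L b' τ).1)) (fun b' hb' => ?_) ?_
    · have h2 := abs_le.mp (mem_filter.mp (mem_coe.mp hb')).2.2
      exact mem_coe.mpr (mem_product.mpr ⟨mem_Icc.mpr ⟨Int.ceil_le.mpr (by linarith), Int.le_floor.mpr (by linarith)⟩,
        mem_image_of_mem _ (mem_coe.mp hb')⟩)
    · intro b1 h1 b2 h2 h
      simp only [Prod.mk.injEq, tb] at h
      have e1 := (mem_filter.mp (mem_coe.mp h1)).2.1.2
      have e2 := (mem_filter.mp (mem_coe.mp h2)).2.1.2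
      have e3 := h.2
      rw [h.1] at e3
      exact Prod.ext (sub_left_injective e3) (Prod.ext h.1 (e1.trans e2.symm))
  rw [card_product] at h1
  have h2 := card_Icc_le (a := (b.2.1 : ℝ) - j0) (b := (b.2.1 : ℝ) + j0) (by linarith)
  have h3 := card_box (fun k => ((tb L b τ).1 k : ℝ)) (Nat.cast_nonneg r) (S.image fun b' => (tb L b' τ).1) (by
    intro q hq k
    obtain ⟨b', hb', rfl⟩ := mem_image.mp hq
    exact_mod_cast (mem_filter.mp hb').2.1.1 k)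
  calc (#S : ℝ) ≤ #(Finset.Icc ⌈(b.2.1 : ℝ) - j0⌉ ⌊(b.2.1 : ℝ) + j0⌋) * #(S.image fun b' => (tb L b' τ).1) := by
        exact_mod_cast h1
    _ ≤ (3 * j0) * (2 * r + 3) ^ d := by
        refine mul_le_mul (by linarith) (h3.trans ?_) (by positivity) (by positivity)
        gcongr
        norm_num

theorem far {L j0 : ℝ} (hL : 0 < L) (hj : 0 < j0) (r : ℕ) {b b' : Bk d} (h1 : j0 ≤ |(b'.2.1 : ℝ) - b.2.1|)
    (h2 : |(b'.2.1 : ℝ) - b.2.1| ≤ L) (T : Finset (Fin d → ℤ)) :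
    (#(T.filter fun τ => ∀ k, |(tb L b' τ).1 k - (tb L b τ).1 k| ≤ r) : ℝ) ≤ ((2 * r + 3) * L / j0) ^ d := by
  set j : ℝ := (b'.2.1 : ℝ) - b.2.1 with hjd
  have hj0 : 0 < |j| := hj.trans_le h1
  have hj1 : j ≠ 0 := abs_pos.mp hj0
  refine (card_box (fun k => ((b'.1 k : ℝ) - b.1 k) * L / j) (w := (r + 1) * L / |j|) (by positivity) _ ?_).trans ?_
  · intro τ hτ k
    have a0 : ((|(tb L b' τ).1 k - (tb L b τ).1 k| : ℤ) : ℝ) ≤ ((r : ℤ) : ℝ) := by exact_mod_cast (mem_filter.mp hτ).2 k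
    simp only [tb, sh, Pi.sub_apply] at a0
    push_cast at a0
    have a1 := abs_le.mp a0
    have a2 := Int.floor_le ((b'.2.1 : ℝ) * τ k / L)
    have a3 := Int.lt_floor_add_one ((b'.2.1 : ℝ) * τ k / L)
    have a4 := Int.floor_le ((b.2.1 : ℝ) * τ k / L)
    have a5 := Int.lt_floor_add_one ((b.2.1 : ℝ) * τ k / L)
    have e : (τ k : ℝ) - ((b'.1 k : ℝ) - b.1 k) * L / j =
        (((b'.2.1 : ℝ) * τ k / L - (b.2.1 : ℝ) * τ k / L) - ((b'.1 k : ℝ) - b.1 k)) * L / j := by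
      rw [hjd] at hj1 ⊢
      field_simp
    rw [e, abs_div, abs_mul, abs_of_pos hL]
    gcongr
    rw [abs_le]
    constructor <;> linarith [a1.1, a1.2]
  · gcongr
    have a1 : 1 ≤ L / |j| := by rwa [le_div_iff₀ hj0, one_mul]
    calc 2 * ((r + 1) * L / |j|) + 1 ≤ 2 * ((r + 1) * L / |j|) + L / |j| := by linarith
      _ = (2 * r + 3) * L / |j| := by ring
      _ ≤ _ := by gcongr

end Xra

open Xra in
/-- **[SL.XRA2]** -/
theorem xra2 (d : ℕ) : XRA2 d := by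
  classical
  intro hB L N r D hL hNL hD b hb
  have hL0 : 0 < L := by linarith
  refine ⟨fun τ => ?_, ?_⟩
  · have h1 : #(D.filter fun b' => tb L b' τ = tb L b τ) ≤ #(Finset.Ico (0:ℤ) N) := by
      refine Finset.card_le_card_of_injOn (fun b' => b'.2.1) (fun b' hb' => ?_) ?_
      · exact mem_coe.mpr (mem_Ico.mpr (hD b' (mem_filter.mp (mem_coe.mp hb')).1))
      · intro b1 h1 b2 h2 h
        have e := ((mem_filter.mp (mem_coe.mp h1)).2).trans ((mem_filter.mp (mem_coe.mp h2)).2).symm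
        simp only [Prod.mk.injEq, tb] at e h
        have e3 := e.1
        rw [h] at e3
        exact Prod.ext (sub_left_injective e3) (Prod.ext h e.2)
    rw [Int.card_Ico] at h1
    simpa using h1
  have hD1 : (1:ℝ) ≤ #D := by exact_mod_cast Finset.card_pos.mpr ⟨b, hb⟩
  set j0 : ℝ := (#D : ℝ) ^ (1 / ((d : ℝ) + 1)) with hj0
  have hj : 1 ≤ j0 := Real.one_le_rpow hD1 (by positivity)
  have hjD : j0 ^ (d + 1) = #D := by
    rw [hj0, ← Real.rpow_natCast, ← Real.rpow_mul (by linarith)]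
    push_cast
    rw [one_div_mul_cancel (by positivity), Real.rpow_one]
  have hT := (hB.2.2.2.1 L hL).1
  set c : Bk d → (Fin d → ℤ) → Prop := fun b' τ => ∀ k, |(tb L b' τ).1 k - (tb L b τ).1 k| ≤ r with hc
  set Df := D.filter fun b' => j0 ≤ |(b'.2.1 : ℝ) - b.2.1| with hDf
  have split : ∀ τ, (#(D.filter fun b' => c b' τ ∧ b'.2.2 = b.2.2) : ℝ) ≤
      3 * j0 * (2 * r + 3) ^ d + #(Df.filter fun b' => c b' τ) := by
    intro τ
    have hsub : (D.filter fun b' => c b' τ ∧ b'.2.2 = b.2.2) ⊆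
        (D.filter fun b' => (c b' τ ∧ b'.2.2 = b.2.2) ∧ |(b'.2.1 : ℝ) - b.2.1| ≤ j0) ∪ Df.filter fun b' => c b' τ := by
      intro b' h
      obtain ⟨h1, h2⟩ := mem_filter.mp h
      rcases le_total |(b'.2.1 : ℝ) - b.2.1| j0 with h3 | h3
      · exact mem_union_left _ (mem_filter.mpr ⟨h1, h2, h3⟩)
      · exact mem_union_right _ (mem_filter.mpr ⟨mem_filter.mpr ⟨h1, h3⟩, h2.1⟩)
    have h1 := (Finset.card_le_card hsub).trans (Finset.card_union_le _ _)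
    have h2 := near (L := L) hj r D b τ
    have h3 : (#(D.filter fun b' => c b' τ ∧ b'.2.2 = b.2.2) : ℝ) ≤
        #(D.filter fun b' => (c b' τ ∧ b'.2.2 = b.2.2) ∧ |(b'.2.1 : ℝ) - b.2.1| ≤ j0) +
          #(Df.filter fun b' => c b' τ) := by exact_mod_cast h1
    exact h3.trans (add_le_add h2 le_rfl)
  have swap : ∑ τ ∈ TT d L, (#(Df.filter fun b' => c b' τ) : ℝ) = ∑ b' ∈ Df, (#((TT d L).filter fun τ => c b' τ) : ℝ) := by
    simp only [Finset.card_filter]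
    push_cast
    exact Finset.sum_comm
  have hfar : ∑ b' ∈ Df, (#((TT d L).filter fun τ => c b' τ) : ℝ) ≤ j0 * (2 * r + 3) ^ d * L ^ d := by
    calc ∑ b' ∈ Df, (#((TT d L).filter fun τ => c b' τ) : ℝ) ≤ ∑ _b' ∈ Df, ((2 * r + 3) * L / j0) ^ d := by
          refine Finset.sum_le_sum fun b' h => ?_
          obtain ⟨h1, h2⟩ := mem_filter.mp h
          refine far hL0 (by linarith) r h2 ?_ _
          obtain ⟨a1, a2⟩ := hD b' h1
          obtain ⟨a3, a4⟩ := hD b hb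
          have b1 : (0:ℝ) ≤ b'.2.1 := by exact_mod_cast a1
          have b2 : (b'.2.1 : ℝ) ≤ N := by exact_mod_cast a2.le
          have b3 : (0:ℝ) ≤ b.2.1 := by exact_mod_cast a3
          have b4 : (b.2.1 : ℝ) ≤ N := by exact_mod_cast a4.le
          rw [abs_le]
          constructor <;> linarith
      _ ≤ #D * ((2 * r + 3) * L / j0) ^ d := by
          rw [Finset.sum_const, nsmul_eq_mul]
          gcongr
          exact Finset.filter_subset _ _
      _ = _ := by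
          rw [← hjD, div_pow, mul_pow, pow_succ]
          field_simp
  have h13 : (1:ℝ) ≤ 13 ^ d := one_le_pow₀ (by norm_num)
  calc ∑ τ ∈ TT d L, (#(D.filter fun b' => c b' τ ∧ b'.2.2 = b.2.2) : ℝ)
      ≤ ∑ τ ∈ TT d L, (3 * j0 * (2 * r + 3) ^ d + #(Df.filter fun b' => c b' τ)) := Finset.sum_le_sum fun τ _ => split τ
    _ = #(TT d L) * (3 * j0 * (2 * r + 3) ^ d) + ∑ b' ∈ Df, (#((TT d L).filter fun τ => c b' τ) : ℝ) := by
        rw [Finset.sum_add_distrib, Finset.sum_const, nsmul_eq_mul, swap]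
    _ ≤ (13 ^ d * L ^ d) * (3 * j0 * (2 * r + 3) ^ d) + 13 ^ d * (j0 * (2 * r + 3) ^ d * L ^ d) := by
        refine add_le_add (by gcongr) (hfar.trans (le_mul_of_one_le_left (by positivity) h13))
    _ = _ := by rw [mul_pow]; ring

end Vale.Agent.P076N.SL
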