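import Vale.Agent.P076N.SL.Asm2
import Vale.Agent.P076N.SL.Bas
import Vale.Agent.P076N.SL.Rot
import Vale.Agent.P076N.SL.Par
import Vale.Agent.P076N.SL.Mult
import Vale.Agent.P076N.SL.Tay
import Vale.Agent.P076N.SL.Frz2
import Vale.Agent.P076N.SL.Kb2
import Vale.Agent.P076N.SL.Loc2
import Vale.Agent.P076N.SL.Kla2
import Vale.Agent.P076N.SL.Tt4
import Vale.Agent.P076N.SL.Ena2
import Vale.Agent.P076N.SL.Xra2
import Vale.Agent.P076N.SL.Num2

/-! # P076N / SL : the thick slab bound from the one-block count -/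

namespace Vale.Agent.P076N.SL

/-- **[SLAB]** -/
theorem slab (d : ℕ) (hd : 2 ≤ d) (hk : KEY d) : TS (d + 1) :=
  slab_of2 ⟨bas, rot, par, mult, tay, frz2, kb2, loc2, kla2, tt4, ena2, xra2, num2, asm2⟩ d hd hk

end Vale.Agent.P076N.SL
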